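import Vale.Agent.P284Y.D.Sk
import Vale.Agent.P284Y.Lib.Gl1
import Vale.Agent.P284Y.Lib.Gl2
import Vale.Agent.P284Z.R.Amen

/-!
# P284Y, block D1: smoothing and gluing
-/

open scoped ContDiff Topology
open Filter Set Function Metric

noncomputable section

namespace Vale.Agent.P284Y.D

open Vale.Agent.P272.K Vale.Agent.P284Z Vale.Agent.P284Z.J Vale.Agent.P284.H894.G
  Vale.Agent.P284Y.Lib

namespace D1

section gen
variable {W W' : Type} [NormedAddCommGroup W] [NormedSpace ℂ W] [NormedAddCommGroup W']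
  [NormedSpace ℂ W']

theorem smooth [FiniteDimensional ℂ W] {φ : W → ℝ} {U K : Set W} (hU : IsOpen U)
    (hK : IsCompact K) (hKU : K ⊆ U) (hc : ContinuousOn φ U) (hp : Psh φ U) :
    ∃ ψ : W → ℝ, ContDiff ℝ ∞ ψ ∧ Psh ψ K ∧ ∀ z ∈ K, |ψ z - φ z| ≤ 1 := by
  have : ProperSpace W := Z.proper
  obtain ⟨δ, h1, h2⟩ := hK.exists_cthickening_subset_open hU hKU
  obtain ⟨r, h3, h4⟩ := Metric.uniformContinuousOn_iff_le.1
    (hK.cthickening.uniformContinuousOn_of_continuous (hc.mono h2)) 1 one_pos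
  obtain ⟨v, v1, v2, v3⟩ := hp.reg (.of_cont hc) hU hK (lt_min h1 h3)
    ((cthickening_mono (min_le_left _ _) K).trans h2)
  refine ⟨v, v1, v2, fun z hz => abs_le.2 ⟨by linarith [(v3 z hz).1], ?_⟩⟩
  have := (v3 z hz).2 (φ z + 1) fun x hx => by
    have h5 := h4 x (mem_cthickening_of_dist_le x z _ _ hz
      ((mem_closedBall.1 hx).trans (min_le_left _ _))) z (self_subset_cthickening K hz)
      ((mem_closedBall.1 hx).trans (min_le_right _ _))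
    linarith [(abs_le.1 h5).2]
  linarith

theorem psh_swap {u : W × W' → ℝ} {U : Set W} {O : Set W'} (h : Psh u (U ×ˢ O)) :
    Psh (fun q : W' × W => u (q.2, q.1)) (O ×ˢ U) := by
  simpa using (h.affine 0 ((ContinuousLinearMap.snd ℂ W' W).prod (.fst ℂ W' W))).mono
    (U' := O ×ˢ U) fun q hq => by simpa using ⟨hq.2, hq.1⟩

end gen

variable {n : ℕ} {Γ E : Type} [Group Γ] [TopologicalSpace E] [MulAction Γ E] {C : Cov n Γ E}
  {p : ℕ} {V : ℕ → Set E} {sh : ℕ → E → Cm p}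

theorem nsq_nonneg (z : Cm n) : 0 ≤ nsq z := Finset.sum_nonneg fun _ _ => sq_nonneg _

theorem nsq_cont : Continuous (nsq : Cm n → ℝ) := by
  unfold nsq
  fun_prop

theorem fr_one {R : ℝ} (h : 0 ≤ R) : Fr R (1 : Mx n) := fun u => by
  rw [Matrix.one_mulVec]
  exact ⟨mul_le_of_le_one_left (nsq_nonneg u) (Real.exp_le_one_iff.2 (by linarith)),
    le_mul_of_one_le_left (nsq_nonneg u) (Real.one_le_exp (by linarith))⟩

theorem c25 (a : C.I) : C.cB 2 a ⊆ C.B (5 / 2) a := C.cB_sub_B (by norm_num) a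

theorem b25 {a : C.I} {z : Cm n} (hz : z ∈ C.B 2 a) : z ∈ C.B (5 / 2) a :=
  c25 a (C.B_sub_cB 2 a hz)

theorem b12 {a : C.I} {z : Cm n} (hz : z ∈ C.B 1 a) : z ∈ C.B 2 a := C.B_mono one_le_two a hz

theorem exists_Q (Y : YD C V sh) : ∃ Q : ℝ, 0 ≤ Q ∧ ∀ j, Y.e j ≤ Q ∧ ∀ a, ∀ z ∈ C.B 2 a,
    0 ≤ Y.e j * nsq z ∧ Y.e j * nsq z ≤ Q := by
  obtain ⟨Ke, hK⟩ := Y.e_tend.bddAbove_range
  obtain ⟨M, hM⟩ := (isCompact_iUnion (C.isCompact_cB 2)).exists_bound_of_continuousOn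
    (nsq_cont (n := n)).continuousOn
  have h1 : ∀ j, Y.e j ≤ Ke := fun j => hK (mem_range_self j)
  have h0 : 0 ≤ Ke := (Y.e_pos 0).le.trans (h1 0)
  refine ⟨Ke * (|M| + 1), by positivity, fun j => ⟨?_, fun a z hz =>
    ⟨mul_nonneg (Y.e_pos j).le (nsq_nonneg z), ?_⟩⟩⟩
  · nlinarith [h1 j, mul_nonneg h0 (abs_nonneg M)]
  · have h2 := (le_abs_self _).trans (hM z (mem_iUnion.2 ⟨a, C.B_sub_cB 2 a hz⟩))
    exact mul_le_mul (h1 j) (by linarith [le_abs_self M]) (nsq_nonneg z) h0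

/-- the one point function -/
theorem exists_g [Countable Γ] [T2Space E] (Y : YD C V sh) :
    ∃ (A K₀ : ℝ) (g : ℕ → E → ℝ), 0 ≤ K₀ ∧ ∀ j, (∀ y, C.SmAt (g j) y) ∧ QP C A (g j) univ ∧
      (∀ (γ : Γ) y, g j (γ • y) = g j y) ∧ ∀ γ a, ∀ z ∈ C.B 2 a,
        g j (C.pt γ a z) ≤ Y.f j a z 1 ∧ Y.f j a z 1 - K₀ ≤ g j (C.pt γ a z) := by
  obtain ⟨Q, hQ, hq⟩ := exists_Q Y
  obtain ⟨Kg, hKg, H⟩ := gl n Γ E C
  obtain ⟨δ, hδ⟩ : ∃ δ, δ = |Y.K| + 2 * (1 + Q) := ⟨_, rfl⟩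
  have δ0 : 0 < δ := by
    rw [hδ]
    positivity
  have k0 := mul_pos hKg δ0
  suffices h : ∀ j, ∃ g : E → ℝ, (∀ y, C.SmAt g y) ∧ QP C (0 + Kg * δ) g univ ∧
      (∀ (γ : Γ) y, g (γ • y) = g y) ∧ ∀ γ a, ∀ z ∈ C.B 2 a, g (C.pt γ a z) ≤ Y.f j a z 1 ∧
        Y.f j a z 1 - 2 * (Kg * δ + (1 + Q)) ≤ g (C.pt γ a z) by
    choose g hg using h
    exact ⟨_, _, g, by positivity, hg⟩
  intro j
  choose ψ p1 p2 p3 using fun a => smooth (φ := fun z => Y.f j a z 1 + Y.e j * nsq z)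
    (C.isOpen_B (5 / 2) a) (C.isCompact_cB 2 a) (c25 a)
    ((Y.f_cont j a 1 (fr_one (Y.R_nonneg j))).add
      (continuous_const.mul nsq_cont).continuousOn) (Y.f_psh j a 1 (fr_one (Y.R_nonneg j)))
  have p4 : ∀ a, ∀ z ∈ C.B 2 a, -(1 + Q) ≤ ψ a z - Y.f j a z 1 ∧ ψ a z - Y.f j a z 1 ≤ 1 + Q :=
    fun a z hz => by
      have h1 := abs_le.1 (p3 a z (C.B_sub_cB 2 a hz))
      have h2 := (hq j).2 a z hz
      constructor <;> linarith [h1.1, h1.2, h2.1, h2.2]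
  obtain ⟨g, g1, g2, g3, g4⟩ := H 0 δ univ (fun _ a z => ψ a z + -(Kg * δ + (1 + Q))) δ0
    isOpen_univ
    (fun _ a z hz _ => by
      have h1 : ContDiffAt ℝ ∞ (fun z => ψ a z + -(Kg * δ + (1 + Q))) z :=
        (p1 a).contDiffAt.add contDiffAt_const
      refine ⟨h1, ?_⟩
      simp only [zero_mul, zero_add]
      exact ((p2 a).add (psh_const _ _) (.of_cont (p1 a).continuous.continuousOn)
        (.of_cont continuousOn_const)).cHess_psd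
        (mem_of_superset ((C.isOpen_B 2 a).mem_nhds hz) (C.B_sub_cB 2 a)) (h1.of_le two_le_inf))
    fun γ a γ' b z hz z' hz' e _ => by
      have h1 := Y.f_ch j (γ'⁻¹ * γ) a b z (b25 hz) z' (b25 hz')
        (by rw [← C.smul_pt, e, C.smul_pt, inv_mul_cancel])
      linarith [(p4 a z hz).2, (p4 b z' hz').1, le_abs_self Y.K]
  refine ⟨g, fun y => g1 y (mem_univ y), fun γ a => psh_of_cHess fun z hz =>
    ⟨((contDiffAt_const.mul (C.ρ_sm a z hz.1)).add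
      (g1 _ (mem_univ _) γ a z hz.1 rfl)).of_le two_le_inf, g2 γ a z hz.1 hz.2⟩,
    g4 fun _ _ => rfl, fun γ a z hz => ?_⟩
  have h1 := abs_le.1 (g3 γ a z hz (mem_univ _))
  constructor <;> linarith [h1.1, h1.2, (p4 a z hz).1, (p4 a z hz).2]

/-- the symmetric two point function -/
def vt (Y : YF C) (l j : ℕ) (γ : Γ) (a : C.I) (x : Cm n) (γ' : Γ) (b : C.I) (y : Cm n) : ℝ :=
  ((Y.N l : ℝ) + 1)⁻¹ * (Y.v l j a x (γ⁻¹ * γ') b y 1 + Y.v l j b y (γ'⁻¹ * γ) a x 1)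

theorem vt_eq (Y : YF C) (l j : ℕ) (γ : Γ) (a : C.I) (x : Cm n) (γ' : Γ) (b : C.I) (y : Cm n) :
    vt Y l j γ a x γ' b y = Y.ut l j γ a x γ' b y + Y.f j a x 1 + Y.f j b y 1 := by
  unfold vt YF.ut YF.u
  field_simp
  ring

theorem inv_le (Y : YD C V sh) (l : ℕ) :
    0 < ((Y.N l : ℝ) + 1)⁻¹ ∧ ((Y.N l : ℝ) + 1)⁻¹ ≤ 1 / 2 := by
  have h : (1 : ℝ) ≤ Y.N l := by exact_mod_cast Y.N_pos l
  exact ⟨by positivity, by rw [one_div]; exact inv_anti₀ two_pos (by linarith)⟩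

theorem avg_le (Y : YD C V sh) (l : ℕ) {s t : ℝ} (ht : 0 ≤ t) (h : s ≤ 2 * t) :
    ((Y.N l : ℝ) + 1)⁻¹ * s ≤ t := by
  nlinarith [(inv_le Y l).1, (inv_le Y l).2, mul_le_mul_of_nonneg_left h (inv_le Y l).1.le]

theorem ut_le (Y : YD C V sh) {l j : ℕ} (h : l ≤ j) (γ γ' : Γ) {a b : C.I} {x y : Cm n}
    (hx : x ∈ C.B 2 a) (hy : y ∈ C.B 2 b) : Y.ut l j γ a x γ' b y ≤ Y.e j := by
  have h1 := Y.v_le l j h a (γ⁻¹ * γ') b 1 (fr_one (Y.R_nonneg j)) x (b25 hx) y (b25 hy)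
  have h2 := Y.v_le l j h b (γ'⁻¹ * γ) a 1 (fr_one (Y.R_nonneg j)) y (b25 hy) x (b25 hx)
  rw [YF.ut, div_eq_inv_mul]
  refine avg_le Y l (Y.e_pos j).le ?_
  unfold YF.u
  linarith

/-- the level which is used at the stage `j` -/
def lev (l j : ℕ) : ℕ := if l ≤ j then l else 0

theorem lev_le (l j : ℕ) : lev l j ≤ j := by
  unfold lev
  split_ifs <;> omega

theorem lev_eq {l j : ℕ} (h : l ≤ j) : lev l j = l := if_pos h

/-- the two point function -/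
theorem exists_w [T2Space E] (Y : YD C V sh) :
    ∃ (Al Kw : ℕ → ℝ) (w : ℕ → ℕ → E → E → ℝ), (∀ l, 0 ≤ Kw l) ∧ ∀ l j, Sm₂ C (w l j) ∧
      QP₂ C (Al l) (w l j) ∧ (∀ (γ : Γ) x y, w l j (γ • x) (γ • y) = w l j x y) ∧
      (∀ x y, w l j x y = w l j y x) ∧ ∀ γ a γ' b, ∀ x ∈ C.B 2 a, ∀ y ∈ C.B 2 b,
        |w l j (C.pt γ a x) (C.pt γ' b y) - vt Y.toYF (lev l j) j γ a x γ' b y| ≤ Kw l := by
  obtain ⟨Q, hQ, hq⟩ := exists_Q Y
  obtain ⟨Kg, hKg, H⟩ := gl2 n Γ E C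
  suffices h : ∀ l j, l ≤ j → ∀ δ, |Y.Kl l| + 2 * (1 + 2 * Q) ≤ δ → ∃ w : E → E → ℝ, Sm₂ C w ∧
      QP₂ C (0 + Kg * δ) w ∧ (∀ (γ : Γ) x y, w (γ • x) (γ • y) = w x y) ∧
      (∀ x y, w x y = w y x) ∧ ∀ γ a γ' b, ∀ x ∈ C.B 2 a, ∀ y ∈ C.B 2 b,
        |w (C.pt γ a x) (C.pt γ' b y) - vt Y.toYF l j γ a x γ' b y| ≤ Kg * δ + (1 + 2 * Q) by
    choose w hw using fun l j => h (lev l j) j (lev_le l j)
      (|Y.Kl l| + |Y.Kl 0| + 2 * (1 + 2 * Q)) (by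
        unfold lev
        split_ifs <;> linarith [abs_nonneg (Y.Kl l), abs_nonneg (Y.Kl 0)])
    exact ⟨_, _, w, fun l => by positivity, hw⟩
  intro l j hl δ hδ
  have δ0 : 0 < δ := lt_of_lt_of_le (by positivity) hδ
  choose ψ p1 p2 p3 using fun γ a b => smooth
    (φ := fun q : Cm n × Cm n => Y.v l j a q.1 γ b q.2 1 + Y.e j * (nsq q.1 + nsq q.2))
    ((C.isOpen_B (5 / 2) a).prod (C.isOpen_B (5 / 2) b))
    ((C.isCompact_cB 2 a).prod (C.isCompact_cB 2 b)) (prod_mono (c25 a) (c25 b))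
    ((Y.v_cont l j hl a γ b 1 (fr_one (Y.R_nonneg j))).add (continuous_const.mul
      ((nsq_cont.comp continuous_fst).add (nsq_cont.comp continuous_snd))).continuousOn)
    (Y.v_psh l j hl a γ b 1 (fr_one (Y.R_nonneg j)))
  have p4 : ∀ γ a b, ∀ x ∈ C.B 2 a, ∀ y ∈ C.B 2 b,
      -(1 + 2 * Q) ≤ ψ γ a b (x, y) - Y.v l j a x γ b y 1 ∧
        ψ γ a b (x, y) - Y.v l j a x γ b y 1 ≤ 1 + 2 * Q := fun γ a b x hx y hy => by
    have h1 := abs_le.1 (p3 γ a b (x, y) ⟨C.B_sub_cB 2 a hx, C.B_sub_cB 2 b hy⟩)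
    have h2 := (hq j).2 a x hx
    have h3 := (hq j).2 b y hy
    simp only [mul_add] at h1
    constructor <;> linarith [h1.1, h1.2, h2.1, h2.2, h3.1, h3.2]
  obtain ⟨u, hu⟩ : ∃ u : Γ → C.I → Γ → C.I → Cm n × Cm n → ℝ, u = fun γ a γ' b q =>
    ((Y.N l : ℝ) + 1)⁻¹ * (ψ (γ⁻¹ * γ') a b q + ψ (γ'⁻¹ * γ) b a (q.2, q.1)) := ⟨_, rfl⟩
  have p5 : ∀ γ a γ' b, ∀ x ∈ C.B 2 a, ∀ y ∈ C.B 2 b,
      |u γ a γ' b (x, y) - vt Y.toYF l j γ a x γ' b y| ≤ 1 + 2 * Q := fun γ a γ' b x hx y hy => by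
    have h1 := p4 (γ⁻¹ * γ') a b x hx y hy
    have h2 := p4 (γ'⁻¹ * γ) b a y hy x hx
    rw [hu, vt, ← mul_sub, abs_mul, abs_of_pos (inv_le Y l).1]
    exact avg_le Y l (by positivity) (abs_le.2 ⟨by linarith [h1.1, h2.1], by linarith [h1.2, h2.2]⟩)
  have sw : ∀ γ a b, ContDiff ℝ ∞ fun q : Cm n × Cm n => ψ γ a b (q.2, q.1) :=
    fun γ a b => (p1 γ a b).comp (contDiff_snd.prodMk contDiff_fst)
  obtain ⟨w, w1, w2, w3, w4, w5⟩ := H 0 δ u δ0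
    (fun γ a γ' b q _ => by
      rw [hu]
      exact (contDiff_const.mul ((p1 _ a b).add (sw _ b a))).contDiffAt)
    (fun γ a γ' b => by
      rw [hu]
      simp only [zero_mul, zero_add]
      exact ((((p2 _ a b).add (psh_swap (p2 _ b a)) (.of_cont (p1 _ a b).continuous.continuousOn)
        (.of_cont (sw _ b a).continuous.continuousOn)).const_mul (inv_le Y l).1.le)).mono
        (prod_mono (C.B_sub_cB 2 a) (C.B_sub_cB 2 b)))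
    fun γ a γ' b q hq γ₁ a₁ γ₁' b₁ q₁ hq₁ e e' => by
      have h1 := Y.v_ch l j hl (γ⁻¹ * γ₁) a a₁ (γ⁻¹ * γ') (γ₁⁻¹ * γ₁') b b₁ _ (b25 hq.1) _
        (b25 hq₁.1) _ (b25 hq.2) _ (b25 hq₁.2) (by rw [← C.smul_pt, ← e, C.smul_pt, inv_mul_cancel])
        (by rw [mul_assoc, mul_inv_cancel_left, ← C.smul_pt, ← C.smul_pt, e'])
      have h2 := Y.v_ch l j hl (γ'⁻¹ * γ₁') b b₁ (γ'⁻¹ * γ) (γ₁'⁻¹ * γ₁) a a₁ _ (b25 hq.2) _
        (b25 hq₁.2) _ (b25 hq.1) _ (b25 hq₁.1) (by rw [← C.smul_pt, ← e', C.smul_pt, inv_mul_cancel])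
        (by rw [mul_assoc, mul_inv_cancel_left, ← C.smul_pt, ← C.smul_pt, e])
      have h3 : vt Y.toYF l j γ a q.1 γ' b q.2 - vt Y.toYF l j γ₁ a₁ q₁.1 γ₁' b₁ q₁.2 ≤
          |Y.Kl l| := by
        rw [vt, vt, ← mul_sub]
        exact avg_le Y l (abs_nonneg _) (by linarith [le_abs_self (Y.Kl l)])
      linarith [(abs_le.1 (p5 γ a γ' b _ hq.1 _ hq.2)).2,
        (abs_le.1 (p5 γ₁ a₁ γ₁' b₁ _ hq₁.1 _ hq₁.2)).1]
  refine ⟨w, w1, w2, w4 fun g γ a γ' b => ?_, w5 fun γ a γ' b z z' => ?_,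
    fun γ a γ' b x hx y hy => (abs_sub_le _ _ _).trans
      (add_le_add (w3 γ a γ' b (x, y) ⟨hx, hy⟩) (p5 γ a γ' b x hx y hy))⟩
  · simp only [hu, mul_inv_rev, mul_assoc, inv_mul_cancel_left]
  · simp only [hu]
    rw [add_comm (ψ _ a b _)]

/-- charts which depend on the orbit -/
theorem exists_chart (C : Cov n Γ E) : ∃ (τ : E → Γ) (α : E → C.I) (ζ : E → Cm n),
    (∀ y, ζ y ∈ C.B 1 (α y) ∧ C.pt (τ y) (α y) (ζ y) = y) ∧
    ∀ (γ : Γ) y, τ (γ • y) = γ * τ y ∧ α (γ • y) = α y ∧ ζ (γ • y) = ζ y := by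
  choose τ₀ α ζ h1 h2 using C.exists_pt
  obtain ⟨σ, hσ⟩ : ∃ σ : E → E, ∀ y, σ y = (Quotient.mk (MulAction.orbitRel Γ E) y).out :=
    ⟨_, fun _ => rfl⟩
  have h3 : ∀ y, ∃ g : Γ, C.pt g (α (σ y)) (ζ (σ y)) = y := fun y => by
    obtain ⟨g, hg⟩ : y ∈ MulAction.orbit Γ (σ y) := by
      rw [hσ]
      exact (MulAction.orbitRel Γ E).symm (Quotient.mk_out (s := MulAction.orbitRel Γ E) y)
    exact ⟨g * τ₀ (σ y), by rw [← C.smul_pt, ← h2]; exact hg⟩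
  have h4 : ∀ (γ : Γ) y, σ (γ • y) = σ y := fun γ y => by
    rw [hσ, hσ, Quotient.sound (s := MulAction.orbitRel Γ E) (MulAction.mem_orbit y γ)]
  choose τ hτ using h3
  refine ⟨τ, fun y => α (σ y), fun y => ζ (σ y), fun y => ⟨h1 _, hτ y⟩,
    fun γ y => ⟨?_, by simp only [h4], by simp only [h4]⟩⟩
  have h5 := hτ (γ • y)
  rw [h4] at h5
  have h6 := C.free ((γ * τ y)⁻¹ * τ (γ • y)) (C.pt 1 (α (σ y)) (ζ (σ y))) (by
    rw [C.smul_pt, mul_one, ← C.smul_pt, h5, mul_inv_rev, mul_smul, inv_smul_smul,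
      inv_smul_eq_iff, C.smul_pt, mul_one, hτ])
  exact (inv_mul_eq_one.1 h6).symm

theorem reit (Y : YD C V sh) {l j : ℕ} (h : l ≤ j) {γ γ' : Γ} {a b : C.I} {x y : Cm n}
    (hx : Y.Good j a x) (hy : Y.Good j b y) (hu : Y.ut l j γ a x γ' b y ≤ -1) :
    ∑' g, |Y.m j a x (γ⁻¹ * g) - Y.m j b y (γ'⁻¹ * g)| ≤ Y.η l := by
  have key : ∀ {γ γ' : Γ} {a b : C.I} {x y : Cm n}, Y.Good j a x → Y.Good j b y →
      Y.u l j a x (γ⁻¹ * γ') b y ≤ -1 →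
      ∑' g, |Y.m j a x (γ⁻¹ * g) - Y.m j b y (γ'⁻¹ * g)| ≤ Y.η l := fun {γ γ' a b x y} hx hy hu => by
    refine le_of_eq_of_le ?_ (Y.reiter l j h a x _ b y hx hy hu)
    rw [← (Equiv.mulLeft γ).tsum_eq]
    simp only [Equiv.coe_mulLeft, inv_mul_cancel_left, mul_inv_rev, inv_inv, mul_assoc]
  have h1 : (1 : ℝ) ≤ Y.N l := by exact_mod_cast Y.N_pos l
  rw [YF.ut, div_le_iff₀ (by positivity)] at hu
  by_cases h2 : Y.u l j a x (γ⁻¹ * γ') b y ≤ -1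
  · exact key hx hy h2
  · simpa only [abs_sub_comm] using key hy hx (γ := γ') (γ' := γ) (by linarith)

end D1

open D1

theorem stD1 : StD1 := by
  classical
  intro n Γ E _ _ _ _ _ _ C hF p V sh Y
  obtain ⟨Q, hQ, hq⟩ := exists_Q Y
  obtain ⟨A, K₀, g, k0, hg⟩ := exists_g Y
  obtain ⟨Al, Kw, w, kw, hw⟩ := exists_w Y
  obtain ⟨τ, α, ζ, hτ, hτ'⟩ := exists_chart C
  obtain ⟨S, hS, ε, hε, gap⟩ := Am.gap hF
  obtain ⟨l₀, hl₀⟩ := eventually_atTop.1 (Y.η_tend.eventually (gt_mem_nhds hε))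
  have uv : ∀ l j γ a γ' b, ∀ x ∈ C.B 2 a, ∀ y ∈ C.B 2 b,
      Y.ut (lev l j) j γ a x γ' b y - Kw l ≤ uu (g j) (w l j) (C.pt γ a x) (C.pt γ' b y) ∧
      uu (g j) (w l j) (C.pt γ a x) (C.pt γ' b y) ≤ Y.ut (lev l j) j γ a x γ' b y +
        (Kw l + 2 * K₀) := fun l j γ a γ' b x hx y hy => by
    have h1 := abs_le.1 ((hw l j).2.2.2.2 γ a γ' b x hx y hy)
    have h2 := (hg j).2.2.2 γ a x hx
    have h3 := (hg j).2.2.2 γ' b y hy
    rw [vt_eq] at h1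
    unfold uu
    constructor <;> linarith [h1.1, h1.2, h2.1, h2.2, h3.1, h3.2]
  have uv' : ∀ l j, l ≤ j → ∀ x y,
      Y.ut l j (τ x) (α x) (ζ x) (τ y) (α y) (ζ y) - Kw l ≤ uu (g j) (w l j) x y ∧
      uu (g j) (w l j) x y ≤ Y.ut l j (τ x) (α x) (ζ x) (τ y) (α y) (ζ y) + (Kw l + 2 * K₀) :=
    fun l j h x y => by
      have h1 := uv l j (τ x) _ (τ y) _ _ (b12 (hτ x).1) _ (b12 (hτ y).1)
      rwa [(hτ x).2, (hτ y).2, lev_eq h] at h1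
  have gd : ∀ j x, -Y.L j ≤ g j x → Y.Good j (α x) (ζ x) := fun j x h =>
    ⟨b25 (b12 (hτ x).1), by
      have h1 := ((hg j).2.2.2 (τ x) _ _ (b12 (hτ x).1)).1
      rw [(hτ x).2] at h1
      exact h.trans h1⟩
  obtain ⟨K, hK⟩ : ∃ K : ℕ → ℝ, ∀ l, K l = Kw (l₀ + l) + Kw (l₀ + (l + 1)) + 2 * K₀ +
    |Y.Kl (l₀ + l)| + |Y.K| + Q + 1 := ⟨_, fun _ => rfl⟩
  obtain ⟨mm, hm⟩ : ∃ mm : ℕ → ∀ a : C.I, Cm n → Γ → ℝ, ∀ j a z,
    mm j a z = if Y.Good j a z then Y.m j a z else Pi.single 1 1 := ⟨_, fun _ _ _ => rfl⟩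
  refine ⟨{
    A := A
    Al := fun l => Al (l₀ + l)
    K := K
    c := fun l => ((Y.N (l₀ + l) : ℝ) + 1)⁻¹ * (2 * Y.c (l₀ + l))
    η := fun l => Y.η (l₀ + l)
    L := Y.L
    g := g
    w := fun l => w (l₀ + l)
    m := fun j y γ => mm j (α y) (ζ y) ((τ y)⁻¹ * γ)
    c_pos := fun l => mul_pos (inv_le Y _).1 (mul_pos two_pos (Y.c_pos _))
    η_tend := Y.η_tend.comp (tendsto_atTop_mono (fun l => Nat.le_add_left l l₀) tendsto_id)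
    L_tend := Y.L_tend
    g_sm := fun j => (hg j).1
    g_psh := fun j => (hg j).2.1
    g_inv := fun j => (hg j).2.2.1
    g_le := fun j y => ?_
    w_sm := fun l j => (hw _ j).1
    w_psh := fun l j => (hw _ j).2.1
    w_inv := fun l j => (hw _ j).2.2.1
    w_symm := fun l j => (hw _ j).2.2.2.1
    u_le := fun l j x y => ?_
    chain := fun l => (eventually_ge_atTop (l₀ + l + 1)).mono fun j hj x₁ x₂ x₃ x₄ a b c d => ?_
    mono := fun l => (eventually_ge_atTop (l₀ + l + 1)).mono fun j hj x y a b => ?_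
    pole := fun l => (eventually_ge_atTop (l₀ + l)).mono fun j hj a z hz z' hz' r hr hd => ?_
    nondeg := ⟨⋃ s ∈ insert 1 S, (fun y => s • y) '' C.K₁,
      (hS.insert 1).isCompact_biUnion fun s _ => C.isCompact_K₁.image (C.cont s), fun l => ?_⟩
    m_nonneg := fun j y γ => ?_
    m_sum := fun j y => ?_
    m_eqv := fun j γ y γ' => ?_
    reiter := fun l => (eventually_ge_atTop (l₀ + l)).mono fun j hj x y a b h => ?_ },
    l₀, K₀, fun j γ a z hz => ?_, fun l => ⟨Kw (l₀ + l) + 2 * K₀,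
      (eventually_ge_atTop (l₀ + l)).mono fun j hj γ a γ' b x hx y hy => ?_⟩⟩
  · have h1 := ((hg j).2.2.2 (τ y) _ _ (b12 (hτ y).1)).1
    rw [(hτ y).2] at h1
    exact h1.trans (Y.f_le j _ _ (b25 (b12 (hτ y).1)))
  · have h1 := (uv (l₀ + l) j (τ x) _ (τ y) _ _ (b12 (hτ x).1) _ (b12 (hτ y).1)).2
    rw [(hτ x).2, (hτ y).2] at h1
    have h2 := ut_le Y (lev_le (l₀ + l) j) (τ x) (τ y) (b12 (hτ x).1) (b12 (hτ y).1)
    rw [hK]
    linarith [(hq j).1, kw (l₀ + (l + 1)), abs_nonneg (Y.Kl (l₀ + l)), abs_nonneg Y.K]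
  · have h1 := Y.chain (l₀ + l) j hj (fun i => τ (![x₁, x₂, x₃, x₄] i))
      (fun i => α (![x₁, x₂, x₃, x₄] i)) (fun i => ζ (![x₁, x₂, x₃, x₄] i)) fun i => gd j _ (by
        fin_cases i
        exacts [a, b, c, d])
    have h2 := (max_le_max (sub_le_iff_le_add.1 (uv' _ j hj x₁ x₂).1) (max_le_max
      (sub_le_iff_le_add.1 (uv' _ j hj x₂ x₃).1) (sub_le_iff_le_add.1 (uv' _ j hj x₃ x₄).1)))
    rw [max_add_add_right, max_add_add_right] at h2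
    have h3 := h1.trans (add_le_add h2 (le_abs_self _))
    have h4 := (uv' _ j (Nat.le_of_succ_le hj) x₁ x₄).2.trans (add_le_add h3 le_rfl)
    have h5 : Kw (l₀ + l + 1) = Kw (l₀ + (l + 1)) := rfl
    refine h4.trans ?_
    rw [hK, add_assoc, add_assoc]
    exact add_le_add le_rfl (by linarith [abs_nonneg Y.K])
  · have h1 := Y.mono (l₀ + l) j hj (τ x) _ _ (τ y) _ _ (gd j x a) (gd j y b)
    have h2 : _ ≤ uu (g j) (w (l₀ + (l + 1)) j) x y := (uv' (l₀ + l + 1) j hj x y).1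
    have h3 := (uv' _ j (Nat.le_of_succ_le hj) x y).2
    have h4 : Kw (l₀ + l + 1) = Kw (l₀ + (l + 1)) := rfl
    rw [hK]
    linarith [le_abs_self (Y.Kl (l₀ + l)), abs_nonneg Y.K]
  · have h1 := (abs_le.1 ((hw (l₀ + l) j).2.2.2.2 1 a 1 a z hz z' hz')).2
    have h2 := Y.pole _ j hj a z hz z' hz' r hr hd
    have h3 := Y.pole _ j hj a z' hz' z hz r hr (by rwa [norm_sub_rev])
    have i0 := (inv_le Y (l₀ + l)).1
    rw [lev_eq hj, vt, inv_one, mul_one] at h1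
    have h4 := mul_le_mul_of_nonneg_left (add_le_add h2 h3) i0.le
    have h5 := avg_le Y (l₀ + l) (abs_nonneg (Y.Kl (l₀ + l))) (s := 2 * Y.Kl (l₀ + l))
      (by linarith [le_abs_self (Y.Kl (l₀ + l))])
    have h6 : ((Y.N (l₀ + l) : ℝ) + 1)⁻¹ * 2 *
        max (Y.c (l₀ + l) * Real.log r) (-(Y.c (l₀ + l) * Y.L j)) =
        max (((Y.N (l₀ + l) : ℝ) + 1)⁻¹ * (2 * Y.c (l₀ + l)) * Real.log r)
          (-(((Y.N (l₀ + l) : ℝ) + 1)⁻¹ * (2 * Y.c (l₀ + l)) * Y.L j)) := by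
      rw [mul_max_of_nonneg _ _ (by positivity)]
      congr 1 <;> ring
    rw [hK, ← h6]
    linarith [kw (l₀ + (l + 1)), abs_nonneg Y.K]
  · filter_upwards [eventually_ge_atTop (l₀ + l), Y.L_tend.eventually_ge_atTop Y.K] with j hj hL
    obtain ⟨a, z, hz, h1⟩ := Y.f_top j
    have h2 : Y.Good j a z := ⟨b25 (b12 hz), by linarith⟩
    obtain ⟨s, hs, h3⟩ := gap _ (Y.m_nonneg j a z) (Y.m_sum j a z h2)
    have h4 : -1 < Y.ut (l₀ + l) j s a z 1 a z := not_le.1 fun h => by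
      have h5 := reit Y hj h2 h2 h
      simp only [inv_one, one_mul] at h5
      linarith [hl₀ _ (Nat.le_add_right l₀ l)]
    have h5 : C.pt 1 a z ∈ C.K₁ := mem_iUnion.2 ⟨a, z, C.B_sub_cB 1 a hz, rfl⟩
    have h6 := (uv (l₀ + l) j s a 1 a z (b12 hz) z (b12 hz)).1
    rw [lev_eq hj] at h6
    have h7 := fun γ => ((hg j).2.2.2 γ a z (b12 hz)).2
    have h8 := kw (l₀ + l)
    have h9 := kw (l₀ + (l + 1))
    refine ⟨C.pt s a z, mem_biUnion (mem_insert_of_mem _ hs) ⟨_, h5, (C.pt_eq s a z).symm⟩,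
      C.pt 1 a z, mem_biUnion (mem_insert _ _) ⟨_, h5, one_smul _ _⟩, ?_, ?_, ?_⟩ <;> rw [hK] <;>
      linarith [h7 s, h7 1, abs_nonneg (Y.Kl (l₀ + l)), abs_nonneg Y.K, le_abs_self Y.K]
  · rw [hm]
    split_ifs
    exacts [Y.m_nonneg _ _ _ _, (Pi.single_nonneg (α := fun _ : Γ => ℝ)).2 zero_le_one _]
  · refine (Equiv.mulLeft (τ y)⁻¹).hasSum_iff.2 (?_ : HasSum (mm j (α y) (ζ y)) 1)
    rw [hm]
    split_ifs with h
    exacts [Y.m_sum _ _ _ h, hasSum_pi_single 1 1]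
  · rw [(hτ' γ y).1, (hτ' γ y).2.1, (hτ' γ y).2.2, mul_inv_rev, mul_assoc, inv_mul_cancel_left]
  · simp only [hm, if_pos (gd j x a), if_pos (gd j y b)]
    refine reit Y hj (gd j x a) (gd j y b) ?_
    rw [hK] at h
    linarith [(uv' _ j hj x y).1, kw (l₀ + (l + 1)), abs_nonneg (Y.Kl (l₀ + l)), abs_nonneg Y.K]
  · have h1 := (hg j).2.2.2 γ a z hz
    exact abs_le.2 ⟨by linarith [h1.2], by linarith [h1.1]⟩
  · have h1 := (uv (l₀ + l) j γ a γ' b x hx y hy).2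
    rw [lev_eq hj] at h1
    rw [add_comm l l₀]
    exact h1

end Vale.Agent.P284Y.D
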