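import Vale.Agent.P284Z.F0.Psh
import Vale.Agent.P284Z.J.Spec

/-!
# P284Y, block D2: the `k`-norm of a pair, nearby points of the charts
-/

open scoped ContDiff Topology
open Filter Set Metric Real

noncomputable section

namespace Vale.Agent.P284Y.D.D2

open Vale.Agent.P272.K Vale.Agent.P284Z

/-- the `k + 1`-norm of a pair -/
def pn (k : ℕ) (x y : ℝ) : ℝ := (x ^ (k + 1) + y ^ (k + 1)) ^ ((k + 1 : ℕ) : ℝ)⁻¹

/-- the norm of `(1, 1)` -/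
def sn (k : ℕ) : ℝ := 2 ^ ((k + 1 : ℕ) : ℝ)⁻¹

section real
variable {k : ℕ} {x y t M : ℝ}

theorem pn_comm (k : ℕ) (x y : ℝ) : pn k x y = pn k y x := by rw [pn, pn, add_comm]

theorem le_pn (hx : 0 ≤ x) (hy : 0 ≤ y) : x ≤ pn k x y := by
  conv_lhs => rw [← pow_rpow_inv_natCast hx k.succ_ne_zero]
  exact rpow_le_rpow (by positivity) (le_add_of_nonneg_right (by positivity)) (by positivity)

theorem le_pn' (hx : 0 ≤ x) (hy : 0 ≤ y) : y ≤ pn k x y := pn_comm k y x ▸ le_pn hy hx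

theorem pn_mul (hx : 0 ≤ x) (hy : 0 ≤ y) (ht : 0 ≤ t) : pn k (x * t) (y * t) = pn k x y * t := by
  rw [pn, pn, mul_pow, mul_pow, ← add_mul, mul_rpow (by positivity) (by positivity),
    pow_rpow_inv_natCast ht k.succ_ne_zero]

theorem pn_le (hx : 0 ≤ x) (hy : 0 ≤ y) (h1 : x ≤ M) (h2 : y ≤ M) : pn k x y ≤ sn k * M := by
  have hM := hx.trans h1
  have e : sn k * M = (2 * M ^ (k + 1)) ^ ((k + 1 : ℕ) : ℝ)⁻¹ := by
    rw [mul_rpow zero_le_two (by positivity), pow_rpow_inv_natCast hM k.succ_ne_zero, sn]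
  rw [e, two_mul]
  exact rpow_le_rpow (by positivity)
    (add_le_add (pow_le_pow_left₀ hx h1 _) (pow_le_pow_left₀ hy h2 _)) (by positivity)

theorem one_le_sn (k : ℕ) : 1 ≤ sn k := one_le_rpow one_le_two (by positivity)

theorem sn_le (k : ℕ) : sn k ≤ 2 := by
  conv_rhs => rw [← rpow_one 2]
  exact rpow_le_rpow_of_exponent_le one_le_two
    (inv_le_one_of_one_le₀ (by exact_mod_cast k.succ_pos))

theorem sn_tend : Tendsto (fun k => sn k ^ 4) atTop (𝓝 1) := by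
  have h : Tendsto (fun k : ℕ => ((k + 1 : ℕ) : ℝ)⁻¹) atTop (𝓝 0) :=
    (tendsto_inv_atTop_nhds_zero_nat (𝕜 := ℝ)).comp (tendsto_add_atTop_nat 1)
  simpa [sn] using ((tendsto_const_nhds (x := (2 : ℝ))).rpow h (Or.inl two_ne_zero)).pow 4

end real

theorem pn_lpsh {W : Type} [NormedAddCommGroup W] [NormedSpace ℂ W] {P Q : W → ℝ} {U : Set W}
    (h : LPsh P U) (h' : LPsh Q U) (k : ℕ) : LPsh (fun z => pn k (P z) (Q z)) U :=
  ((h.pow _).add (h'.pow _)).rpow (by positivity)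

theorem pn_sm {W : Type} [NormedAddCommGroup W] [NormedSpace ℝ W] {P Q : W → ℝ} {z : W}
    (h : ContDiffAt ℝ ∞ P z) (h' : ContDiffAt ℝ ∞ Q z) (hp : 0 < P z) (hq : 0 < Q z) (k : ℕ) :
    ContDiffAt ℝ ∞ (fun z => pn k (P z) (Q z)) z :=
  ((h.pow _).add (h'.pow _)).rpow_const_of_ne (by positivity)

theorem pn_cont {X : Type} [TopologicalSpace X] {P Q : X → ℝ} (h : Continuous P)
    (h' : Continuous Q) (k : ℕ) : Continuous fun z => pn k (P z) (Q z) :=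
  ((h.pow _).add (h'.pow _)).rpow_const fun _ => Or.inr (by positivity)

theorem exists_anti {b : ℕ → ℝ} (hb : ∀ l, 0 < b l) :
    ∃ t : ℕ → ℝ, Antitone t ∧ ∀ l, 0 < t l ∧ t l ≤ b l :=
  ⟨fun l => (Finset.range (l + 1)).inf' (by simp) b,
    fun _ _ h => Finset.inf'_mono _ (Finset.range_mono (by omega)) _,
    fun l => ⟨(Finset.lt_inf'_iff _).2 fun i _ => hb i, Finset.inf'_le _ (by simp)⟩⟩

variable {n : ℕ} {Γ E : Type} [Group Γ] [TopologicalSpace E] [MulAction Γ E] (C : Cov n Γ E)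

theorem cont_of_sm {f : E → ℝ} (h : ∀ y, C.SmAt f y) : Continuous f :=
  continuous_iff_continuousAt.2 fun y => by
    obtain ⟨γ, a, z, hz, rfl⟩ := C.exists_pt y
    rw [ContinuousAt, ← C.map_pt' (C.B14 hz), tendsto_map'_iff]
    exact (h _ γ a z (C.B14 hz) rfl).continuousAt

theorem cont_of_sm₂ {f : E → E → ℝ} (h : ∀ γ a γ' b, ∀ q ∈ C.B 4 a ×ˢ C.B 4 b,
    ContDiffAt ℝ ∞ (fun q : Cm n × Cm n => f (C.pt γ a q.1) (C.pt γ' b q.2)) q) :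
    Continuous fun q : E × E => f q.1 q.2 :=
  continuous_iff_continuousAt.2 fun ⟨x, y⟩ => by
    obtain ⟨γ, a, z, hz, rfl⟩ := C.exists_pt x
    obtain ⟨γ', b, z', hz', rfl⟩ := C.exists_pt y
    have hq : (z, z') ∈ C.B 4 a ×ˢ C.B 4 b := ⟨C.B14 hz, C.B14 hz'⟩
    rw [ContinuousAt, ← C.map_pt2 γ γ' a b hq, tendsto_map'_iff]
    exact (h γ a γ' b _ hq).continuousAt

/-- nearby points of the polydiscs of radius `3` are nearby points of a polydisc of radius `2` -/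
theorem near : ∃ δ > (0 : ℝ), ∀ a, ∀ z ∈ C.B 3 a, ∀ z', ‖z - z'‖ < δ → ∃ γ b, ∃ w ∈ C.B 2 b,
    ∃ w' ∈ C.B 2 b, C.pt 1 a z = C.pt γ b w ∧ C.pt 1 a z' = C.pt γ b w' ∧
      δ / 2 * ‖w - w'‖ ≤ ‖z - z'‖ := by
  have h : ∀ᶠ p : Cm n × ℝ in 𝓝 0, ∀ a, ∀ z ∈ C.cB 3 a, ∃ γ b, ∃ w ∈ C.B 2 b,
      ∃ w' ∈ C.B 2 b, C.pt 1 a z = C.pt γ b w ∧ C.pt 1 a (z - p.1) = C.pt γ b w' ∧
        p.2 * ‖w - w'‖ ≤ ‖z - (z - p.1)‖ := by
    refine eventually_all.2 fun a => (C.isCompact_cB 3 a).eventually_forall_of_forall_eventually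
      fun z₀ hz => ?_
    obtain ⟨γ, b, w₀, hw, e⟩ := C.exists_pt (C.pt 1 a z₀)
    obtain ⟨o, e'⟩ := C.Ov_of_eq (C.cB_sub_B (by norm_num) a hz) (C.B14 hw) e
    obtain ⟨K, hK, h1⟩ := C.tr_lip₀ o
    have h2 : ∀ᶠ u in 𝓝 z₀, C.Ov (γ⁻¹ * 1) a b u ∧ C.tr (γ⁻¹ * 1) a b u ∈ C.B 2 b :=
      (C.ev_Ov o).and ((C.an_tr o).continuousAt.eventually_mem
        ((C.isOpen_B 2 b).mem_nhds (e' ▸ C.B_mono one_le_two b hw)))
    have t1 : Tendsto (fun q : (Cm n × ℝ) × Cm n => q.2) (𝓝 (0, z₀)) (𝓝 z₀) :=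
      continuous_snd.tendsto _
    have t2 : Tendsto (fun q : (Cm n × ℝ) × Cm n => q.2 - q.1.1) (𝓝 (0, z₀)) (𝓝 z₀) :=
      (by fun_prop : Continuous fun q : (Cm n × ℝ) × Cm n => q.2 - q.1.1).tendsto' _ _ (by simp)
    have t3 : Tendsto (fun q : (Cm n × ℝ) × Cm n => q.1.2 * K) (𝓝 (0, z₀)) (𝓝 0) :=
      (by fun_prop : Continuous fun q : (Cm n × ℝ) × Cm n => q.1.2 * K).tendsto' _ _ (by simp)
    filter_upwards [t1.eventually h2, t2.eventually h2, (t1.prodMk_nhds t2).eventually h1,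
      t3.eventually (Ioo_mem_nhds neg_one_lt_zero one_pos)] with q q1 q2 q3 q4
    refine ⟨γ, b, _, q1.2, _, q2.2, by rw [C.pt_tr q1.1, mul_inv_cancel_left],
      by rw [C.pt_tr q2.1, mul_inv_cancel_left], ?_⟩
    rcases le_total q.1.2 0 with h0 | h0
    · exact (mul_nonpos_of_nonpos_of_nonneg h0 (norm_nonneg _)).trans (norm_nonneg _)
    · refine (mul_le_mul_of_nonneg_left q3 h0).trans ?_
      rw [← mul_assoc]
      exact mul_le_of_le_one_left (norm_nonneg _) q4.2.le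
  obtain ⟨δ, hδ, h⟩ := Metric.eventually_nhds_iff.1 h
  refine ⟨δ, hδ, fun a z hz z' hz' => ?_⟩
  have := h (y := (z - z', δ / 2)) (by
    rw [dist_zero_right, Prod.norm_mk, norm_of_nonneg (by positivity : 0 ≤ δ / 2)]
    exact max_lt hz' (half_lt_self hδ)) a z (C.B_sub_cB 3 a hz)
  simpa only [sub_sub_cancel] using this

/-- transfer of the pole -/
theorem pole_tr {V : ℕ → E → E → ℝ} {e : ℕ → ℝ} {c K M : ℝ} (hc : 0 ≤ c) (hK : 0 ≤ K) (hM : 0 ≤ M)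
    (he : ∀ j, 0 ≤ e j) (inv : ∀ j (γ : Γ) x y, V j (γ • x) (γ • y) = V j x y)
    (bd : ∀ j x y, V j x y ≤ M) (h : ∀ᶠ j in atTop, ∀ a, ∀ z ∈ C.B 2 a, ∀ z' ∈ C.B 2 a,
      V j (C.pt 1 a z) (C.pt 1 a z') ≤ K * (‖z - z'‖ ^ c + e j)) :
    ∃ K' : ℝ, ∀ᶠ j in atTop, ∀ a, ∀ z ∈ C.B 3 a, ∀ z' ∈ C.B 3 a,
      V j (C.pt 1 a z) (C.pt 1 a z') ≤ K' * (‖z - z'‖ ^ c + e j) := by
  obtain ⟨δ, hδ, H⟩ := near C
  refine ⟨(K + M) * ((2 / δ) ^ c + 1), h.mono fun j hj a z hz z' _ => ?_⟩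
  have h1 : 0 ≤ (2 / δ) ^ c := by positivity
  have h2 : 0 ≤ ‖z - z'‖ ^ c := by positivity
  have h3 := he j
  have e1 : (2 / δ * ‖z - z'‖) ^ c = (2 / δ) ^ c * ‖z - z'‖ ^ c :=
    mul_rpow (by positivity) (norm_nonneg _)
  have e2 : (2 / δ) ^ c * ‖z - z'‖ ^ c + e j ≤ ((2 / δ) ^ c + 1) * (‖z - z'‖ ^ c + e j) := by
    nlinarith [mul_nonneg h1 h3]
  rw [mul_assoc]
  refine le_trans ?_ (mul_le_mul_of_nonneg_left e2 (by positivity))
  rw [← e1]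
  have h4 : 0 ≤ (2 / δ * ‖z - z'‖) ^ c := by positivity
  rcases lt_or_ge ‖z - z'‖ δ with h5 | h5
  · obtain ⟨γ, b, w, hw, w', hw', e3, e4, h6⟩ := H a z hz z' h5
    rw [e3, e4, C.pt_eq γ, C.pt_eq γ b w', inv]
    have h7 : ‖w - w'‖ ^ c ≤ (2 / δ * ‖z - z'‖) ^ c := rpow_le_rpow (norm_nonneg _) (by
      rw [div_mul_eq_mul_div, le_div_iff₀ hδ]; linarith) hc
    refine (hj b w hw w' hw').trans (mul_le_mul (by linarith) (by linarith) ?_ (by positivity))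
    positivity
  · have h7 : 1 ≤ (2 / δ * ‖z - z'‖) ^ c := one_le_rpow (by
      rw [div_mul_eq_mul_div, le_div_iff₀ hδ]; linarith) hc
    refine (bd j _ _).trans ?_
    nlinarith [mul_nonneg hK (add_nonneg h4 h3), mul_nonneg hM h3]

end Vale.Agent.P284Y.D.D2
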