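import Vale.Agent.P284Y.D.Sk
import Vale.Agent.P284Y.D.D2a

/-!
# P284Y, block D2: the floor
-/

open scoped ContDiff Topology
open Filter Set Metric Real

noncomputable section

namespace Vale.Agent.P284Y.D

namespace D2

open Vale.Agent.P272.K Vale.Agent.P284Z Vale.Agent.P284Y.Lib

variable {n : ℕ} {Γ E : Type} [Group Γ] [TopologicalSpace E] [MulAction Γ E] {C : Cov n Γ E}

/-- the exponents -/
structure Par (G : GD C) where
  θ : ℕ → ℝ
  anti : Antitone θ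
  pos : ∀ l, 0 < θ l
  le1 : ∀ l, θ l ≤ 1
  al : ∀ l, θ l * |G.Al l| ≤ 1
  kk : ∀ l, θ l * |G.K (l + 1)| ≤ (1 / 2) ^ l
  c : ℕ → ℝ
  c_anti : Antitone c
  c_pos : ∀ l, 0 < c l
  c_le : ∀ l, c l ≤ θ l * G.c l

theorem exists_par (G : GD C) : Nonempty (Par G) := by
  obtain ⟨θ, h1, h2⟩ := exists_anti
    (b := fun l => (1 / 2) ^ l / (1 + |G.Al l| + |G.K (l + 1)|)) fun l => by positivity
  obtain ⟨c, h3, h4⟩ := exists_anti (b := fun l => θ l * G.c l) fun l =>
    mul_pos (h2 l).1 (G.c_pos l)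
  have key : ∀ l, θ l + θ l * |G.Al l| + θ l * |G.K (l + 1)| ≤ (1 / 2) ^ l ∧
      0 ≤ θ l * |G.Al l| ∧ 0 ≤ θ l * |G.K (l + 1)| ∧ (1 / 2 : ℝ) ^ l ≤ 1 ∧ 0 < θ l := fun l => by
    have := (le_div_iff₀ (by positivity)).1 (h2 l).2
    have p := (h2 l).1
    exact ⟨by linarith, by positivity, by positivity, pow_le_one₀ (by norm_num) (by norm_num), p⟩
  exact ⟨⟨θ, h1, fun l => (h2 l).1, fun l => by have := key l; linarith,
    fun l => by have := key l; linarith, fun l => by have := key l; linarith, c, h3,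
    fun l => (h4 l).1, fun l => (h4 l).2⟩⟩

section defs
variable (G : GD C)

/-- `exp (g - 1)` -/
def F0 (j : ℕ) (y : E) : ℝ := exp (G.g j y - 1)
/-- the floor -/
def ee (j : ℕ) : ℝ := exp (-√(G.L j) - 1)
/-- `F` -/
def FF (j : ℕ) (y : E) : ℝ := pn j (F0 G j y) (ee G j)

variable {G} (P : Par G)

/-- the exponent -/
def vv (l j : ℕ) (x y : E) : ℝ := P.θ l * (uu (G.g j) (G.w l j) x y - |G.K l|) - 2 * (1 / 2) ^ l
/-- `W` without floor -/
def W0 (l j : ℕ) (x y : E) : ℝ := F0 G j x * F0 G j y * exp (vv P l j x y)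
/-- `W` -/
def WW (l j : ℕ) (x y : E) : ℝ :=
  pn j (W0 P l j x y) (pn j (ee G j * FF G j x) (ee G j * FF G j y))

end defs

variable {G : GD C} (P : Par G) {l j : ℕ} {x y : E}

theorem F0_pos : 0 < F0 G j y := exp_pos _
theorem ee_pos : 0 < ee G j := exp_pos _
theorem F0_le : F0 G j y ≤ FF G j y := le_pn F0_pos.le ee_pos.le
theorem ee_le : ee G j ≤ FF G j y := le_pn' F0_pos.le ee_pos.le
theorem FF_pos : 0 < FF G j y := ee_pos.trans_le ee_le
theorem FF_le1 (h : F0 G j y ≤ ee G j) : FF G j y ≤ sn j * ee G j :=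
  pn_le F0_pos.le ee_pos.le h le_rfl
theorem FF_le2 (h : ee G j < F0 G j y) : FF G j y ≤ sn j * F0 G j y :=
  pn_le F0_pos.le ee_pos.le le_rfl h.le
theorem FF_le : FF G j y ≤ 1 := by
  have h : ∀ t ≤ (0 : ℝ), exp (t - 1) ≤ 1 / 2 := fun t ht => (exp_le_exp.2 (by linarith)).trans
    (exp_neg_one_lt_d9.le.trans (by norm_num))
  refine (pn_le F0_pos.le ee_pos.le (h _ (G.g_le j y)) (h _ (neg_nonpos.2 (sqrt_nonneg _)))).trans ?_
  linarith [sn_le j]
theorem W0_pos : 0 < W0 P l j x y := mul_pos (mul_pos F0_pos F0_pos) (exp_pos _)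
theorem eF_pos : 0 < ee G j * FF G j x := mul_pos ee_pos FF_pos
theorem in_pos : 0 < pn j (ee G j * FF G j x) (ee G j * FF G j y) :=
  eF_pos.trans_le (le_pn eF_pos.le eF_pos.le)
theorem W0_le : W0 P l j x y ≤ WW P l j x y := le_pn (W0_pos P).le in_pos.le
theorem eF1 : ee G j * FF G j x ≤ WW P l j x y :=
  (le_pn eF_pos.le eF_pos.le).trans (le_pn' (W0_pos P).le in_pos.le)
theorem eF2 : ee G j * FF G j y ≤ WW P l j x y :=
  (le_pn' eF_pos.le eF_pos.le).trans (le_pn' (W0_pos P).le in_pos.le)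
theorem WW_pos : 0 < WW P l j x y := eF_pos.trans_le (eF1 P)

theorem WW_le {M : ℝ} (h0 : W0 P l j x y ≤ M) (h1 : ee G j * FF G j x ≤ M)
    (h2 : ee G j * FF G j y ≤ M) : WW P l j x y ≤ sn j ^ 2 * M := by
  have := pn_le (k := j) (W0_pos P).le in_pos.le
    (h0.trans (le_mul_of_one_le_left (eF_pos.le.trans h1) (one_le_sn j)))
    (pn_le eF_pos.le eF_pos.le h1 h2)
  rwa [← mul_assoc, ← sq] at this

theorem vv_le : vv P l j x y ≤ 0 := by
  have := mul_nonneg (P.pos l).le (sub_nonneg.2 ((G.u_le l j x y).trans (le_abs_self _)))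
  have : (0 : ℝ) ≤ (1 / 2) ^ l := by positivity
  unfold vv; linarith

theorem W0_FF : W0 P l j x y ≤ FF G j x * FF G j y * exp (vv P l j x y) :=
  mul_le_mul_of_nonneg_right (mul_le_mul F0_le F0_le F0_pos.le FF_pos.le) (exp_pos _).le

theorem W0_FF' : W0 P l j x y ≤ FF G j x * FF G j y := (W0_FF P).trans
  (mul_le_of_le_one_right (mul_pos FF_pos FF_pos).le (exp_le_one_iff.2 (vv_le P)))

theorem WW_FF : WW P l j x y ≤ sn j ^ 2 * (FF G j x * FF G j y) :=
  WW_le P (W0_FF' P) (by rw [mul_comm]; exact mul_le_mul_of_nonneg_left ee_le FF_pos.le)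
    (mul_le_mul_of_nonneg_right ee_le FF_pos.le)

theorem bad (h : F0 G j x ≤ ee G j ∨ F0 G j y ≤ ee G j) :
    FF G j x * FF G j y ≤ sn j * WW P l j x y := by
  have s := (zero_le_one.trans (one_le_sn j))
  rcases h with h | h
  · refine (mul_le_mul_of_nonneg_right (FF_le1 h) FF_pos.le).trans ?_
    rw [mul_assoc]
    exact mul_le_mul_of_nonneg_left (eF2 P) s
  · refine (mul_le_mul_of_nonneg_left (FF_le1 h) FF_pos.le).trans ?_
    rw [mul_comm, mul_assoc]
    exact mul_le_mul_of_nonneg_left (eF1 P) s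

theorem ev_good (G : GD C) : ∀ᶠ j in atTop, ∀ y, ee G j < F0 G j y → -G.L j ≤ G.g j y := by
  filter_upwards [G.L_tend.eventually_ge_atTop 1] with j hj y h
  have h1 := exp_lt_exp.1 h
  have h2 := mul_self_sqrt (zero_le_one.trans hj)
  nlinarith [one_le_sqrt.2 hj]

theorem vv_step {x' y' : E} (h : uu (G.g j) (G.w l j) x y ≤
    uu (G.g j) (G.w (l + 1) j) x' y' + G.K l) : vv P l j x y ≤ vv P (l + 1) j x' y' := by
  have h1 := mul_le_mul_of_nonneg_left (h.trans (add_le_add_right (le_abs_self _) _)) (P.pos l).le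
  have h2 := mul_nonneg (sub_nonneg.2 (P.anti l.le_succ))
    (sub_nonneg.2 ((G.u_le (l + 1) j x' y').trans (le_abs_self _)))
  have h3 := P.kk l
  unfold vv
  rw [pow_succ]
  simp only [Nat.succ_eq_add_one] at h2
  linarith

theorem sn_pow (j : ℕ) {a b : ℕ} (h : a ≤ b) {t : ℝ} (ht : 0 ≤ t) : sn j ^ a * t ≤ sn j ^ b * t :=
  mul_le_mul_of_nonneg_right (pow_le_pow_right₀ (one_le_sn j) h) ht

theorem mono (l : ℕ) : ∀ᶠ j in atTop, ∀ x y, WW P l j x y ≤ 2 * WW P (l + 1) j x y := by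
  filter_upwards [ev_good G, G.mono l, sn_tend.eventually (ge_mem_nhds one_lt_two)]
    with j h1 h2 h3 x y
  refine le_trans ?_ (mul_le_mul_of_nonneg_right h3 (WW_pos P).le)
  by_cases h : F0 G j x ≤ ee G j ∨ F0 G j y ≤ ee G j
  · refine (WW_FF P).trans ((mul_le_mul_of_nonneg_left (bad P (l := l + 1) h) (sq_nonneg _)).trans ?_)
    rw [← mul_assoc, ← pow_succ]
    exact sn_pow j (by norm_num) (WW_pos P).le
  · rw [not_or, not_le, not_le] at h
    refine (WW_le P (le_trans ?_ (W0_le P)) (eF1 P) (eF2 P)).trans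
      (sn_pow j (by norm_num) (WW_pos P).le)
    exact mul_le_mul_of_nonneg_left (exp_le_exp.2 (vv_step P (h2 x y (h1 x h.1) (h1 y h.2))))
      (mul_pos F0_pos F0_pos).le

theorem good_step {x₁ x₂ x₃ x₄ a b c d : E} (h2 : ee G j < F0 G j x₂) (h3 : ee G j < F0 G j x₃)
    (e : F0 G j x₁ * F0 G j x₄ * (F0 G j x₂ * F0 G j x₃) =
      F0 G j a * F0 G j b * (F0 G j c * F0 G j d))
    (h : uu (G.g j) (G.w l j) x₁ x₄ ≤ uu (G.g j) (G.w (l + 1) j) a b + G.K l) :
    W0 P l j x₁ x₄ * (FF G j x₂ * FF G j x₃) ≤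
      sn j ^ 2 * (WW P (l + 1) j a b * (FF G j c * FF G j d)) := by
  have s := (zero_le_one.trans (one_le_sn j))
  refine (mul_le_mul_of_nonneg_left (mul_le_mul (FF_le2 h2) (FF_le2 h3) FF_pos.le
    (mul_nonneg s F0_pos.le)) (W0_pos P).le).trans ?_
  refine le_trans ?_ (mul_le_mul_of_nonneg_left (mul_le_mul (W0_le P)
    (mul_le_mul F0_le F0_le F0_pos.le FF_pos.le) (mul_pos F0_pos F0_pos).le (WW_pos P).le)
    (sq_nonneg _))
  calc _ = sn j ^ 2 * (F0 G j x₁ * F0 G j x₄ * (F0 G j x₂ * F0 G j x₃)) * exp (vv P l j x₁ x₄) := by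
        rw [W0]; ring
    _ ≤ sn j ^ 2 * (F0 G j x₁ * F0 G j x₄ * (F0 G j x₂ * F0 G j x₃)) * exp (vv P (l + 1) j a b) :=
        mul_le_mul_of_nonneg_left (exp_le_exp.2 (vv_step P h)) (mul_nonneg (sq_nonneg _)
          (mul_pos (mul_pos F0_pos F0_pos) (mul_pos F0_pos F0_pos)).le)
    _ = _ := by rw [e, W0]; ring

theorem chain (l : ℕ) : ∀ᶠ j in atTop, ∀ x₁ x₂ x₃ x₄, WW P l j x₁ x₄ * (FF G j x₂ * FF G j x₃) ≤
    sn j ^ 4 * max (WW P (l + 1) j x₁ x₂ * (FF G j x₃ * FF G j x₄))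
      (max (WW P (l + 1) j x₂ x₃ * (FF G j x₁ * FF G j x₄))
        (WW P (l + 1) j x₃ x₄ * (FF G j x₁ * FF G j x₂))) := by
  filter_upwards [ev_good G, G.chain l] with j h1 h2 x₁ x₂ x₃ x₄
  set M := max (WW P (l + 1) j x₁ x₂ * (FF G j x₃ * FF G j x₄))
    (max (WW P (l + 1) j x₂ x₃ * (FF G j x₁ * FF G j x₄))
      (WW P (l + 1) j x₃ x₄ * (FF G j x₁ * FF G j x₂)))
  have a1 : _ ≤ M := le_max_left _ _
  have a2 : _ ≤ M := (le_max_left _ _).trans (le_max_right _ _)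
  have a3 : _ ≤ M := (le_max_right _ _).trans (le_max_right _ _)
  have p : ∀ x y, 0 < FF G j x * FF G j y := fun _ _ => mul_pos FF_pos FF_pos
  have hM : 0 ≤ M := (mul_pos (WW_pos P) (p _ _)).le.trans a1
  have s1 : ∀ {t}, t ≤ M → sn j * t ≤ sn j ^ 2 * M := fun h => (mul_le_mul_of_nonneg_left h
    (zero_le_one.trans (one_le_sn j))).trans (by simpa using sn_pow j one_le_two hM)
  have s0 : M ≤ sn j ^ 2 * M := by simpa using sn_pow j zero_le_two hM
  have b : ∀ {t}, t ≤ M → sn j ^ 2 * t ≤ sn j ^ 2 * M := fun h =>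
    mul_le_mul_of_nonneg_left h (sq_nonneg _)
  rw [← le_div_iff₀ (p _ _), show sn j ^ 4 * M / (FF G j x₂ * FF G j x₃) =
    sn j ^ 2 * (sn j ^ 2 * M / (FF G j x₂ * FF G j x₃)) by ring]
  refine WW_le P ?_ ?_ ?_ <;> rw [le_div_iff₀ (p _ _)]
  · have c0 := mul_le_mul_of_nonneg_right (W0_FF' P (l := l) (j := j) (x := x₁) (y := x₄))
      (p x₂ x₃).le
    by_cases h : F0 G j x₁ ≤ ee G j ∨ F0 G j x₂ ≤ ee G j
    · have := mul_le_mul_of_nonneg_right (bad P (l := l + 1) h) (p x₃ x₄).le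
      have := s1 a1
      linarith
    by_cases h' : F0 G j x₃ ≤ ee G j ∨ F0 G j x₄ ≤ ee G j
    · have := mul_le_mul_of_nonneg_right (bad P (l := l + 1) h') (p x₁ x₂).le
      have := s1 a3
      linarith
    rw [not_or, not_le, not_le] at h h'
    have h3 := h2 x₁ x₂ x₃ x₄ (h1 _ h.1) (h1 _ h.2) (h1 _ h'.1) (h1 _ h'.2)
    rw [← max_add_add_right, ← max_add_add_right, le_max_iff, le_max_iff] at h3
    rcases h3 with h3 | h3 | h3
    · exact (good_step P h.2 h'.1 (by ring) h3).trans (b a1)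
    · exact (good_step P h.2 h'.1 (by ring) h3).trans (b a2)
    · exact (good_step P h.2 h'.1 (by ring) h3).trans (b a3)
  · have := mul_le_mul_of_nonneg_right (eF1 P (l := l + 1) (j := j) (x := x₃) (y := x₄)) (p x₁ x₂).le
    linarith
  · have := mul_le_mul_of_nonneg_right (eF2 P (l := l + 1) (j := j) (x := x₁) (y := x₂)) (p x₃ x₄).le
    linarith

theorem W0_eq : W0 P l j x y = exp ((1 - P.θ l) * G.g j x + (1 - P.θ l) * G.g j y +
    P.θ l * G.w l j x y - (2 + P.θ l * |G.K l| + 2 * (1 / 2) ^ l)) := by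
  rw [W0, F0, F0, ← exp_add, ← exp_add, vv, uu]
  congr 1; ring

theorem W0_w : W0 P l j x y ≤ exp (P.θ l * G.w l j x y) := by
  have h1 := mul_nonneg (sub_nonneg.2 (P.le1 l)) (neg_nonneg.2 (G.g_le j x))
  have h2 := mul_nonneg (sub_nonneg.2 (P.le1 l)) (neg_nonneg.2 (G.g_le j y))
  have h3 := mul_nonneg (P.pos l).le (abs_nonneg (G.K l))
  have : (0 : ℝ) ≤ (1 / 2) ^ l := by positivity
  rw [W0_eq]
  exact exp_le_exp.2 (by linarith)

theorem sn_sq (j : ℕ) : sn j ^ 2 ≤ 4 := by nlinarith [one_le_sn j, sn_le j]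

theorem FF_FF : FF G j x * FF G j y ≤ 1 := mul_le_one₀ FF_le FF_pos.le FF_le

theorem eF_le : ee G j * FF G j x ≤ ee G j := mul_le_of_le_one_right ee_pos.le FF_le

theorem FF_inv (γ : Γ) : FF G j (γ • y) = FF G j y := by simp only [FF, F0, G.g_inv]

theorem WW_inv (γ : Γ) : WW P l j (γ • x) (γ • y) = WW P l j x y := by
  simp only [WW, W0, vv, uu, F0, FF_inv, G.g_inv, G.w_inv]

theorem pole (l : ℕ) : ∃ K : ℝ, ∀ᶠ j in atTop, ∀ a, ∀ z ∈ C.B 3 a, ∀ z' ∈ C.B 3 a,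
    WW P l j (C.pt 1 a z) (C.pt 1 a z') ≤ K * (‖z - z'‖ ^ P.c l + ee G j) := by
  have hc := mul_pos (P.pos l) (G.c_pos l)
  refine pole_tr C (V := WW P l) (K := 4 * exp (P.θ l * |G.K l|)) (M := 4) (P.c_pos l).le
    (by positivity) (by norm_num) (fun _ => ee_pos.le) (fun _ γ _ _ => WW_inv P γ)
    (fun j x y => (WW_FF P).trans ((mul_le_of_le_one_right (sq_nonneg _) FF_FF).trans (sn_sq j))) ?_
  filter_upwards [G.pole l, G.L_tend.eventually_ge_atTop 1,
    (tendsto_sqrt_atTop.comp G.L_tend).eventually_ge_atTop (2 / (P.θ l * G.c l))]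
    with j h1 h2 h3 a z hz z' hz'
  have k1 : 1 ≤ exp (P.θ l * |G.K l|) := one_le_exp (mul_nonneg (P.pos l).le (abs_nonneg _))
  have k2 : 0 ≤ ‖z - z'‖ ^ P.c l := by positivity
  have k3 := ee_pos (G := G) (j := j)
  have k4 : ee G j ≤ exp (P.θ l * |G.K l|) * (‖z - z'‖ ^ P.c l + ee G j) := by nlinarith
  rw [mul_assoc]
  refine (WW_le P ?_ (eF_le.trans k4) (eF_le.trans k4)).trans
    (mul_le_mul_of_nonneg_right (sn_sq j) (k3.le.trans k4))
  rcases le_total 1 ‖z - z'‖ with h | h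
  · have := one_le_rpow h (P.c_pos l).le
    refine ((W0_FF' P).trans FF_FF).trans ?_
    nlinarith
  have r0 : 0 < max ‖z - z'‖ (exp (-G.L j)) := lt_max_of_lt_right (exp_pos _)
  have h4 := h1 a z hz z' hz' _ r0 (le_max_left _ _)
  rw [max_eq_left (by
    rw [← mul_neg]
    exact mul_le_mul_of_nonneg_left ((le_log_iff_exp_le r0).2 (le_max_right _ _))
      (G.c_pos l).le)] at h4
  have h5 : max ‖z - z'‖ (exp (-G.L j)) ^ (P.θ l * G.c l) ≤ ‖z - z'‖ ^ P.c l + ee G j := by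
    rcases le_total ‖z - z'‖ (exp (-G.L j)) with h6 | h6
    · rw [max_eq_right h6, ← exp_mul]
      refine le_add_of_nonneg_of_le k2 (exp_le_exp.2 ?_)
      have e1 := mul_self_sqrt (zero_le_one.trans h2)
      have e2 := one_le_sqrt.2 h2
      have e3 := (div_le_iff₀ hc).1 h3
      simp only [Function.comp] at e3
      nlinarith
    · rw [max_eq_left h6]
      exact le_add_of_le_of_nonneg (rpow_le_rpow_of_exponent_ge ((exp_pos _).trans_le h6) h
        (P.c_le l)) k3.le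
  refine (W0_w P).trans (le_trans ?_ (mul_le_mul_of_nonneg_left h5 (exp_pos _).le))
  rw [rpow_def_of_pos r0, ← exp_add]
  have := mul_le_mul_of_nonneg_left (h4.trans (add_le_add_right (le_abs_self _) _)) (P.pos l).le
  exact exp_le_exp.2 (by linarith)

theorem reiter (l : ℕ) : ∃ θ > (0 : ℝ), ∀ᶠ j in atTop, ∀ x y, 0 < FF G j x → 0 < FF G j y →
    WW P l j x y ≤ θ * (FF G j x * FF G j y) → ∑' g, |G.m j x g - G.m j y g| ≤ G.η l := by
  refine ⟨exp (P.θ l * (-|G.K l| - |G.K l|) - 2 * (1 / 2) ^ l) / 4, by positivity, ?_⟩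
  filter_upwards [ev_good G, G.reiter l] with j h1 h2 x y _ _ h
  have p : 0 < FF G j x * FF G j y := mul_pos FF_pos FF_pos
  have s := one_le_sn j
  have s' := sn_le j
  have t : exp (P.θ l * (-|G.K l| - |G.K l|) - 2 * (1 / 2) ^ l) ≤ 1 := exp_le_one_iff.2 (by
    have := mul_nonneg (P.pos l).le (abs_nonneg (G.K l))
    have : (0 : ℝ) ≤ (1 / 2) ^ l := by positivity
    linarith)
  have h3 : ¬ (F0 G j x ≤ ee G j ∨ F0 G j y ≤ ee G j) := fun h3 => by
    have := bad P (l := l) h3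
    have := WW_pos P (l := l) (j := j) (x := x) (y := y)
    nlinarith
  rw [not_or, not_le, not_le] at h3
  refine h2 x y (h1 x h3.1) (h1 y h3.2) (le_trans ?_ (neg_le_neg (le_abs_self _)))
  have q : 0 < F0 G j x * F0 G j y := mul_pos F0_pos F0_pos
  have h4 : FF G j x * FF G j y ≤ 4 * (F0 G j x * F0 G j y) :=
    (mul_le_mul (FF_le2 h3.1) (FF_le2 h3.2) FF_pos.le (mul_nonneg (by linarith) F0_pos.le)).trans
      (by nlinarith [mul_le_mul_of_nonneg_right (sn_sq j) q.le])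
  have h5 := ((W0_le P).trans h).trans (mul_le_mul_of_nonneg_left h4 (by positivity))
  rw [W0, ← mul_assoc, div_mul_cancel₀ _ four_ne_zero, mul_comm] at h5
  have h6 := exp_le_exp.1 (le_of_mul_le_mul_right h5 q)
  have := le_of_mul_le_mul_left ((sub_le_sub_iff_right _).1 h6) (P.pos l)
  linarith

theorem nondeg : ∃ K : Set E, IsCompact K ∧ ∀ l, ∃ θ > (0 : ℝ), ∀ᶠ j in atTop, ∃ x ∈ K, ∃ y ∈ K,
    θ ≤ WW P l j x y := by
  obtain ⟨S, h1, h2⟩ := G.nondeg
  refine ⟨S, h1, fun l => ⟨exp (-G.K l - 1) * exp (-G.K l - 1) *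
    exp (P.θ l * (-G.K l - |G.K l|) - 2 * (1 / 2) ^ l), by positivity, (h2 l).mono ?_⟩⟩
  rintro j ⟨x, hx, y, hy, a1, a2, a3⟩
  have := (P.pos l).le
  refine ⟨x, hx, y, hy, le_trans ?_ (W0_le P)⟩
  unfold W0 F0 vv
  gcongr

/-! ### smoothness and plurisubharmonicity -/

theorem g_sm {γ : Γ} {a : C.I} {z : Cm n} (hz : z ∈ C.B 4 a) :
    ContDiffAt ℝ ∞ (fun w => G.g j (C.pt γ a w)) z := G.g_sm j _ γ a z hz rfl

theorem FF_sm {γ : Γ} {a : C.I} {z : Cm n} (hz : z ∈ C.B 4 a) :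
    ContDiffAt ℝ ∞ (fun w => FF G j (C.pt γ a w)) z :=
  pn_sm ((g_sm hz).sub contDiffAt_const).exp contDiffAt_const F0_pos ee_pos j

theorem WW_sm : Sm₂ C (WW P l j) := fun γ a γ' b q hq => by
  have g1 := (g_sm (G := G) (j := j) (γ := γ) hq.1).comp q contDiffAt_fst
  have g2 := (g_sm (G := G) (j := j) (γ := γ') hq.2).comp q contDiffAt_snd
  refine pn_sm ?_ (pn_sm (contDiffAt_const.mul ((FF_sm hq.1).comp q contDiffAt_fst))
    (contDiffAt_const.mul ((FF_sm hq.2).comp q contDiffAt_snd)) eF_pos eF_pos j) (W0_pos P) in_pos j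
  simp only [W0_eq]
  exact ((((contDiffAt_const.mul g1).add (contDiffAt_const.mul g2)).add
    (contDiffAt_const.mul (G.w_sm l j γ a γ' b q hq))).sub contDiffAt_const).exp

/-- continuous plurisubharmonic functions -/
def CP {W : Type} [NormedAddCommGroup W] [NormedSpace ℂ W] (u : W → ℝ) (U : Set W) : Prop :=
  Psh u U ∧ ContinuousOn u U

section cp
variable {W W' : Type} [NormedAddCommGroup W] [NormedSpace ℂ W] [NormedAddCommGroup W']
  [NormedSpace ℂ W'] {u v : W → ℝ} {U : Set W} {c : ℝ}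

theorem CP.add (h : CP u U) (h' : CP v U) : CP (fun z => u z + v z) U :=
  ⟨h.1.add h'.1 (.of_cont h.2) (.of_cont h'.2), h.2.add h'.2⟩
theorem CP.mul (h : CP u U) (hc : 0 ≤ c) : CP (fun z => c * u z) U :=
  ⟨h.1.const_mul hc, continuousOn_const.mul h.2⟩
theorem CP.fst (h : CP u U) (O : Set W') : CP (fun q : W × W' => u q.1) (U ×ˢ O) :=
  ⟨h.1.fst O, h.2.comp continuousOn_fst fun _ hq => hq.1⟩
theorem CP.snd (h : CP u U) (O : Set W') : CP (fun q : W' × W => u q.2) (O ×ˢ U) :=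
  ⟨h.1.snd O, h.2.comp continuousOn_snd fun _ hq => hq.2⟩
theorem CP.exp (h : CP u U) : LPsh (fun z => exp (u z)) U := h.1.lpsh_exp (.of_cont h.2)

end cp

theorem ρ_cp (C : Cov n Γ E) (a : C.I) : CP (C.ρ a) (C.B 4 a) := ⟨C.ρ_psh a, C.ρ_cont a⟩

theorem g_cp (γ : Γ) (a : C.I) : CP (fun z => G.A * C.ρ a z + G.g j (C.pt γ a z)) (C.B 4 a) :=
  ⟨(G.g_psh j γ a).mono fun _ hz => ⟨hz, mem_univ _⟩, (continuousOn_const.mul (C.ρ_cont a)).add
    fun _ hz => (g_sm hz).continuousAt.continuousWithinAt⟩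

theorem A_pos (G : GD C) : 0 < |G.A| + 1 := by positivity

theorem FF_psh (γ : Γ) (a : C.I) :
    LPsh (fun z => FF G j (C.pt γ a z) * exp ((|G.A| + 1) * C.ρ a z)) (C.B 4 a) := by
  have h1 := (((g_cp (G := G) (j := j) γ a).add ((ρ_cp C a).mul (c := |G.A| + 1 - G.A)
    (by linarith [le_abs_self G.A]))).exp).const_mul (exp_pos (-1)).le
  refine (pn_lpsh h1 (((ρ_cp C a).mul (A_pos G).le).exp.const_mul (ee_pos (G := G) (j := j)).le)
    j).congr fun z _ => ?_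
  simp only [FF]
  rw [← pn_mul F0_pos.le ee_pos.le (exp_pos _).le, F0, ← exp_add, ← exp_add]
  congr 2; ring

theorem WW_psh (γ : Γ) (a b : C.I) : LPsh (fun q : Cm n × Cm n => WW P l j (C.pt 1 a q.1)
    (C.pt γ b q.2) * exp ((|G.A| + 1) * C.ρ a q.1 + (|G.A| + 1) * C.ρ b q.2))
    (C.B 4 a ×ˢ C.B 4 b) := by
  have t1 := sub_nonneg.2 (P.le1 l)
  have t0 := (P.pos l).le
  have t2 : 0 ≤ |G.A| + 1 - (1 - P.θ l) * G.A - P.θ l * G.Al l := by
    have := P.al l
    have := mul_le_mul_of_nonneg_left (le_abs_self (G.Al l)) t0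
    have := mul_le_mul_of_nonneg_left (le_abs_self G.A) t1
    have := mul_nonneg t0 (abs_nonneg G.A)
    linarith
  have hw : CP (fun q : Cm n × Cm n => G.Al l * C.ρ a q.1 + G.Al l * C.ρ b q.2 +
      G.w l j (C.pt 1 a q.1) (C.pt γ b q.2)) (C.B 4 a ×ˢ C.B 4 b) := ⟨G.w_psh l j 1 a γ b,
    ((continuousOn_const.mul ((ρ_cp C a).fst _).2).add
      (continuousOn_const.mul ((ρ_cp C b).snd _).2)).add
      fun q hq => (G.w_sm l j 1 a γ b q hq).continuousAt.continuousWithinAt⟩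
  have h0 := (((((((g_cp (G := G) (j := j) 1 a).fst _).mul t1).add
    (((g_cp (G := G) (j := j) γ b).snd _).mul t1)).add (hw.mul t0)).add
    (((ρ_cp C a).fst _).mul t2)).add (((ρ_cp C b).snd _).mul t2)).exp.const_mul
    (exp_pos (-(2 + P.θ l * |G.K l| + 2 * (1 / 2) ^ l))).le
  have h1 := (((FF_psh (G := G) (j := j) 1 a).fst (C.B 4 b)).mul
    (((ρ_cp C b).mul (A_pos G).le).exp.snd _)).const_mul (ee_pos (G := G) (j := j)).le
  have h2 := (((FF_psh (G := G) (j := j) γ b).snd (C.B 4 a)).mul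
    (((ρ_cp C a).mul (A_pos G).le).exp.fst _)).const_mul (ee_pos (G := G) (j := j)).le
  refine (pn_lpsh h0 (pn_lpsh h1 h2 j) j).congr fun q _ => ?_
  simp only [WW]
  rw [← pn_mul (W0_pos P).le in_pos.le (exp_pos _).le, ← pn_mul eF_pos.le eF_pos.le (exp_pos _).le]
  congr 1
  · rw [W0_eq, ← exp_add, ← exp_add]
    congr 1; ring
  · rw [exp_add]
    congr 1 <;> ring

/-- the level data -/
def ld : LD C where
  A := |G.A| + 1
  A_pos := A_pos G
  F := FF G
  W := WW P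
  ε := fun j => sn j ^ 4
  one_le := fun j => one_le_pow₀ (one_le_sn j)
  ε_tend := sn_tend
  F_cont := fun _ => cont_of_sm C fun _ _ _ _ hz _ => FF_sm hz
  F_nonneg := fun _ _ => FF_pos.le
  F_le := fun _ _ => FF_le
  F_inv := fun _ γ _ => FF_inv γ
  F_psh := fun _ => FF_psh 1
  F_sm := fun _ _ _ hz _ => FF_sm hz
  W_cont := fun _ _ => cont_of_sm₂ C (WW_sm P)
  W_nonneg := fun _ _ _ _ => (WW_pos P).le
  W_le := fun _ j _ _ => (WW_FF P).trans (sn_pow j (by norm_num) (mul_pos FF_pos FF_pos).le)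
  W_inv := fun _ _ γ _ _ => WW_inv P γ
  W_symm := fun l j x y => by
    simp only [WW, W0, vv, uu]
    rw [pn_comm j (ee G j * FF G j x), G.w_symm l j x y, mul_comm (F0 G j x),
      sub_right_comm _ (G.g j x) (G.g j y)]
  W_psh := fun _ _ => WW_psh P
  W_sm := fun l j x γ b z hz _ => by
    obtain ⟨γ', a, z', hz', rfl⟩ := C.exists_pt x
    exact (WW_sm P γ' a γ b (z', z) ⟨C.B14 hz', hz⟩).comp z (contDiffAt_const.prodMk contDiffAt_id)
  chain := chain P
  c := P.c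
  c_pos := P.c_pos
  c_anti := P.c_anti
  e := ee G
  e_nonneg := fun _ => ee_pos.le
  e_tend := tendsto_exp_atBot.comp (tendsto_atBot_add_const_right _ _
    (tendsto_neg_atTop_atBot.comp (tendsto_sqrt_atTop.comp G.L_tend)))
  pole := pole P
  low := fun l j x y => by
    have h1 := eF1 P (l := l) (j := j) (x := x) (y := y)
    have h2 := mul_le_of_le_one_right (eF_pos (G := G) (j := j) (x := x)).le
      (FF_le (G := G) (j := j) (y := y))
    have h3 := WW_pos P (l := l) (j := j) (x := x) (y := y)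
    linarith
  mono := mono P
  nondeg := nondeg P
  m := G.m
  m_nonneg := G.m_nonneg
  m_sum := fun j y _ => G.m_sum j y
  m_eqv := G.m_eqv
  η := G.η
  η_tend := G.η_tend
  reiter := reiter P

theorem lk : LK G (ld P) := by
  refine ⟨fun j y => ⟨F0_le, (pn_le F0_pos.le ee_pos.le (le_max_of_le_left (exp_le_exp.2
    (by linarith))) (le_max_right _ _)).trans (mul_le_mul_of_nonneg_right (sn_le j)
      (le_max_of_le_left (exp_pos _).le))⟩, fun l => ⟨P.θ l, P.pos l,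
    -(P.θ l * |G.K l|) - 2 * (1 / 2) ^ l, fun j x y => ?_⟩⟩
  refine (WW_le P (le_max_of_le_left ((W0_FF P).trans_eq ?_)) (le_max_of_le_right eF_le)
    (le_max_of_le_right eF_le)).trans (mul_le_mul_of_nonneg_right (sn_sq j)
      (le_max_of_le_right ee_pos.le))
  rw [vv]
  congr 2; ring

end D2

theorem stD2 : StD2 := fun _ _ _ _ _ _ _ _ _ _ G =>
  (D2.exists_par G).elim fun P => ⟨D2.ld P, D2.lk P⟩

end Vale.Agent.P284Y.D
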