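import Vale.Agent.P284Z.Spec

/-!
# P284Y, block D: level data with a floor, limits, loci, nice charts, tubes
-/

open scoped ContDiff Topology ComplexOrder ENNReal
open Filter Set Metric MeasureTheory

noncomputable section

namespace Vale.Agent.P284Y.D

open Vale.Agent.P272.K Vale.Agent.P284Z

variable {n : ℕ} {Γ E : Type} [Group Γ] [TopologicalSpace E] [MulAction Γ E]

/-- `F j = exp f_j`, `W l j = exp v_j^l`, the Reiter measures `m j`. -/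
structure LD (C : Cov n Γ E) where
  A : ℝ
  A_pos : 0 < A
  F : ℕ → E → ℝ
  W : ℕ → ℕ → E → E → ℝ
  ε : ℕ → ℝ
  one_le : ∀ j, 1 ≤ ε j
  ε_tend : Tendsto ε atTop (𝓝 1)
  F_cont : ∀ j, Continuous (F j)
  F_nonneg : ∀ j y, 0 ≤ F j y
  F_le : ∀ j y, F j y ≤ 1
  F_inv : ∀ j (γ : Γ) y, F j (γ • y) = F j y
  F_psh : ∀ j a, LPsh (fun z => F j (C.pt 1 a z) * Real.exp (A * C.ρ a z)) (C.B 4 a)
  F_sm : ∀ j a, ∀ z ∈ C.B 4 a, 0 < F j (C.pt 1 a z) →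
    ContDiffAt ℝ ∞ (fun w => F j (C.pt 1 a w)) z
  W_cont : ∀ l j, Continuous fun q : E × E => W l j q.1 q.2
  W_nonneg : ∀ l j x y, 0 ≤ W l j x y
  W_le : ∀ l j x y, W l j x y ≤ ε j * (F j x * F j y)
  W_inv : ∀ l j (γ : Γ) x y, W l j (γ • x) (γ • y) = W l j x y
  W_symm : ∀ l j x y, W l j x y = W l j y x
  W_psh : ∀ l j γ a b, LPsh (fun q : Cm n × Cm n => W l j (C.pt 1 a q.1) (C.pt γ b q.2) *
    Real.exp (A * C.ρ a q.1 + A * C.ρ b q.2)) (C.B 4 a ×ˢ C.B 4 b)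
  W_sm : ∀ l j x γ b, ∀ z ∈ C.B 4 b, 0 < W l j x (C.pt γ b z) →
    ContDiffAt ℝ ∞ (fun w => W l j x (C.pt γ b w)) z
  chain : ∀ l, ∀ᶠ j in atTop, ∀ x₁ x₂ x₃ x₄, W l j x₁ x₄ * (F j x₂ * F j x₃) ≤
    ε j * max (W (l + 1) j x₁ x₂ * (F j x₃ * F j x₄))
      (max (W (l + 1) j x₂ x₃ * (F j x₁ * F j x₄)) (W (l + 1) j x₃ x₄ * (F j x₁ * F j x₂)))
  c : ℕ → ℝ
  c_pos : ∀ l, 0 < c l
  c_anti : Antitone c
  e : ℕ → ℝ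
  e_nonneg : ∀ j, 0 ≤ e j
  e_tend : Tendsto e atTop (𝓝 0)
  pole : ∀ l, ∃ K : ℝ, ∀ᶠ j in atTop, ∀ a, ∀ z ∈ C.B 3 a, ∀ z' ∈ C.B 3 a,
    W l j (C.pt 1 a z) (C.pt 1 a z') ≤ K * (‖z - z'‖ ^ c l + e j)
  low : ∀ l j x y, e j * (F j x * F j y) ≤ 2 * W l j x y
  mono : ∀ l, ∀ᶠ j in atTop, ∀ x y, W l j x y ≤ 2 * W (l + 1) j x y
  nondeg : ∃ K : Set E, IsCompact K ∧ ∀ l, ∃ θ > (0 : ℝ), ∀ᶠ j in atTop, ∃ x ∈ K, ∃ y ∈ K,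
    θ ≤ W l j x y
  m : ℕ → E → Γ → ℝ
  m_nonneg : ∀ j y g, 0 ≤ m j y g
  m_sum : ∀ j y, 0 < F j y → HasSum (m j y) 1
  m_eqv : ∀ j (γ : Γ) y g, m j (γ • y) (γ * g) = m j y g
  η : ℕ → ℝ
  η_tend : Tendsto η atTop (𝓝 0)
  reiter : ∀ l, ∃ θ > (0 : ℝ), ∀ᶠ j in atTop, ∀ x y, 0 < F j x → 0 < F j y →
    W l j x y ≤ θ * (F j x * F j y) → ∑' g, |m j x g - m j y g| ≤ η l

/-- the subsequence -/
def LD.comp {C : Cov n Γ E} (D : LD C) (φ : ℕ → ℕ) (hφ : StrictMono φ) : LD C where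
  A := D.A
  A_pos := D.A_pos
  F := fun j => D.F (φ j)
  W := fun l j => D.W l (φ j)
  ε := fun j => D.ε (φ j)
  one_le := fun j => D.one_le (φ j)
  ε_tend := D.ε_tend.comp hφ.tendsto_atTop
  F_cont := fun j => D.F_cont (φ j)
  F_nonneg := fun j => D.F_nonneg (φ j)
  F_le := fun j => D.F_le (φ j)
  F_inv := fun j => D.F_inv (φ j)
  F_psh := fun j => D.F_psh (φ j)
  F_sm := fun j => D.F_sm (φ j)
  W_cont := fun l j => D.W_cont l (φ j)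
  W_nonneg := fun l j => D.W_nonneg l (φ j)
  W_le := fun l j => D.W_le l (φ j)
  W_inv := fun l j => D.W_inv l (φ j)
  W_symm := fun l j => D.W_symm l (φ j)
  W_psh := fun l j => D.W_psh l (φ j)
  W_sm := fun l j => D.W_sm l (φ j)
  chain := fun l => hφ.tendsto_atTop.eventually (D.chain l)
  c := D.c
  c_pos := D.c_pos
  c_anti := D.c_anti
  pole := fun l => (D.pole l).imp fun _ h => hφ.tendsto_atTop.eventually h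
  e := fun j => D.e (φ j)
  e_nonneg := fun j => D.e_nonneg (φ j)
  e_tend := D.e_tend.comp hφ.tendsto_atTop
  low := fun l j => D.low l (φ j)
  mono := fun l => hφ.tendsto_atTop.eventually (D.mono l)
  nondeg := D.nondeg.imp fun _ h => ⟨h.1, fun l => (h.2 l).imp fun _ h' =>
    ⟨h'.1, hφ.tendsto_atTop.eventually h'.2⟩⟩
  m := fun j => D.m (φ j)
  m_nonneg := fun j => D.m_nonneg (φ j)
  m_sum := fun j => D.m_sum (φ j)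
  m_eqv := fun j => D.m_eqv (φ j)
  η := D.η
  η_tend := D.η_tend
  reiter := fun l => (D.reiter l).imp fun _ h => ⟨h.1, hφ.tendsto_atTop.eventually h.2⟩

/-- The relaxed limits `F = exp f`, `W l = exp v^l` of the level `j` data. -/
structure Lim {C : Cov n Γ E} (D : LD C) where
  F : E → ℝ
  W : ℕ → E → E → ℝ
  F_lim : RLim D.F F
  W_lim : ∀ l, RLim (fun j (q : E × E) => D.W l j q.1 q.2) fun q => W l q.1 q.2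
  F_nonneg : ∀ y, 0 ≤ F y
  F_le : ∀ y, F y ≤ 1
  F_inv : ∀ (γ : Γ) y, F (γ • y) = F y
  F_psh : ∀ a, LPsh (fun z => F (C.pt 1 a z) * Real.exp (D.A * C.ρ a z)) (C.B 4 a)
  F_ae : ∀ a, ∀ᵐ z, z ∈ C.B 4 a → 0 < F (C.pt 1 a z) ∧
    Tendsto (fun j => D.F j (C.pt 1 a z)) atTop (𝓝 (F (C.pt 1 a z)))
  F_L1 : ∃ K : ℝ≥0∞, K < ⊤ ∧ ∀ j a,
    ∫⁻ z in C.B 3 a, ENNReal.ofReal |Real.log (D.F j (C.pt 1 a z))| ≤ K ∧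
    ∀ᵐ z, z ∈ C.B 4 a → 0 < D.F j (C.pt 1 a z)
  W_nonneg : ∀ l x y, 0 ≤ W l x y
  W_le : ∀ l x y, W l x y ≤ F x * F y
  W_inv : ∀ l (γ : Γ) x y, W l (γ • x) (γ • y) = W l x y
  W_symm : ∀ l x y, W l x y = W l y x
  W_psh : ∀ l γ a b, LPsh (fun q : Cm n × Cm n => W l (C.pt 1 a q.1) (C.pt γ b q.2) *
    Real.exp (D.A * C.ρ a q.1 + D.A * C.ρ b q.2)) (C.B 4 a ×ˢ C.B 4 b)
  W_ae : ∀ l γ a b, ∀ᵐ q : Cm n × Cm n, q ∈ C.B 4 a ×ˢ C.B 4 b →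
    0 < W l (C.pt 1 a q.1) (C.pt γ b q.2)
  chain : ∀ l x₁ x₂ x₃ x₄, W l x₁ x₄ * (F x₂ * F x₃) ≤
    max (W (l + 1) x₁ x₂ * (F x₃ * F x₄))
      (max (W (l + 1) x₂ x₃ * (F x₁ * F x₄)) (W (l + 1) x₃ x₄ * (F x₁ * F x₂)))
  mono : ∀ l x y, W l x y ≤ W (l + 1) x y
  pole : ∀ l, ∃ K : ℝ, ∀ a, ∀ z ∈ C.B 3 a, ∀ z' ∈ C.B 3 a,
    W l (C.pt 1 a z) (C.pt 1 a z') ≤ K * ‖z - z'‖ ^ D.c l

/-! ### the analytic sets `Z` -/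

/-- The non-integrability loci. -/
structure ZD {C : Cov n Γ E} {D : LD C} (L : Lim D) where
  Z : ℕ → Set (E × E)
  c' : ℕ → ℝ
  c'_pos : ∀ l, 0 < c' l
  c'_anti : Antitone c'
  c'_le : ∀ l, c' l ≤ D.c (l + 1)
  closed : ∀ l, IsClosed (Z l)
  inv : ∀ l (γ : Γ) x y, (x, y) ∈ Z l → (γ • x, γ • y) ∈ Z l
  symm : ∀ l x y, (x, y) ∈ Z l → (y, x) ∈ Z l
  an : ∀ l γ a b, ∃ S : Set (Cm n × Cm n → ℂ),
    (∀ f ∈ S, AnalyticOnNhd ℂ f (C.B 3 a ×ˢ C.B 3 b)) ∧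
    ∀ q ∈ C.B 3 a ×ˢ C.B 3 b, (C.pt 1 a q.1, C.pt γ b q.2) ∈ Z l ↔ ∀ f ∈ S, f q = 0
  mem : ∀ l γ a b, ∀ q ∈ C.B 4 a ×ˢ C.B 4 b, (∃ K : ℝ, ∀ᶠ q' in 𝓝 q,
    L.W l (C.pt 1 a q'.1) (C.pt γ b q'.2) ≤ K * ‖q' - q‖ ^ (D.c (l + 1) / 2)) →
    (C.pt 1 a q.1, C.pt γ b q.2) ∈ Z l
  bound : ∀ l, ∃ K : ℝ, ∀ γ a b, ∀ q ∈ C.B 2 a ×ˢ C.B 2 b, (C.pt 1 a q.1, C.pt γ b q.2) ∈ Z l →
    ∀ q' ∈ C.B 3 a ×ˢ C.B 3 b, L.W l (C.pt 1 a q'.1) (C.pt γ b q'.2) ≤ K * ‖q' - q‖ ^ c' l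
  lelong : ∀ ν > (0 : ℝ), ∀ a, ∃ h : Cm n → ℂ, AnalyticOnNhd ℂ h (C.B 3 a) ∧
    (∃ z ∈ C.B 3 a, h z ≠ 0) ∧ ∀ z ∈ C.B 3 a, h z ≠ 0 → C.Small L.F ν (C.pt 1 a z)

namespace ZD
variable {C : Cov n Γ E} {D : LD C} {L : Lim D} (Z : ZD L)

/-- the intersection of the first loci -/
def upto (l : ℕ) : Set (E × E) := {q | ∀ l' ≤ l, q ∈ Z.Z l'}

/-- the intersection of all the loci -/
def all : Set (E × E) := {q | ∀ l, q ∈ Z.Z l}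

/-- the shell bound, at level `j` and in the limit -/
def SB : Prop := ∀ l (K : Set (E × E)), IsCompact K → Disjoint K (Z.upto l) →
  ∃ κ > 0, (∀ᶠ j in atTop, ∀ q ∈ K,
    κ * min (D.F j q.1) (D.F j q.2) ^ 3 * (D.F j q.1 * D.F j q.2) ≤ D.W (l + 1) j q.1 q.2) ∧
    ∀ q ∈ K, κ * min (L.F q.1) (L.F q.2) ^ 3 * (L.F q.1 * L.F q.2) ≤ L.W (l + 1) q.1 q.2

/-- transitivity -/
def TR : Prop :=
  (∀ y, (y, y) ∈ Z.all) ∧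
  (∀ x y, 0 < L.F x → 0 < L.F y → ((x, y) ∈ Z.all ↔ ∀ l, L.W l x y = 0)) ∧
  (∀ x y z, 0 < L.F x → 0 < L.F y → 0 < L.F z → (x, y) ∈ Z.all → (y, z) ∈ Z.all →
    (x, z) ∈ Z.all) ∧
  ∀ l x y z, C.Small L.F (Z.c' (l + 2) / 4) x → C.Small L.F (Z.c' (l + 2) / 4) y →
    C.Small L.F (Z.c' (l + 2) / 4) z → (x, y) ∈ Z.Z (l + 2) → (y, z) ∈ Z.Z (l + 2) →
    (x, z) ∈ Z.upto l

end ZD

/-- A nice chart: a flow box in which `Z` is the relation of being on the same plaque. -/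
structure NC {C : Cov n Γ E} {D : LD C} {L : Lim D} (Z : ZD L) (d q l₁ : ℕ) where
  Ψ : OpenPartialHomeomorph E (Cm d × Cm q)
  R : ℝ
  R_pos : 0 < R
  tgt : Ψ.target = ball 0 R
  g : Γ
  a : C.I
  inch : ∀ y ∈ Ψ.source, ∃ z ∈ C.B 2 a, y = C.pt g a z
  hol : C.HolOn Ψ Ψ.source
  hol' : AnalyticOnNhd ℂ (fun u => C.co g a (Ψ.symm u)) (ball 0 R)
  rel : ∀ x ∈ Ψ.source, ∀ y ∈ Ψ.source, ((x, y) ∈ Z.upto l₁ → (Ψ x).2 = (Ψ y).2) ∧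
    ((Ψ x).2 = (Ψ y).2 → (x, y) ∈ Z.all)

/-- The foliation. -/
structure FD {C : Cov n Γ E} {D : LD C} {L : Lim D} (Z : ZD L) where
  d : ℕ
  q : ℕ
  l₁ : ℕ
  dim : d + q = n
  q_pos : 1 ≤ q
  En : Set E
  opn : IsOpen En
  inv : ∀ (γ : Γ) y, y ∈ En → γ • y ∈ En
  conn : IsPreconnected En
  thin : ∀ a, ∃ h : Cm n → ℂ, AnalyticOnNhd ℂ h (C.B 2 a) ∧ (∃ z ∈ C.B 2 a, h z ≠ 0) ∧
    ∀ z ∈ C.B 2 a, h z ≠ 0 → C.pt 1 a z ∈ En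
  small : ∀ y ∈ En, C.Small L.F (Z.c' (l₁ + 2) / 6) y
  nice : ∀ y ∈ En, ∀ U ∈ 𝓝 y, ∃ N : NC Z d q l₁, y ∈ N.Ψ.source ∧ N.Ψ y = 0 ∧
    N.Ψ.source ⊆ En ∩ U

/-- The tube over a small ball of a good slice of a nice chart. -/
structure TD {C : Cov n Γ E} {D : LD C} {L : Lim D} {Z : ZD L} (Φ : FD Z)
    (N : NC Z Φ.d Φ.q Φ.l₁) where
  a₀ : Cm Φ.d
  t₀ : Cm Φ.q
  R : ℝ
  R_pos : 0 < R
  sub : ∀ t ∈ closedBall t₀ R, (a₀, t) ∈ ball (0 : Cm Φ.d × Cm Φ.q) N.R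
  good₀ : 0 < L.F (N.Ψ.symm (a₀, t₀)) ∧
    Tendsto (fun j => D.F j (N.Ψ.symm (a₀, t₀))) atTop (𝓝 (L.F (N.Ψ.symm (a₀, t₀))))
  good : ∀ᵐ t, t ∈ ball t₀ R → 0 < L.F (N.Ψ.symm (a₀, t)) ∧
    Tendsto (fun j => D.F j (N.Ψ.symm (a₀, t))) atTop (𝓝 (L.F (N.Ψ.symm (a₀, t))))
  Ω : Set E
  s : E → Cm Φ.q
  opn : IsOpen Ω
  subEn : Ω ⊆ Φ.En
  mem : ∀ y ∈ Ω, s y ∈ ball t₀ R ∧ (N.Ψ.symm (a₀, s y), y) ∈ Z.all
  hol : C.HolOn s Ω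
  subm : ∀ γ a, ∀ z ∈ C.B 4 a, C.pt γ a z ∈ Ω →
    Function.Surjective (fderiv ℂ (fun w => s (C.pt γ a w)) z)
  base : ∀ y ∈ N.Ψ.source, (N.Ψ y).2 ∈ ball t₀ R → y ∈ Ω ∧ s y = (N.Ψ y).2
  clos : ∀ K : Set E, IsCompact K → K ⊆ Φ.En → ∀ r < R,
    IsCompact (K ∩ {y ∈ Ω | ‖s y - t₀‖ ≤ r})

/-- the recurrent case (a) -/
def TD.Rec {C : Cov n Γ E} {D : LD C} {L : Lim D} {Z : ZD L} {Φ : FD Z}
    {N : NC Z Φ.d Φ.q Φ.l₁} (T : TD Φ N) : Prop :=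
  ∃ K : Set E, IsCompact K ∧ K ⊆ Φ.En ∧ ∃ r < T.R,
    {γ : Γ | ∃ y ∈ K, γ • y ∈ T.Ω ∧ ‖T.s (γ • y) - T.t₀‖ ≤ r}.Infinite

/-- **F**: relaxed limits -/
def StF : Prop :=
  ∀ (n : ℕ) (Γ E : Type) [Group Γ] [Countable Γ] [TopologicalSpace E] [T2Space E]
    [ConnectedSpace E] [MulAction Γ E] (C : Cov n Γ E) (D : LD C),
    ∃ (φ : ℕ → ℕ) (hφ : StrictMono φ), Nonempty (Lim (D.comp φ hφ))

/-- **Z**: the non-integrability loci (Skoda, Bombieri) -/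
def StZ : Prop :=
  ∀ (n : ℕ) (Γ E : Type) [Group Γ] [Countable Γ] [TopologicalSpace E] [T2Space E]
    [ConnectedSpace E] [MulAction Γ E] (C : Cov n Γ E) (D : LD C) (L : Lim D), Nonempty (ZD L)

/-- **S**: the shell bound and transitivity -/
def StS : Prop :=
  ∀ (n : ℕ) (Γ E : Type) [Group Γ] [Countable Γ] [TopologicalSpace E] [T2Space E]
    [ConnectedSpace E] [MulAction Γ E] (C : Cov n Γ E) (D : LD C) (L : Lim D) (Z : ZD L),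
    Z.SB ∧ Z.TR

/-- **G**: nice charts -/
def StG : Prop :=
  ∀ (n : ℕ) (Γ E : Type) [Group Γ] [Countable Γ] [TopologicalSpace E] [T2Space E]
    [ConnectedSpace E] [MulAction Γ E] (C : Cov n Γ E) (D : LD C) (L : Lim D) (Z : ZD L),
    Z.TR → Nonempty (FD Z)

/-- **H**: the tube, and the holonomy in the recurrent case -/
def StH : Prop :=
  ∀ (n : ℕ) (Γ E : Type) [Group Γ] [Countable Γ] [TopologicalSpace E] [T2Space E]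
    [ConnectedSpace E] [MulAction Γ E] (C : Cov n Γ E) (D : LD C) (L : Lim D) (Z : ZD L),
    Z.SB → Z.TR → ∀ (Φ : FD Z) (N : NC Z Φ.d Φ.q Φ.l₁), N.Ψ.source ⊆ Φ.En →
    ∃ T : TD Φ N, T.Rec → Nonempty (LS Γ)

end Vale.Agent.P284Y.D
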