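import Vale.Agent.P284Z.F.L1
import Vale.Agent.P284Z.F.Cv
import Vale.Agent.P284Y.D.Defs

/-! P284Z, block F: the relaxed limits of the level `j` data. -/

open scoped Topology ENNReal
open Filter Set Metric MeasureTheory

noncomputable section

namespace Vale.Agent.P284Y.D

open Vale.Agent.P284Z

open Z Vale.Agent.P272.K

/-- positivity almost everywhere in all the charts of a connected space -/
theorem ae_pos_of_charts {W : Type} [NormedAddCommGroup W] [NormedSpace ℂ W]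
    [FiniteDimensional ℂ W] [MeasurableSpace W] [BorelSpace W] (μ : Measure W)
    [μ.IsAddHaarMeasure] {Y κ : Type} [TopologicalSpace Y] [PreconnectedSpace Y] {G : Y → ℝ}
    {y₀ : Y} (h0 : G y₀ ≠ 0) (Φ : κ → W → Y) (U : κ → Set W) (w : κ → W → ℝ)
    (hU : ∀ k, IsOpen (U k)) (hc : ∀ k, IsPreconnected (U k))
    (hmap : ∀ k, ∀ z ∈ U k, map (Φ k) (𝓝 z) = 𝓝 (Φ k z))
    (hcov : ∀ y, ∃ k, ∃ z ∈ U k, y = Φ k z) (hw : ∀ k z, 0 < w k z)
    (hP : ∀ k, LPsh (fun z => G (Φ k z) * w k z) (U k)) (k : κ) :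
    ∀ᵐ z ∂μ, z ∈ U k → 0 < G (Φ k z) := by
  have key : ∀ k, (∀ z ∈ U k, G (Φ k z) = 0) ∨ ∀ᵐ z ∂μ, z ∈ U k → 0 < G (Φ k z) := by
    intro k
    refine or_iff_not_imp_left.2 fun h => ?_
    obtain ⟨z, hz⟩ := not_forall.1 h
    obtain ⟨hz, hz0⟩ := Classical.not_imp.1 hz
    exact ((hP k).ae_pos (hU k) (hc k) hz (((hP k).1 z hz).lt_of_ne'
      (mul_ne_zero hz0 (hw k z).ne'))).mono fun y hy hy' => (mul_pos_iff_of_pos_right
        (hw k y)).1 (hy hy')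
  have van : ∀ k, (∀ z ∈ U k, G (Φ k z) = 0) → ∀ z ∈ U k, ∀ᶠ x in 𝓝 (Φ k z), G x = 0 :=
    fun k h z hz => by
      rw [← hmap k z hz, eventually_map]
      exact ((hU k).eventually_mem hz).mono h
  have hnv := not_vanish h0 fun y hy => by
    obtain ⟨k, z, hz, rfl⟩ := hcov y
    refine (key k).elim (fun h => van k h z hz) fun h => ?_
    rw [← hmap k z hz, frequently_map] at hy
    obtain ⟨z', h1, h2⟩ := (hy.and_eventually ((hU k).eventually_mem hz)).exists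
    rw [← hmap k z' h2, eventually_map] at h1
    obtain ⟨x, hx, hx0⟩ := exists_of_ae (μ := μ) (h1.and ((hU k).eventually_mem h2))
      (h.mono fun x hx hx' => hx hx'.2)
    exact absurd hx.1 hx0.ne'
  exact (key k).elim (fun h => Eventually.of_forall fun z hz => (hnv _ (van k h z hz)).elim) id

namespace Fm

variable {n : ℕ} {Γ E : Type} [Group Γ] [TopologicalSpace E] [MulAction Γ E] {C : Cov n Γ E}
  {D : LD C} {F : E → ℝ} {W : ℕ → E → E → ℝ}

section F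
variable (hF : RLim D.F F)
include hF

theorem F0 (y : E) : 0 ≤ F y := (hF.rat y).ge_of fun j => D.F_nonneg j y

theorem F1 (y : E) : F y ≤ 1 :=
  (hF.rat y).le_of_nbhd univ_mem (Eventually.of_forall fun j x _ => D.F_le j x)

theorem Finv (γ : Γ) (y : E) : F (γ • y) = F y := by
  have := (hF.rat (γ • y)).map (C.map_deck γ y)
  simp only [D.F_inv] at this
  exact this.unique (hF.rat y)

theorem Fch (a : C.I) (z : Cm n) (hz : z ∈ C.B 4 a) :
    RAt (fun j w => D.F j (C.pt 1 a w) * Real.exp (D.A * C.ρ a w))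
      (F (C.pt 1 a z) * Real.exp (D.A * C.ρ a z)) z :=
  ((hF.rat _).map (C.map_pt 1 a hz)).mul_cont (C.contAt_exp D.A a hz).rexp (Real.exp_pos _)

theorem Fpsh (a : C.I) : LPsh (fun z => F (C.pt 1 a z) * Real.exp (D.A * C.ρ a z)) (C.B 4 a) :=
  lpsh_of_rat (C.fB_open 4 a) (fun j => D.F_psh j a) (Fch hF a)

theorem Fpos [PreconnectedSpace E] {y₀ : E} (h0 : F y₀ ≠ 0) (a : C.I) :
    ∀ᵐ z, z ∈ C.B 4 a → 0 < F (C.pt 1 a z) :=
  ae_pos_of_charts volume h0 (fun k : Γ × C.I => C.pt k.1 k.2) (fun k => C.B 4 k.2)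
    (fun k z => Real.exp (D.A * C.ρ k.2 z)) (fun k => C.fB_open 4 k.2)
    (fun _ => (convex_ball _ _).isPreconnected) (fun k _ hz => C.map_pt k.1 k.2 hz)
    (fun y => by
      obtain ⟨γ, a, z, hz, h⟩ := C.fcover y
      exact ⟨(γ, a), z, C.fB_mono (by norm_num) a hz, h⟩)
    (fun _ _ => Real.exp_pos _)
    (fun k => by simpa only [C.fpt_eq k.1, Finv hF] using Fpsh hF k.2) (1, a)

theorem FL1 (a : C.I) (hp : ∀ᵐ z, z ∈ C.B 4 a → 0 < F (C.pt 1 a z)) :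
    ∃ K : ℝ≥0∞, K < ⊤ ∧ ∀ᶠ j in atTop,
      ∫⁻ z in C.B 3 a, ENNReal.ofReal |Real.log (D.F j (C.pt 1 a z))| ≤ K ∧
      ∀ᵐ z, z ∈ C.B 4 a → 0 < D.F j (C.pt 1 a z) := by
  have hr := C.r_pos a
  have hQ : closedBall (C.c a) (7 / 2 * C.r a) ⊆ C.B 4 a := closedBall_subset_ball (by linarith)
  obtain ⟨z₀, hz₀, h0⟩ := exists_of_ae (μ := volume)
    (ball_mem_nhds (C.c a) (by positivity : 0 < 1 / 4 * C.r a))
    (hp.mono fun z hz hz' => hz (C.fB_mono (by norm_num) a hz'))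
  have hz₀' : z₀ ∈ C.B 4 a := C.fB_mono (by norm_num) a hz₀
  obtain ⟨x, hx, hlim⟩ := (Fch hF a z₀ hz₀').recover
  have hm : 0 < F (C.pt 1 a z₀) * Real.exp (D.A * C.ρ a z₀) := mul_pos h0 (Real.exp_pos _)
  set m := F (C.pt 1 a z₀) * Real.exp (D.A * C.ρ a z₀)
  obtain ⟨L, hL⟩ := (isCompact_closedBall (C.c a) (7 / 2 * C.r a)).exists_bound_of_continuousOn
    fun z hz => (C.contAt_exp D.A a (hQ hz)).continuousWithinAt
  have hL0 : 0 ≤ L := (norm_nonneg _).trans (hL _ (mem_closedBall_self (by positivity)))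
  have hL' : ∀ z ∈ closedBall (C.c a) (7 / 2 * C.r a), D.A * C.ρ a z ≤ L := fun z hz =>
    (le_abs_self _).trans (hL z hz)
  refine ⟨ENNReal.ofReal (L - Real.log (m / 2)) * volume (closedBall (C.c a) (7 / 2 * C.r a)),
    ENNReal.mul_lt_top ENNReal.ofReal_lt_top measure_closedBall_lt_top, ?_⟩
  filter_upwards [hx.eventually (isOpen_ball.mem_nhds hz₀),
    hlim.eventually (lt_mem_nhds (half_lt_self hm))] with j h1 h2
  have hd : dist (x j) (C.c a) < 1 / 4 * C.r a := h1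
  have s1 : closedBall (x j) (13 / 4 * C.r a) ⊆ closedBall (C.c a) (7 / 2 * C.r a) :=
    closedBall_subset_closedBall' (by linarith)
  have s2 : C.B 3 a ⊆ closedBall (x j) (13 / 4 * C.r a) :=
    ball_subset_closedBall.trans (closedBall_subset_closedBall' (by rw [dist_comm]; linarith))
  have h3 := (half_pos hm).trans h2
  refine ⟨?_, ((D.F_psh j a).ae_pos (C.fB_open 4 a) (convex_ball _ _).isPreconnected
    (C.fB_mono (by norm_num) a h1) h3).mono fun z hz hz' =>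
      (mul_pos_iff_of_pos_right (Real.exp_pos _)).1 (hz hz')⟩
  have h4 := (D.F_psh j a).lint_nl (μ := volume) (C.fB_open 4 a) (s1.trans hQ) hL0
    (fun y hy => (mul_le_of_le_one_left (Real.exp_pos _).le (D.F_le j _)).trans
      (Real.exp_le_exp.2 (hL' y (s1 hy)))) h3
  refine le_trans (setLIntegral_mono' (C.fB_open 3 a).measurableSet fun z hz => ?_)
    ((lintegral_mono_set s2).trans (h4.trans (mul_le_mul' (ENNReal.ofReal_le_ofReal
      (sub_le_sub_left (Real.log_le_log (half_pos hm) h2.le) L)) (measure_mono s1))))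
  rcases (D.F_nonneg j (C.pt 1 a z)).eq_or_lt with h5 | h5
  · simp [← h5]
  · refine le_trans (ENNReal.ofReal_le_ofReal ?_) (le_nl L (mul_pos h5 (Real.exp_pos _)))
    rw [abs_of_nonpos (Real.log_nonpos h5.le (D.F_le j _)),
      Real.log_mul h5.ne' (Real.exp_pos _).ne', Real.log_exp]
    linarith [hL' z (s1 (s2 hz))]

end F

section W
variable (hW : ∀ l, RLim (fun j (q : E × E) => D.W l j q.1 q.2) fun q => W l q.1 q.2)
include hW

theorem W0 (l : ℕ) (x y : E) : 0 ≤ W l x y :=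
  ((hW l).rat (x, y)).ge_of fun j => D.W_nonneg l j x y

theorem Winv (l : ℕ) (γ : Γ) (x y : E) : W l (γ • x) (γ • y) = W l x y := by
  have := ((hW l).rat (γ • x, γ • y)).map (f := (C.deck γ).prodCongr (C.deck γ)) (x := (x, y))
    (Homeomorph.map_nhds_eq _ _)
  have e : (fun j (z : E × E) => D.W l j ((C.deck γ).prodCongr (C.deck γ) z).1
      ((C.deck γ).prodCongr (C.deck γ) z).2) = fun j z => D.W l j z.1 z.2 :=
    funext fun j => funext fun z => D.W_inv l j γ z.1 z.2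
  rw [e] at this
  exact this.unique ((hW l).rat (x, y))

theorem Wsymm (l : ℕ) (x y : E) : W l x y = W l y x := by
  have := ((hW l).rat (x, y)).map (f := Homeomorph.prodComm E E) (x := (y, x))
    (Homeomorph.map_nhds_eq _ _)
  have e : (fun j (z : E × E) => D.W l j (Homeomorph.prodComm E E z).1
      (Homeomorph.prodComm E E z).2) = fun j z => D.W l j z.1 z.2 :=
    funext fun j => funext fun z => D.W_symm l j z.2 z.1
  rw [e] at this
  exact this.unique ((hW l).rat (y, x))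

theorem Wch (l : ℕ) (γ : Γ) (a b : C.I) (q : Cm n × Cm n) (hq : q ∈ C.B 4 a ×ˢ C.B 4 b) :
    RAt (fun j (q : Cm n × Cm n) => D.W l j (C.pt 1 a q.1) (C.pt γ b q.2))
      (W l (C.pt 1 a q.1) (C.pt γ b q.2)) q :=
  ((hW l).rat (C.pt 1 a q.1, C.pt γ b q.2)).map (C.map_pt2 1 γ a b hq)

theorem Wpsh (l : ℕ) (γ : Γ) (a b : C.I) :
    LPsh (fun q : Cm n × Cm n => W l (C.pt 1 a q.1) (C.pt γ b q.2) *
      Real.exp (D.A * C.ρ a q.1 + D.A * C.ρ b q.2)) (C.B 4 a ×ˢ C.B 4 b) :=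
  lpsh_of_rat ((C.fB_open 4 a).prod (C.fB_open 4 b)) (fun j => D.W_psh l j γ a b) fun q hq =>
    (Wch hW l γ a b q hq).mul_cont (((C.contAt_exp D.A a hq.1).comp continuousAt_fst).add
      ((C.contAt_exp D.A b hq.2).comp continuousAt_snd)).rexp (Real.exp_pos _)

theorem Wne (l : ℕ) : ∃ x y, 0 < W l x y := by
  obtain ⟨K, hK, h⟩ := D.nondeg
  obtain ⟨θ, hθ, h⟩ := h l
  by_contra hc
  obtain ⟨j, ⟨x, hx, y, hy, h1⟩, h2⟩ := (h.and (hartogs_of_rat (hK.prod hK)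
    (fun q _ => (hW l).rat q) (w := fun _ => θ) continuousOn_const
    fun q _ => not_le.1 fun h' => hc ⟨_, _, hθ.trans_le h'⟩)).exists
  exact absurd (h2 (x, y) ⟨hx, hy⟩) (not_lt.2 h1)

theorem Wpos [PreconnectedSpace E] (l : ℕ) (γ : Γ) (a b : C.I) :
    ∀ᵐ q : Cm n × Cm n, q ∈ C.B 4 a ×ˢ C.B 4 b → 0 < W l (C.pt 1 a q.1) (C.pt γ b q.2) := by
  obtain ⟨x, y, h⟩ := Wne hW l
  have : (volume : Measure (Cm n × Cm n)).IsAddHaarMeasure := Measure.prod.instIsAddHaarMeasure _ _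
  refine ae_pos_of_charts volume (G := fun q : E × E => W l q.1 q.2) (y₀ := (x, y))
    (by show W l x y ≠ 0; linarith)
    (fun (k : (Γ × Γ) × C.I × C.I) q => (C.pt k.1.1 k.2.1 q.1, C.pt k.1.2 k.2.2 q.2))
    (fun k => C.B 4 k.2.1 ×ˢ C.B 4 k.2.2)
    (fun k q => Real.exp (D.A * C.ρ k.2.1 q.1 + D.A * C.ρ k.2.2 q.2))
    (fun k => (C.fB_open 4 _).prod (C.fB_open 4 _))
    (fun _ => ((convex_ball _ _).prod (convex_ball _ _)).isPreconnected)
    (fun k _ hz => C.map_pt2 _ _ _ _ hz) (fun q => ?_) (fun _ _ => Real.exp_pos _) (fun k => ?_)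
    ((1, γ), a, b)
  · obtain ⟨γ₁, a₁, z₁, hz₁, h₁⟩ := C.fcover q.1
    obtain ⟨γ₂, a₂, z₂, hz₂, h₂⟩ := C.fcover q.2
    exact ⟨((γ₁, γ₂), a₁, a₂), (z₁, z₂), ⟨C.fB_mono (by norm_num) _ hz₁,
      C.fB_mono (by norm_num) _ hz₂⟩, Prod.ext h₁ h₂⟩
  · have e : ∀ z z', W l (C.pt k.1.1 k.2.1 z) (C.pt k.1.2 k.2.2 z') =
        W l (C.pt 1 k.2.1 z) (C.pt (k.1.1⁻¹ * k.1.2) k.2.2 z') := fun z z' => by
      rw [← Winv hW l k.1.1⁻¹, C.fpt_smul, C.fpt_smul, inv_mul_cancel]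
    simpa only [e] using Wpsh hW l (k.1.1⁻¹ * k.1.2) k.2.1 k.2.2

theorem Wpole (l : ℕ) : ∃ K : ℝ, ∀ a, ∀ z ∈ C.B 3 a, ∀ z' ∈ C.B 3 a,
    W l (C.pt 1 a z) (C.pt 1 a z') ≤ K * ‖z - z'‖ ^ D.c l := by
  obtain ⟨K, hK⟩ := D.pole l
  refine ⟨K, fun a z hz z' hz' => ?_⟩
  obtain ⟨q, hq, hlim⟩ := (Wch hW l 1 a a (z, z')
    ⟨C.fB_mono (by norm_num) a hz, C.fB_mono (by norm_num) a hz'⟩).recover
  have ht := (((hq.fst_nhds.sub hq.snd_nhds).norm.rpow_const
    (Or.inr (D.c_pos l).le)).add D.e_tend).const_mul K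
  rw [add_zero] at ht
  refine le_of_tendsto_of_tendsto hlim ht ?_
  filter_upwards [hK, hq.eventually
    (((C.fB_open 3 a).prod (C.fB_open 3 a)).mem_nhds (mk_mem_prod hz hz'))] with j h1 h2
  exact h1 a _ h2.1 _ h2.2

theorem Wdiag (l : ℕ) (x : E) : W l x x = 0 := by
  obtain ⟨γ, a, z, hz, rfl⟩ := C.fcover x
  obtain ⟨K, hK⟩ := Wpole hW l
  have hz' := C.fB_mono (by norm_num : (1 : ℝ) ≤ 3) a hz
  have := hK a z hz' z hz'
  rw [sub_self, norm_zero, Real.zero_rpow (D.c_pos l).ne', mul_zero] at this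
  rw [C.fpt_eq γ, Winv hW]
  exact le_antisymm this (W0 hW _ _ _)

variable [FirstCountableTopology E] (hF : RLim D.F F)
include hF

theorem Wle (l : ℕ) (x y : E) : W l x y ≤ F x * F y := by
  obtain ⟨q, hq, hlim⟩ := ((hW l).rat (x, y)).recover
  have := Ub.le hlim ((Ub.of_tendsto D.ε_tend).mul (((hF.rat x).ub hq.fst_nhds).mul
    ((hF.rat y).ub hq.snd_nhds) (fun j => D.F_nonneg _ _) fun j => D.F_nonneg _ _)
    (fun j => zero_le_one.trans (D.one_le j))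
    fun j => mul_nonneg (D.F_nonneg _ _) (D.F_nonneg _ _))
    (Eventually.of_forall fun j => D.W_le l j _ _)
  rwa [one_mul] at this

theorem Wchain (l : ℕ) (x₁ x₂ x₃ x₄ : E) : W l x₁ x₄ * (F x₂ * F x₃) ≤
    max (W (l + 1) x₁ x₂ * (F x₃ * F x₄))
      (max (W (l + 1) x₂ x₃ * (F x₁ * F x₄)) (W (l + 1) x₃ x₄ * (F x₁ * F x₂))) := by
  obtain ⟨q, hq, hlim⟩ := ((hW l).rat (x₁, x₄)).recover
  obtain ⟨y₂, h₂, l₂⟩ := (hF.rat x₂).recover
  obtain ⟨y₃, h₃, l₃⟩ := (hF.rat x₃).recover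
  have key : ∀ {a b c d : E} {a' b' c' d' : ℕ → E}, Tendsto a' atTop (𝓝 a) →
      Tendsto b' atTop (𝓝 b) → Tendsto c' atTop (𝓝 c) → Tendsto d' atTop (𝓝 d) →
      Ub (fun j => D.W (l + 1) j (a' j) (b' j) * (D.F j (c' j) * D.F j (d' j)))
        (W (l + 1) a b * (F c * F d)) := fun ha hb hc hd =>
    (((hW (l + 1)).rat (_, _)).ub (ha.prodMk_nhds hb)).mul (((hF.rat _).ub hc).mul
      ((hF.rat _).ub hd) (fun j => D.F_nonneg _ _) fun j => D.F_nonneg _ _)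
      (fun j => D.W_nonneg _ _ _ _) fun j => mul_nonneg (D.F_nonneg _ _) (D.F_nonneg _ _)
  have h₁ := hq.fst_nhds
  have h₄ := hq.snd_nhds
  have := Ub.le (hlim.mul (l₂.mul l₃)) ((Ub.of_tendsto D.ε_tend).mul
    ((key h₁ h₂ h₃ h₄).max ((key h₂ h₃ h₁ h₄).max (key h₃ h₄ h₁ h₂)))
    (fun j => zero_le_one.trans (D.one_le j)) fun j => le_max_of_le_left
      (mul_nonneg (D.W_nonneg _ _ _ _) (mul_nonneg (D.F_nonneg _ _) (D.F_nonneg _ _))))
    ((D.chain l).mono fun j hj => hj _ _ _ _)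
  rwa [one_mul] at this

theorem Wmono (l : ℕ) (x y : E) : W l x y ≤ W (l + 1) x y := by
  rcases (F0 hF x).eq_or_lt with h | h
  · refine (Wle hW hF l x y).trans ?_
    rw [← h, zero_mul]
    exact W0 hW _ _ _
  · have := Wchain hW hF l x x x y
    rw [Wdiag hW, zero_mul, max_eq_right (mul_nonneg (W0 hW _ _ _) (mul_pos h h).le),
      max_eq_right (mul_nonneg (W0 hW _ _ _) (mul_pos h h).le)] at this
    exact le_of_mul_le_mul_right this (mul_pos h h)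

theorem core [PreconnectedSpace E] :
    ∃ (φ : ℕ → ℕ) (hφ : StrictMono φ), Nonempty (Lim (D.comp φ hφ)) := by
  obtain ⟨x₀, y₀, h0⟩ := Wne hW 0
  have hx₀ : F x₀ ≠ 0 := fun h => by
    have := Wle hW hF 0 x₀ y₀
    rw [h, zero_mul] at this
    linarith
  have hp := Fpos hF hx₀
  choose K hK hev using fun a => FL1 hF a (hp a)
  obtain ⟨j₀, hj₀⟩ := eventually_atTop.1 (eventually_all.2 hev)
  obtain ⟨φ, hφ, hae⟩ := exists_ae_sub (μ := volume)
    (fun a j => (D.F_psh j a).bp0 (C.fB_open 4 a)) (fun a => (Fpsh hF a).bp0 (C.fB_open 4 a))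
    (Fch hF) fun a => measure_ball_lt_top.ne
  have hψ : StrictMono fun k => φ (k + j₀) := fun _ _ h => hφ (Nat.add_lt_add_right h _)
  refine ⟨_, hψ, ⟨{
    F := F
    W := W
    F_lim := hF.sub hψ.tendsto_atTop
    W_lim := fun l => (hW l).sub hψ.tendsto_atTop
    F_nonneg := F0 hF
    F_le := F1 hF
    F_inv := Finv hF
    F_psh := Fpsh (D := D) hF
    F_ae := fun a => ?_
    F_L1 := ⟨∑ a, K a, ENNReal.sum_lt_top.2 fun a _ => hK a, fun j a => ?_⟩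
    W_nonneg := W0 hW
    W_le := Wle hW hF
    W_inv := Winv hW
    W_symm := Wsymm hW
    W_psh := Wpsh (D := D) hW
    W_ae := Wpos hW
    chain := Wchain hW hF
    mono := Wmono hW hF
    pole := Wpole (D := D) hW }⟩⟩
  · filter_upwards [hp a, hae a] with z h1 h2 hz
    refine ⟨h1 hz, ?_⟩
    have := ((h2 hz).comp (tendsto_add_atTop_nat j₀)).div_const (Real.exp (D.A * C.ρ a z))
    simp only [Function.comp, mul_div_cancel_right₀ _ (Real.exp_pos _).ne'] at this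
    exact this
  · have := hj₀ (φ (j + j₀)) ((Nat.le_add_left _ _).trans hφ.le_apply) a
    exact ⟨this.1.trans (Finset.single_le_sum (fun _ _ => zero_le) (Finset.mem_univ a)), this.2⟩

end W

end Fm

theorem stF : StF := by
  intro n Γ E _ _ _ _ _ _ C D
  have := C.secondCountable
  obtain ⟨φ₁, h₁, H₁⟩ := exists_rlim (fun _ : Unit => D.F) zero_le_one (fun _ => D.F_nonneg)
    fun _ => D.F_le
  obtain ⟨F, hF⟩ := H₁ ()
  obtain ⟨M, hM⟩ := D.ε_tend.bddAbove_range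
  have hM' : ∀ j, D.ε j ≤ M := fun j => hM ⟨j, rfl⟩
  obtain ⟨φ₂, h₂, H₂⟩ := exists_rlim (fun l j (q : E × E) => D.W l (φ₁ j) q.1 q.2) (M := M)
    (zero_le_one.trans ((D.one_le 0).trans (hM' 0))) (fun _ _ _ => D.W_nonneg _ _ _ _)
    fun l j q => (D.W_le _ _ _ _).trans ((mul_le_of_le_one_right
      (zero_le_one.trans (D.one_le _)) (mul_le_one₀ (D.F_le _ _) (D.F_nonneg _ _)
        (D.F_le _ _))).trans (hM' _))
  choose W hW using H₂
  obtain ⟨φ₃, h₃, H⟩ := Fm.core (D := D.comp (φ₁ ∘ φ₂) (h₁.comp h₂))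
    (W := fun l x y => W l (x, y)) hW (hF.sub h₂.tendsto_atTop)
  exact ⟨(φ₁ ∘ φ₂) ∘ φ₃, (h₁.comp h₂).comp h₃, H⟩

end Vale.Agent.P284Y.D
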