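import Vale.Agent.P284Z.G.Sk
import Vale.Agent.P284Z.F0.Cov
import Vale.Agent.P284Y.D.Defs

/-!
# P284Y (copy for the data with a floor), block G: the foliation from the local statements
-/

open scoped Topology
open Filter Set Metric MeasureTheory

noncomputable section

namespace Vale.Agent.P284Y.D.G

open Vale.Agent.P284Z Vale.Agent.P284Z.G

open Vale.Agent.P272.K

variable {n : ℕ} {Γ E : Type} [Group Γ] [TopologicalSpace E] [MulAction Γ E] {C : Cov n Γ E}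
  {D : LD C} {L : Lim D} {Z : ZD L}

theorem all_smul (g : Γ) {x y : E} (h : (x, y) ∈ Z.all) : (g • x, g • y) ∈ Z.all :=
  fun l => Z.inv l g x y (h l)

theorem upto_smul (g : Γ) {l : ℕ} {x y : E} (h : (x, y) ∈ Z.upto l) :
    (g • x, g • y) ∈ Z.upto l := fun l' hl => Z.inv l' g x y (h l' hl)

/-- finitely many equations on a chart -/
theorem fin_family (h1 : SN) (Z : ZD L) (a : C.I) :
    ∃ (m : ℕ) (G : Fin m → Cm n × Cm n → ℂ) (l₀ : ℕ),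
      (∀ s, AnalyticOnNhd ℂ (G s) (C.B 2 a ×ˢ C.B 2 a)) ∧ ∀ x ∈ C.B 2 a, ∀ y ∈ C.B 2 a,
        ((C.pt 1 a x, C.pt 1 a y) ∈ Z.upto l₀ → ∀ s, G s (x, y) = 0) ∧
        ((∀ s, G s (x, y) = 0) → (C.pt 1 a x, C.pt 1 a y) ∈ Z.all) := by
  classical
  choose S hS hS' using fun l => Z.an l 1 a a
  have hsub : C.cB 2 a ×ˢ C.cB 2 a ⊆ C.B 3 a ×ˢ C.B 3 a :=
    prod_mono (C.cB_sub_B (by norm_num) a) (C.cB_sub_B (by norm_num) a)
  have h23 : C.B 2 a ⊆ C.B 3 a := C.B_mono (by norm_num) a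
  choose! T hT using fun p (hp : p ∈ C.cB 2 a ×ˢ C.cB 2 a) =>
    h1 _ (Σ l : ℕ, S l) (fun i => i.2.1) _ p
      (((C.isOpen_B 3 a).prod (C.isOpen_B 3 a)).mem_nhds (hsub hp)) fun i => hS _ _ i.2.2
  obtain ⟨t, -, ht⟩ := ((C.isCompact_cB 2 a).prod (C.isCompact_cB 2 a)).elim_nhds_subcover _ hT
  set T' := t.biUnion T
  refine ⟨T'.card, fun s => (T'.equivFin.symm s).1.2.1, T'.sup fun i => i.1, fun s =>
    (hS _ _ (T'.equivFin.symm s).1.2.2).mono (prod_mono h23 h23), fun x hx y hy => ⟨fun h s => ?_,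
      fun h l => ?_⟩⟩
  · exact (hS' _ (x, y) ⟨h23 hx, h23 hy⟩).1
      (h _ (Finset.le_sup (f := fun i : Σ l : ℕ, S l => i.1) (T'.equivFin.symm s).2)) _
      (T'.equivFin.symm s).1.2.2
  · refine (hS' l (x, y) ⟨h23 hx, h23 hy⟩).2 fun f hf => ?_
    obtain ⟨p, hp, hp'⟩ := mem_iUnion₂.1 (ht (show (x, y) ∈ _ from ⟨C.B_sub_cB 2 a hx, C.B_sub_cB 2 a hy⟩))
    refine hp' (fun i hi => ?_) ⟨l, f, hf⟩
    obtain ⟨s, hs⟩ := T'.equivFin.symm.surjective ⟨i, Finset.mem_biUnion.2 ⟨p, hp, hi⟩⟩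
    have : (T'.equivFin.symm s).1.2.1 (x, y) = 0 := h s
    rwa [hs] at this

/-- a nice chart from a flow box -/
theorem nc_of_box {d q l : ℕ} {a : C.I} (g : Γ) {z : Cm n} {V : Set (Cm n)} (hV : V ⊆ C.B 2 a)
    (hl : ∀ x ∈ C.B 2 a, ∀ y ∈ C.B 2 a, (C.pt 1 a x, C.pt 1 a y) ∈ Z.upto l →
      (C.pt 1 a x, C.pt 1 a y) ∈ Z.all)
    (h : Box (fun x y => (C.pt 1 a x, C.pt 1 a y) ∈ Z.all) d q z V) :
    ∃ N : NC Z d q l, C.pt g a z ∈ N.Ψ.source ∧ N.Ψ (C.pt g a z) = 0 ∧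
      N.Ψ.source ⊆ C.pt g a '' V := by
  obtain ⟨Ψ, r, hr, htgt, hz, hz0, hsrc, han, han', hrel⟩ := h
  have h4 : Ψ.source ⊆ C.B 4 a := hsrc.trans (hV.trans (C.B_mono (by norm_num) a))
  have hs : ∀ y ∈ ((C.ch g a).trans Ψ).source, C.co g a y ∈ Ψ.source ∧
      y = C.pt g a (C.co g a y) := fun y hy => ⟨hy.2, (C.pt_co hy.1).symm⟩
  refine ⟨⟨(C.ch g a).trans Ψ, r, hr, ?_, g, a, fun y hy => ⟨_, hV (hsrc (hs y hy).1), (hs y hy).2⟩,
    fun γ b w hw hy => ?_, fun u hu => ?_, fun x hx y hy => ?_⟩, ⟨C.pt_mem (h4 hz) g, ?_⟩, ?_,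
    fun y hy => ⟨_, hsrc (hs y hy).1, (hs y hy).2.symm⟩⟩
  · rw [OpenPartialHomeomorph.trans_target, ← htgt]
    exact inter_eq_left.2 fun u hu => h4 (Ψ.map_target hu)
  · exact AnalyticAt.comp (f := fun w => C.co g a (C.pt γ b w)) (han _ hy.2)
      (C.holOn_co g a γ b w hw hy.1)
  · refine (han' u hu).congr ?_
    filter_upwards [isOpen_ball.mem_nhds hu] with v hv
    exact (C.co_pt (h4 (Ψ.map_target (htgt ▸ hv))) g).symm
  · obtain ⟨x1, x2⟩ := hs x hx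
    obtain ⟨y1, y2⟩ := hs y hy
    have e := hrel _ x1 _ y1
    refine ⟨fun h => e.1 (hl _ (hV (hsrc x1)) _ (hV (hsrc y1)) ?_), fun h => ?_⟩
    · have := upto_smul g⁻¹ h
      rwa [x2, y2, C.smul_pt, C.smul_pt, inv_mul_cancel] at this
    · have := all_smul g (e.2 h)
      rwa [← C.pt_eq, ← C.pt_eq, ← x2, ← y2] at this
  · show C.co g a _ ∈ Ψ.source
    rwa [C.co_pt (h4 hz)]
  · show Ψ (C.co g a _) = 0
    rwa [C.co_pt (h4 hz)]

theorem nc_symm {d q l : ℕ} (N : NC Z d q l) {y : E} (h : y ∈ N.Ψ.source) (h0 : N.Ψ y = 0) :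
    N.Ψ.symm 0 = y ∧ Tendsto N.Ψ.symm (𝓝 0) (𝓝 y) :=
  ⟨h0 ▸ N.Ψ.left_inv h, h0 ▸ N.Ψ.tendsto_symm h⟩

theorem nc_an {d q l d' q' : ℕ} (N : NC Z d q l) (N' : NC Z d' q' l) {y : E}
    (h : y ∈ N.Ψ.source) (h0 : N.Ψ y = 0) (h' : y ∈ N'.Ψ.source) :
    AnalyticAt ℂ (fun u => N'.Ψ (N.Ψ.symm u)) 0 := by
  obtain ⟨e1, e2⟩ := nc_symm N h h0
  have hc : ∀ x ∈ N.Ψ.source, C.co N.g N.a x ∈ C.B 4 N.a ∧ C.pt N.g N.a (C.co N.g N.a x) = x := by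
    intro x hx
    obtain ⟨z, hz, rfl⟩ := N.inch x hx
    have hz4 := C.B_mono (show (2 : ℝ) ≤ 4 by norm_num) _ hz
    rw [C.co_pt hz4]
    exact ⟨hz4, rfl⟩
  refine ((N'.hol N.g N.a _ (hc y h).1 (by rwa [(hc y h).2])).comp_of_eq
    (N.hol' 0 (mem_ball_self N.R_pos)) (by rw [e1])).congr ?_
  filter_upwards [e2.eventually (N.Ψ.open_source.mem_nhds h)] with u hu
  simp only [Function.comp_apply, (hc _ hu).2]

/-- two nice charts at the same point have plaques of the same dimension -/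
theorem nc_le {d q l d' q' : ℕ} (N : NC Z d q l) (N' : NC Z d' q' l) {y : E}
    (h : y ∈ N.Ψ.source) (h0 : N.Ψ y = 0) (h' : y ∈ N'.Ψ.source) (h0' : N'.Ψ y = 0) : d ≤ d' := by
  obtain ⟨e1, e2⟩ := nc_symm N h h0
  set θ : Cm d × Cm q → Cm d' × Cm q' := fun u => N'.Ψ (N.Ψ.symm u) with hθ
  have hθd := (nc_an N N' h h0 h').differentiableAt.hasFDerivAt
  have hθd' := (nc_an N' N h' h0' h).differentiableAt.hasFDerivAt
  have hθ0 : θ 0 = 0 := by simp only [hθ, e1, h0']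
  have hm : ∀ᶠ u in 𝓝 (0 : Cm d × Cm q), u ∈ N.Ψ.target ∧ N.Ψ.symm u ∈ N'.Ψ.source :=
    (N.Ψ.open_target.eventually_mem (h0 ▸ N.Ψ.map_source h)).and
      (e2.eventually (N'.Ψ.open_source.mem_nhds h'))
  have h1 := (HasFDerivAt.comp (f := θ) 0 (hθ0 ▸ hθd') hθd).unique
    ((hasFDerivAt_id 0).congr_of_eventuallyEq (hm.mono fun u hu => by
      simp only [Function.comp_apply, hθ, N'.Ψ.left_inv hu.2, N.Ψ.right_inv hu.1, id]))
  have t1 : Tendsto (fun a : Cm d => ((a, 0) : Cm d × Cm q)) (𝓝 0) (𝓝 0) :=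
    (continuous_id.prodMk continuous_const).tendsto 0
  have h2 := (HasFDerivAt.comp (f := fun a : Cm d => ((a, 0) : Cm d × Cm q)) 0 hθd
    (hasFDerivAt_prodMk_left 0 0)).snd.unique ((hasFDerivAt_const (0 : Cm q') 0).congr_of_eventuallyEq
      ((t1.eventually hm).mono fun a ha => by
        have e3 := ((N.rel _ (N.Ψ.map_target ha.1) y h).2 (by rw [N.Ψ.right_inv ha.1, h0]; rfl))
        have e4 := (N'.rel _ ha.2 y h').1 fun l _ => e3 l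
        rw [h0'] at e4
        exact e4))
  have h3 : Function.Injective ((LinearMap.fst ℂ _ _ ∘ₗ (fderiv ℂ θ 0).toLinearMap) ∘ₗ
      LinearMap.inl ℂ (Cm d) (Cm q)) := by
    rw [injective_iff_map_eq_zero]
    intro a ha
    have e1 : fderiv ℂ θ 0 (a, 0) = 0 := Prod.ext ha (DFunLike.congr_fun h2 a)
    have e2 := DFunLike.congr_fun h1 (a, 0)
    rw [ContinuousLinearMap.comp_apply, e1, map_zero] at e2
    exact (congrArg Prod.fst e2).symm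
  simpa using LinearMap.finrank_le_finrank_of_injective h3

/-- the plaques are not open -/
theorem nc_pos {d q l : ℕ} (N : NC Z d q l) : 1 ≤ q := by
  rcases Nat.eq_zero_or_pos q with rfl | h
  swap
  · exact h
  exfalso
  obtain ⟨K, hK⟩ := Z.bound 0
  have h24 : C.B 2 N.a ⊆ C.B 4 N.a := C.B_mono (by norm_num) _
  have h23 : C.B 2 N.a ⊆ C.B 3 N.a := C.B_mono (by norm_num) _
  set O := C.B 2 N.a ∩ {z | z ∈ C.B 4 N.a ∧ C.pt N.g N.a z ∈ N.Ψ.source}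
  have hO : IsOpen O := (C.isOpen_B 2 _).inter (C.isOpen_preimage_pt _ _ N.Ψ.open_source)
  have hne : O.Nonempty := by
    have h1 := N.Ψ.map_target (N.tgt ▸ mem_ball_self N.R_pos)
    obtain ⟨z, hz, h⟩ := N.inch _ h1
    exact ⟨z, hz, h24 hz, h ▸ h1⟩
  refine ((hO.prod hO).measure_pos volume (hne.prod hne)).ne'
    (measure_mono_null (fun p hp => ?_) (ae_iff.1 (L.W_ae 0 1 N.a N.a)))
  intro hp'
  have h1 := all_smul N.g⁻¹ ((N.rel _ hp.1.2.2 _ hp.2.2.2).2 (Subsingleton.elim _ _))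
  rw [C.smul_pt, C.smul_pt, inv_mul_cancel] at h1
  have h2 := hK 1 N.a N.a p ⟨hp.1.1, hp.2.1⟩ (h1 0) p ⟨h23 hp.1.1, h23 hp.2.1⟩
  rw [sub_self, norm_zero, Real.zero_rpow (Z.c'_pos 0).ne', mul_zero] at h2
  exact (hp' ⟨hp.1.2.1, hp.2.2.1⟩).not_ge h2

theorem stG_of (h1 : SN) (h2 : LOC) : StG := by
  intro n Γ E _ _ _ _ _ _ C D L Z hTR
  choose m G l₀ hG hG' using fin_family h1 Z
  set l₁ := Finset.univ.sup l₀
  have hl : ∀ a, ∀ x ∈ C.B 2 a, ∀ y ∈ C.B 2 a, (C.pt 1 a x, C.pt 1 a y) ∈ Z.upto l₁ →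
      (C.pt 1 a x, C.pt 1 a y) ∈ Z.all := fun a x hx y hy h =>
    (hG' a x hx y hy).2 ((hG' a x hx y hy).1 fun l hl =>
      h l (hl.trans (Finset.le_sup (Finset.mem_univ a))))
  choose d q h hdq hh hh0 hbox using fun a => h2 n (m a) (C.B 2 a) (G a)
    (fun x y => (C.pt 1 a x, C.pt 1 a y) ∈ Z.all) (C.isOpen_B 2 a) (C.preconn_B 2 a)
    ⟨_, C.c_mem two_pos a⟩ (hG a)
    (fun x hx y hy => ⟨fun h => (hG' a x hx y hy).1 fun l _ => h l, (hG' a x hx y hy).2⟩)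
    (fun x _ => hTR.1 _) fun x y h l => Z.symm l _ _ (h l)
  have hν := Z.c'_pos (l₁ + 2)
  choose k hk hk0 hks using Z.lelong (Z.c' (l₁ + 2) / 6) (by positivity)
  have h23 : ∀ a, C.B 2 a ⊆ C.B 3 a := fun a => C.B_mono (by norm_num) a
  have h24 : ∀ a, C.B 2 a ⊆ C.B 4 a := fun a => C.B_mono (by norm_num) a
  have hfa : ∀ a, AnalyticOnNhd ℂ (fun z => h a z * k a z) (C.B 2 a) := fun a =>
    (hh a).mul ((hk a).mono (h23 a))
  have hf0 : ∀ a, ∃ z ∈ C.B 2 a, h a z * k a z ≠ 0 := fun a => by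
    obtain ⟨x, hx, e⟩ := hh0 a
    obtain ⟨z, z1, z2, z3⟩ := ((dense_ne_zero (C.preconn_B 3 a) (hk a) (hk0 a)
      (h23 a hx)).and_eventually (((hh a x hx).continuousAt.eventually_ne e).and
        ((C.isOpen_B 2 a).eventually_mem hx))).exists
    exact ⟨z, z3, mul_ne_zero z2 z1⟩
  set O : ∀ a, Set (Cm n) := fun a => C.B 2 a ∩ (fun z => h a z * k a z) ⁻¹' {0}ᶜ
  have hO : ∀ a, IsOpen (O a) := fun a =>
    (hfa a).continuousOn.isOpen_inter_preimage (C.isOpen_B 2 a) isOpen_compl_singleton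
  set En : Set C.I → Set E := fun P => ⋃ γ : Γ, ⋃ a ∈ P, C.pt γ a '' O a
  have hmem : ∀ {P y}, y ∈ En P ↔ ∃ γ, ∃ a ∈ P, ∃ z ∈ O a, C.pt γ a z = y := by
    simp [En]
  have hEo : ∀ P, IsOpen (En P) := fun P => isOpen_iUnion fun γ => isOpen_biUnion fun a _ =>
    C.isOpen_image_pt γ (hO a) fun z hz => h24 a hz.1
  have hsm : ∀ a, ∀ z ∈ O a, C.Small L.F (Z.c' (l₁ + 2) / 6) (C.pt 1 a z) := fun a z hz =>
    hks a z (h23 a hz.1) (right_ne_zero_of_mul hz.2)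
  have hnc : ∀ γ a, ∀ z ∈ O a, ∀ U ∈ 𝓝 (C.pt γ a z), ∃ N : NC Z (d a) (q a) l₁,
      C.pt γ a z ∈ N.Ψ.source ∧ N.Ψ (C.pt γ a z) = 0 ∧ N.Ψ.source ⊆ En univ ∩ U := by
    intro γ a z hz U hU
    have hs := fun x hx => Cov.Small.mono C (hsm a x hx)
      (show Z.c' (l₁ + 2) / 6 ≤ Z.c' (l₁ + 2) / 4 by linarith)
    obtain ⟨N, n1, n2, n3⟩ := nc_of_box γ (V := O a ∩ C.pt γ a ⁻¹' U) (fun x hx => hx.1.1) (hl a)
      (hbox a z hz.1 (left_ne_zero_of_mul hz.2) _ (inter_mem ((hO a).mem_nhds hz)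
        ((C.continuousAt_pt (h24 a hz.1) γ).preimage_mem_nhds hU)) fun x hx y hy w hw e1 e2 =>
          hl a x hx.1.1 w hw.1.1 (hTR.2.2.2 l₁ _ _ _ (hs x hx.1) (hs y hy.1) (hs w hw.1) (e1 _)
            (e2 _)))
    refine ⟨N, n1, n2, fun y hy => ?_⟩
    obtain ⟨x, hx, rfl⟩ := n3 hy
    exact ⟨hmem.2 ⟨γ, a, trivial, x, hx.1, rfl⟩, hx.2⟩
  have hconn : IsPreconnected (En univ) :=
    (C.preconn_of_thin (k := 2) (by norm_num) (by norm_num) isOpen_univ isPreconnected_univ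
      (subset_univ _) fun γ a => ⟨_, hfa a, hf0 a, fun z hz hz' _ =>
        hmem.2 ⟨γ, a, trivial, z, ⟨hz, hz'⟩, rfl⟩⟩).1
  have hne : ∀ a, (O a).Nonempty := fun a => (hf0 a).imp fun z hz => hz
  obtain ⟨-, a₀, -⟩ := C.exists_pt (Classical.arbitrary E)
  have hd : ∀ a, d a = d a₀ := by
    intro a
    by_contra hcon
    obtain ⟨y, -, y1, y2⟩ := hconn _ _ (hEo {b | d b = d a₀}) (hEo {b | d b ≠ d a₀})
      (fun y hy => by
        obtain ⟨γ, b, -, hb⟩ := hmem.1 hy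
        by_cases h : d b = d a₀
        · exact .inl (hmem.2 ⟨γ, b, h, hb⟩)
        · exact .inr (hmem.2 ⟨γ, b, h, hb⟩))
      ⟨_, hmem.2 ⟨1, a₀, trivial, _, (hne a₀).some_mem, rfl⟩,
        hmem.2 ⟨1, a₀, rfl, _, (hne a₀).some_mem, rfl⟩⟩
      ⟨_, hmem.2 ⟨1, a, trivial, _, (hne a).some_mem, rfl⟩,
        hmem.2 ⟨1, a, hcon, _, (hne a).some_mem, rfl⟩⟩
    obtain ⟨γ, b, hb, z, hz, rfl⟩ := hmem.1 y1
    obtain ⟨γ', b', hb', z', hz', e⟩ := hmem.1 y2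
    obtain ⟨N, n1, n2, -⟩ := hnc γ b z hz _ univ_mem
    obtain ⟨N', m1, m2, -⟩ := hnc γ' b' z' hz' _ univ_mem
    rw [e] at m1 m2
    exact hb' ((le_antisymm (nc_le N' N m1 m2 n1 n2) (nc_le N N' n1 n2 m1 m2)).trans hb)
  have hq : ∀ a, q a = q a₀ := fun a => by
    have := hdq a
    have := hdq a₀
    have := hd a
    omega
  refine ⟨⟨d a₀, q a₀, l₁, hdq a₀, nc_pos (hnc 1 a₀ _ (hne a₀).some_mem _ univ_mem).choose,
    En univ, hEo _, fun g y hy => ?_, hconn, fun a => ⟨_, hfa a, hf0 a, fun z hz hz' =>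
      hmem.2 ⟨1, a, trivial, z, ⟨hz, hz'⟩, rfl⟩⟩, fun y hy => ?_, fun y hy U hU => ?_⟩⟩
  · obtain ⟨γ, a, -, z, hz, rfl⟩ := hmem.1 hy
    exact hmem.2 ⟨g * γ, a, trivial, z, hz, (C.smul_pt g γ a z).symm⟩
  · obtain ⟨γ, a, -, z, hz, rfl⟩ := hmem.1 hy
    rw [C.pt_eq]
    exact Cov.Small.smul C L.F_inv (hsm a z hz) γ
  · obtain ⟨γ, a, -, z, hz, rfl⟩ := hmem.1 hy
    rw [← hd a, ← hq a]
    exact hnc γ a z hz U hU

end Vale.Agent.P284Y.D.G
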