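import Vale.Agent.P284Z.S.Base
import Vale.Agent.P284Y.D.Defs

/-! P284Z, block S: charts of two sheets, numerical lemmas. -/

open scoped Topology
open Filter Set Metric MeasureTheory

namespace Vale.Agent.P284Y.D.S

open Vale.Agent.P284Z Vale.Agent.P284Z.S

open Vale.Agent.P272.K

/-! ### numerical lemmas -/

/-! ### charts -/

variable {n : ℕ} {Γ E : Type} [Group Γ] [TopologicalSpace E] [MulAction Γ E] {C : Cov n Γ E}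

theorem sb_num' {κ₁ K r₁ c : ℝ} (hκ : 0 < κ₁) (hK : 0 < K) (hr : 0 < r₁) (hc : 0 < c) :
    ∃ κ > (0 : ℝ), ∀ e f g w : ℝ, 0 ≤ f → f ≤ 1 → 0 ≤ g → g ≤ 1 → 0 ≤ w →
      e * (f * g) ≤ 2 * w → (∀ r, 0 < r → r ≤ r₁ → e ≤ r ^ c → ∃ v, κ₁ * r ^ (2 * c / 3) < v ∧
        v * (f * g) ≤ 2 * max (K * r ^ c * g) (max w (K * r ^ c * f))) →
      κ * min f g ^ 3 * (f * g) ≤ w := by
  obtain ⟨κ₂, h2, h2a, h2b⟩ : ∃ κ₂ > (0 : ℝ), 2 * K * κ₂ ≤ κ₁ ∧ κ₂ ≤ r₁ ^ (c / 3) := by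
    refine ⟨min (κ₁ / (2 * K)) (r₁ ^ (c / 3)), lt_min (by positivity) (by positivity), ?_,
      min_le_right _ _⟩
    have := min_le_left (κ₁ / (2 * K)) (r₁ ^ (c / 3))
    rw [le_div_iff₀ (by positivity)] at this
    linarith
  refine ⟨min (κ₁ * κ₂ ^ 2 / 2) (κ₂ ^ 3 / 2), by positivity,
    fun e f g w hf0 hf1 hg0 hg1 hw hlow h => ?_⟩
  have hm0 : 0 ≤ min f g := le_min hf0 hg0
  rcases hm0.eq_or_lt with hm | hm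
  · rw [← hm]; simpa using hw
  have hmf : min f g ≤ f := min_le_left _ _
  have hmg : min f g ≤ g := min_le_right _ _
  generalize min f g = m at *
  have hf : 0 < f := hm.trans_le hmf
  have hg : 0 < g := hm.trans_le hmg
  have hm1 : m ≤ 1 := hmf.trans hf1
  have ht : 0 < κ₂ * m := by positivity
  have hc3 : 0 < c / 3 := by positivity
  have e1 : ((κ₂ * m) ^ (c / 3)⁻¹) ^ (2 * c / 3) = (κ₂ * m) ^ 2 := by
    rw [← Real.rpow_mul ht.le, ← Real.rpow_natCast]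
    congr 1
    field_simp
    norm_num
  have e2 : ((κ₂ * m) ^ (c / 3)⁻¹) ^ c = (κ₂ * m) ^ 3 := by
    rw [← Real.rpow_mul ht.le, ← Real.rpow_natCast]
    congr 1
    field_simp
    norm_num
  have e3 : (κ₂ * m) ^ (c / 3)⁻¹ ≤ r₁ := by
    rw [Real.rpow_inv_le_iff_of_pos ht.le hr.le hc3]
    exact (mul_le_of_le_one_right h2.le hm1).trans h2b
  rcases le_total ((κ₂ * m) ^ 3) e with he | he
  · have k0 := mul_le_mul_of_nonneg_right he (mul_pos hf hg).le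
    have k1 : min (κ₁ * κ₂ ^ 2 / 2) (κ₂ ^ 3 / 2) * m ^ 3 * (f * g) ≤ κ₂ ^ 3 / 2 * m ^ 3 * (f * g) := by
      gcongr
      exact min_le_right _ _
    rw [mul_pow] at k0
    linarith
  refine le_trans (b := κ₁ * κ₂ ^ 2 / 2 * m ^ 3 * (f * g)) (by
    gcongr
    exact min_le_left _ _) ?_
  obtain ⟨v, hv1, hv2⟩ := h _ (by positivity) e3 (e2.symm ▸ he)
  rw [e1] at hv1
  rw [e2] at hv2
  have hv3 : κ₁ * (κ₂ * m) ^ 2 * (f * g) < v * (f * g) :=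
    mul_lt_mul_of_pos_right hv1 (by positivity)
  have k1 : ∀ p q : ℝ, m ≤ p → 0 < q →
      2 * (K * (κ₂ * m) ^ 3 * q) ≤ κ₁ * (κ₂ * m) ^ 2 * (p * q) := fun p q hp hq => by
    have : 2 * K * κ₂ * m ≤ κ₁ * p := mul_le_mul h2a hp hm.le hκ.le
    calc 2 * (K * (κ₂ * m) ^ 3 * q) = 2 * K * κ₂ * m * ((κ₂ * m) ^ 2 * q) := by ring
      _ ≤ κ₁ * p * ((κ₂ * m) ^ 2 * q) := mul_le_mul_of_nonneg_right this (by positivity)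
      _ = _ := by ring
  have k2 := k1 f g hmf hg
  have k3 := k1 g f hmg hf
  rw [mul_comm g f] at k3
  have k4 : κ₁ * (κ₂ * m) ^ 2 * (f * g) < 2 * w := by
    by_contra hcon
    have k5 : max (K * (κ₂ * m) ^ 3 * g) (max w (K * (κ₂ * m) ^ 3 * f)) ≤
        κ₁ * (κ₂ * m) ^ 2 * (f * g) / 2 :=
      max_le (by linarith) (max_le (by linarith) (by linarith))
    linarith
  have k6 : κ₁ * κ₂ ^ 2 / 2 * m ^ 3 * (f * g) = m * (κ₁ * (κ₂ * m) ^ 2 * (f * g)) / 2 := by ring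
  have k7 : m * (κ₁ * (κ₂ * m) ^ 2 * (f * g)) ≤ κ₁ * (κ₂ * m) ^ 2 * (f * g) :=
    mul_le_of_le_one_left (by positivity) hm1
  linarith

theorem pole_gen' {W : E → E → ℝ} {K c e : ℝ} (hinv : ∀ (γ : Γ) x y, W (γ • x) (γ • y) = W x y)
    (h : ∀ a, ∀ z ∈ C.B 3 a, ∀ z' ∈ C.B 3 a, W (C.pt 1 a z) (C.pt 1 a z') ≤ K * (‖z - z'‖ ^ c + e))
    (hc : 0 ≤ c) (he : 0 ≤ e) (γ : Γ) (a : C.I) {z z' : Cm n} (hz : z ∈ C.B 3 a)
    (hz' : z' ∈ C.B 3 a) {t : ℝ} (ht : ‖z - z'‖ ≤ t) :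
    W (C.pt γ a z) (C.pt γ a z') ≤ max K 1 * (t ^ c + e) := by
  rw [pt_one γ a z, pt_one γ a z', hinv]
  refine (h a z hz z' hz').trans ?_
  exact mul_le_mul (le_max_left _ _) (add_le_add_left (Real.rpow_le_rpow (norm_nonneg _) ht hc) e)
    (by positivity) (by positivity)

theorem diag_small (D : LD C) (l : ℕ) {θ : ℝ} (hθ : 0 < θ) :
    ∀ᶠ j in atTop, ∀ y, D.W l j y y < θ := by
  obtain ⟨K, hK⟩ := D.pole l
  have h0 := D.e_tend.const_mul (max K 1)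
  rw [mul_zero] at h0
  filter_upwards [hK, h0.eventually (gt_mem_nhds hθ)] with j h1 h2 y
  obtain ⟨γ, a, z, hz, rfl⟩ := cover (C := C) y
  have h3 : z ∈ C.B 3 a := B_mono (by norm_num) a hz
  have := pole_gen' (D.W_inv l j) h1 (D.c_pos l).le (D.e_nonneg j) γ a h3 h3 (t := 0) (by simp)
  rw [Real.zero_rpow (D.c_pos l).ne', zero_add] at this
  exact this.trans_lt h2

variable {D : LD C} {L : Lim D} (Z : ZD L)

theorem mem₂ (l : ℕ) (γ₁ γ₂ : Γ) {a b : C.I} {q : Cm n × Cm n} (h1 : q.1 ∈ C.B 4 a)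
    (h2 : q.2 ∈ C.B 4 b) (h : ∃ K : ℝ, ∀ᶠ q' in 𝓝 q,
      L.W l (C.pt γ₁ a q'.1) (C.pt γ₂ b q'.2) ≤ K * ‖q' - q‖ ^ (D.c (l + 1) / 2)) :
    (C.pt γ₁ a q.1, C.pt γ₂ b q.2) ∈ Z.Z l := by
  rw [pt_one γ₁, pt_two γ₁ γ₂]
  refine Z.inv l γ₁ _ _ (Z.mem l (γ₁⁻¹ * γ₂) a b q ⟨h1, h2⟩ (h.imp fun K hK => ?_))
  filter_upwards [hK] with q' hq'
  rwa [pt_one γ₁, pt_two γ₁ γ₂, L.W_inv] at hq'

theorem bound₂ (l : ℕ) : ∃ K > (0 : ℝ), ∀ (γ₁ γ₂ : Γ) (a b : C.I) (z₁ z₂ w₁ w₂ : Cm n) (t : ℝ),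
    z₁ ∈ C.B 2 a → z₂ ∈ C.B 2 b → (C.pt γ₁ a z₁, C.pt γ₂ b z₂) ∈ Z.Z l → w₁ ∈ C.B 3 a →
    w₂ ∈ C.B 3 b → ‖w₁ - z₁‖ ≤ t → ‖w₂ - z₂‖ ≤ t →
    L.W l (C.pt γ₁ a w₁) (C.pt γ₂ b w₂) ≤ K * t ^ Z.c' l := by
  obtain ⟨K, hK⟩ := Z.bound l
  refine ⟨max K 1, by positivity, fun γ₁ γ₂ a b z₁ z₂ w₁ w₂ t h1 h2 h3 h4 h5 h6 h7 => ?_⟩
  have h8 := Z.inv l γ₁⁻¹ _ _ h3
  rw [pt_one γ₁, pt_two γ₁ γ₂, inv_smul_smul, inv_smul_smul] at h8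
  have h9 := hK (γ₁⁻¹ * γ₂) a b (z₁, z₂) ⟨h1, h2⟩ h8 (w₁, w₂) ⟨h4, h5⟩
  rw [pt_one γ₁, pt_two γ₁ γ₂, L.W_inv]
  refine h9.trans (mul_le_mul (le_max_left _ _)
    (Real.rpow_le_rpow (norm_nonneg _) ?_ (Z.c'_pos l).le) (by positivity) (by positivity))
  rw [Prod.mk_sub_mk, Prod.norm_def]
  exact max_le h6 h7

theorem lim_mono (L : Lim D) {l l' : ℕ} (h : l ≤ l') (x y : E) : L.W l x y ≤ L.W l' x y :=
  monotone_nat_of_le_succ (f := fun l => L.W l x y) (fun l => L.mono l x y) h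

end Vale.Agent.P284Y.D.S
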