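import Vale.Agent.P284Y.D.HBas
import Vale.Agent.P284Y.D.SBase

/-!
# P284Y (copy for the data with a floor), block H: good points of a nice chart, and the almost invariant measures
-/

open scoped Topology
open Filter Set Metric MeasureTheory

noncomputable section

namespace Vale.Agent.P284Y.D.H

open Vale.Agent.P284Z Vale.Agent.P284Z.H

open Vale.Agent.P272.K

namespace AeR

/-- the image of a null set by a differentiable map between spaces of the same dimension -/
theorem null_image {n d q : ℕ} (h : d + q = n) {f : Cm n → Cm d × Cm q} {S : Set (Cm n)}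
    (hf : DifferentiableOn ℝ f S) (hS : volume S = 0) : volume (f '' S) = 0 := by
  have : Measure.IsAddHaarMeasure (volume : Measure (Cm d × Cm q)) :=
    Measure.prod.instIsAddHaarMeasure _ _
  have hr : Module.finrank ℝ (Cm d × Cm q) = Module.finrank ℝ (Cm n) := by
    simp only [Module.finrank_prod, Module.finrank_pi_fintype, Complex.finrank_real_complex,
      Finset.sum_const, Finset.card_univ, Fintype.card_fin, smul_eq_mul, ← h]
    ring
  let e : (Cm d × Cm q) ≃L[ℝ] Cm n := ContinuousLinearEquiv.ofFinrankEq hr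
  have h1 : volume ((fun z => e (f z)) '' S) = 0 :=
    addHaar_image_eq_zero_of_differentiableOn_of_addHaar_eq_zero volume
      (e.differentiable.comp_differentiableOn hf) hS
  have h2 : (volume : Measure (Cm d × Cm q)).map e ≪ volume :=
    Measure.absolutelyContinuous_isAddHaarMeasure _ _
  refine measure_mono_null (t := e ⁻¹' ((fun z => e (f z)) '' S)) ?_
    (Measure.preimage_null_of_map_null e.continuous.measurable.aemeasurable (h2 h1))
  rintro _ ⟨z, hz, rfl⟩
  exact ⟨z, hz, rfl⟩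

end AeR

theorem ae_ : StAe := by
  intro n Γ E _ _ _ _ _ _ C D L Z d q l h N
  have h1 := L.F_ae N.a
  rw [ae_iff] at h1 ⊢
  refine measure_mono_null ?_ (AeR.null_image h (f := fun z => N.Ψ (C.pt N.g N.a z))
    (S := {z | z ∈ C.B 4 N.a ∧ C.pt N.g N.a z ∈ N.Ψ.source} ∩ _)
    (fun z hz => ((N.hol N.g N.a z hz.1.1 hz.1.2).differentiableAt.restrictScalars
      ℝ).differentiableWithinAt) (measure_mono_null inter_subset_right h1))
  intro v hv
  rw [mem_ofPred_eq, Classical.not_imp] at hv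
  have h2 : v ∈ N.Ψ.target := N.tgt ▸ hv.1
  obtain ⟨h3, h4⟩ := inch (N.Ψ.map_target h2)
  have h5 := B_le (show (2 : ℝ) ≤ 4 by norm_num) _ h3
  refine ⟨C.co N.g N.a (N.Ψ.symm v), ⟨⟨h5, by rw [h4]; exact N.Ψ.map_target h2⟩, fun h6 => hv.2 ?_⟩,
    by simp only [h4, N.Ψ.right_inv h2]⟩
  have h7 := h6 h5
  rw [← h4, S.pt_one N.g]
  simpa only [L.F_inv, D.F_inv] using h7

theorem rei : StRei := by
  intro n Γ E _ _ _ _ _ _ C D L Z d q l N a t hat hx hj
  classical
  have h0 : (a, t) ∈ N.Ψ.target := N.tgt ▸ hat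
  have ha := ((tgt_iff N).1 h0).1
  set x := N.Ψ.symm (a, t) with hxd
  refine ⟨fun j => if 0 < D.F j x then D.m j x else Pi.single 1 1, fun j g => ?_, fun j => ?_,
    fun η hη => ?_⟩
  · beta_reduce
    split_ifs
    · exact D.m_nonneg j x g
    · rw [Pi.single_apply]
      split_ifs <;> norm_num
  · beta_reduce
    split_ifs with h
    · exact D.m_sum j x h
    · exact hasSum_pi_single 1 1
  obtain ⟨k, hk⟩ := (D.η_tend.eventually_le_const hη).exists
  obtain ⟨K, -, hK⟩ := S.bound₂ Z k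
  obtain ⟨θ, hθ, hre⟩ := D.reiter k
  set z : Cm q → Cm n := fun t' => C.co N.g N.a (N.Ψ.symm (a, t')) with hz
  have h1 : ContinuousAt z t :=
    ContinuousAt.comp (g := fun u => C.co N.g N.a (N.Ψ.symm u)) (f := fun t' : Cm q => (a, t'))
      (N.hol' _ hat).continuousAt (by fun_prop)
  have h2 : ContinuousAt (fun t' => K * ‖z t - z t'‖ ^ Z.c' k) t :=
    continuousAt_const.mul ((continuousAt_const.sub h1).norm.rpow_const
      (Or.inr (Z.c'_pos k).le))
  have h3 : ∀ᶠ t' in 𝓝 t, K * ‖z t - z t'‖ ^ Z.c' k < θ * (L.F x ^ 2 / 2) :=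
    h2.eventually_lt_const (by
      simp only [sub_self, norm_zero, Real.zero_rpow (Z.c'_pos k).ne', mul_zero]
      positivity)
  obtain ⟨ε, hε, h4⟩ := Metric.mem_nhds_iff.1 h3
  refine ⟨ε, hε, fun g t' hp ht => ?_⟩
  obtain ⟨a1, a2⟩ := inch (N.Ψ.map_target h0)
  obtain ⟨b1, b2⟩ := inch (src ha hp.1)
  have a3 := B_le (show (2 : ℝ) ≤ 3 by norm_num) _ a1
  have h5 := hK N.g (g * N.g) N.a N.a (z t') (z t) (z t) (z t) ‖z t - z t'‖ b1 a1
    (by rw [← smul_pt, a2, b2]; exact hp.2.2 a a ha ha k) a3 a3 le_rfl (by simp)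
  rw [← smul_pt, a2] at h5
  have h6 := ((L.W_lim k (x, g • x) _).1
    (h5.trans_lt (h4 (mem_ball_iff_norm.2 ht)))).curry.mono fun _ h => h.self_of_nhds
  have h7 : ∀ᶠ j in atTop, θ * (L.F x ^ 2 / 2) < θ * D.F j x ^ 2 :=
    ((hj.pow 2).const_mul θ).eventually_const_lt
      (mul_lt_mul_of_pos_left (half_lt_self (pow_pos hx 2)) hθ)
  filter_upwards [h6, h7, hj.eventually_const_lt hx, hre]
    with j c1 c2 c3 c4
  have c5 := c4 x (g • x) c3 (by rwa [D.F_inv]) (by rw [D.F_inv, ← sq]; exact (c1.trans c2).le)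
  simp only [if_pos c3]
  refine le_trans (le_of_eq (tsum_congr fun i => ?_)) (c5.trans hk)
  rw [abs_sub_comm, ← D.m_eqv j g x (g⁻¹ * i), mul_inv_cancel_left]

end Vale.Agent.P284Y.D.H
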