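import Vale.Agent.P284Z.H.Defs
import Vale.Agent.P284Y.D.Defs

/-!
# P284Y (copy for the data with a floor), block H: the holonomy groupoid; statements of the steps

See notes/P284_H_helper69.md.
-/

open scoped Topology
open Filter Set Metric MeasureTheory

noncomputable section

namespace Vale.Agent.P284Y.D.H

open Vale.Agent.P284Z Vale.Agent.P284Z.H

open Vale.Agent.P272.K

namespace HG

variable {Γ : Type} [Group Γ] {q : ℕ} {ι : Type} (G : HG Γ q ι)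

end HG

variable {n : ℕ} {Γ E : Type} [Group Γ] [TopologicalSpace E] [MulAction Γ E] {C : Cov n Γ E}
  {D : LD C} {L : Lim D} {Z : ZD L}

/-- the plaque `t` of `N` is related to the translate by `γ` of the plaque `u` of `N'` -/
def PR {d q l : ℕ} (N N' : NC Z d q l) (γ : Γ) (t u : Cm q) : Prop :=
  ‖t‖ < N.R ∧ ‖u‖ < N'.R ∧ ∀ b a : Cm d, ‖b‖ < N.R → ‖a‖ < N'.R →
    (N.Ψ.symm (b, t), γ • N'.Ψ.symm (a, u)) ∈ Z.all

/-- the plaques are related by a germ of biholomorphic map -/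
def HR {d q l : ℕ} (N N' : NC Z d q l) (γ : Γ) (t u : Cm q) : Prop :=
  (∃ h : Cm q → Cm q, AnalyticAt ℂ h u ∧ h u = t ∧ ∀ᶠ u' in 𝓝 u, PR N N' γ (h u') u') ∧
  (∃ g : Cm q → Cm q, AnalyticAt ℂ g t ∧ g t = u ∧ ∀ᶠ t' in 𝓝 t, PR N N' γ t' (g t'))

/-- the nice charts -/
def Ch (Φ : FD Z) : Type := {N : NC Z Φ.d Φ.q Φ.l₁ // N.Ψ.source ⊆ Φ.En}

/-- EQ: equicontinuity of the relation between plaques -/
def StEq : Prop :=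
  ∀ (n : ℕ) (Γ E : Type) [Group Γ] [Countable Γ] [TopologicalSpace E] [T2Space E]
    [ConnectedSpace E] [MulAction Γ E] (C : Cov n Γ E) (D : LD C) (L : Lim D) (Z : ZD L),
    Z.SB → ∀ (Φ : FD Z) (N N' : Ch Φ), ∀ r < N.1.R, ∀ r' < N'.1.R, ∀ ε > (0 : ℝ),
    ∃ δ > (0 : ℝ), ∀ (γ : Γ) (t₁ t₂ u₁ u₂ : Cm Φ.q), ‖t₁‖ ≤ r → ‖t₂‖ ≤ r → ‖u₁‖ ≤ r' →
      ‖u₂‖ ≤ r' → ‖u₁ - u₂‖ < δ → PR N.1 N'.1 γ t₁ u₁ → PR N.1 N'.1 γ t₂ u₂ → ‖t₁ - t₂‖ < ε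

/-- AE: almost every point of a nice chart is good -/
def StAe : Prop :=
  ∀ (n : ℕ) (Γ E : Type) [Group Γ] [Countable Γ] [TopologicalSpace E] [T2Space E]
    [ConnectedSpace E] [MulAction Γ E] (C : Cov n Γ E) (D : LD C) (L : Lim D) (Z : ZD L)
    (d q l : ℕ), d + q = n → ∀ N : NC Z d q l, ∀ᵐ v : Cm d × Cm q, v ∈ ball 0 N.R →
      0 < L.F (N.Ψ.symm v) ∧ Tendsto (fun j => D.F j (N.Ψ.symm v)) atTop (𝓝 (L.F (N.Ψ.symm v)))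

/-- the groupoid of the foliation -/
structure FG (Φ : FD Z) where
  G : HG Γ Φ.q (Ch Φ)
  R_eq : ∀ N, G.R N = N.1.R
  pr : ∀ N N' γ, ∀ u ∈ G.D N N' γ, PR N.1 N'.1 γ (G.h N N' γ u) u
  ov : ∀ (N N' : Ch Φ) (γ : Γ), ∀ y ∈ N'.1.Ψ.source, γ • y ∈ N.1.Ψ.source →
    (N'.1.Ψ y).2 ∈ G.D N N' γ ∧ G.h N N' γ (N'.1.Ψ y).2 = (N.1.Ψ (γ • y)).2

/-- GRP: the groupoid exists -/
def StGrp : Prop :=
  ∀ (n : ℕ) (Γ E : Type) [Group Γ] [Countable Γ] [TopologicalSpace E] [T2Space E]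
    [ConnectedSpace E] [MulAction Γ E] (C : Cov n Γ E) (D : LD C) (L : Lim D) (Z : ZD L),
    Z.SB → Z.TR → ∀ Φ : FD Z, Nonempty (FG Φ)

/-- REI: the almost invariant measures -/
def StRei : Prop :=
  ∀ (n : ℕ) (Γ E : Type) [Group Γ] [Countable Γ] [TopologicalSpace E] [T2Space E]
    [ConnectedSpace E] [MulAction Γ E] (C : Cov n Γ E) (D : LD C) (L : Lim D) (Z : ZD L)
    (d q l : ℕ) (N : NC Z d q l) (a : Cm d) (t : Cm q), (a, t) ∈ ball (0 : Cm d × Cm q) N.R →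
    0 < L.F (N.Ψ.symm (a, t)) →
    Tendsto (fun j => D.F j (N.Ψ.symm (a, t))) atTop (𝓝 (L.F (N.Ψ.symm (a, t)))) →
    ∃ m : ℕ → Γ → ℝ, (∀ j g, 0 ≤ m j g) ∧ (∀ j, HasSum (m j) 1) ∧
      ∀ η > (0 : ℝ), ∃ ε > (0 : ℝ), ∀ (g : Γ) (t' : Cm q), PR N N g t' t → ‖t' - t‖ < ε →
        ∀ᶠ j in atTop, ∑' k, |m j (g⁻¹ * k) - m j k| ≤ η

end Vale.Agent.P284Y.D.H
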