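import Vale.Agent.P284Z.H.Bas
import Vale.Agent.P284Y.D.HDefs

/-!
# P284Y (copy for the data with a floor), block H: nice charts and the relation between plaques
-/

open scoped Topology
open Filter Set Metric MeasureTheory

noncomputable section

namespace Vale.Agent.P284Y.D.H

open Vale.Agent.P284Z Vale.Agent.P284Z.H

open Vale.Agent.P272.K

variable {n : ℕ} {Γ E : Type} [Group Γ] [TopologicalSpace E] [MulAction Γ E] {C : Cov n Γ E}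
  {D : LD C} {L : Lim D} {Z : ZD L} {d q l : ℕ}

theorem all_symm {x y : E} (h : (x, y) ∈ Z.all) : (y, x) ∈ Z.all := fun l => Z.symm l x y (h l)

theorem all_smul {x y : E} (h : (x, y) ∈ Z.all) (γ : Γ) : (γ • x, γ • y) ∈ Z.all :=
  fun l => Z.inv l γ x y (h l)

theorem all_closed : IsClosed Z.all := by
  rw [ZD.all, ofPred_forall]
  exact isClosed_iInter Z.closed

section NC

variable (N N' : NC Z d q l)

theorem tgt_iff {v : Cm d × Cm q} : v ∈ N.Ψ.target ↔ ‖v.1‖ < N.R ∧ ‖v.2‖ < N.R := by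
  rw [N.tgt, mem_ball_zero_iff, Prod.norm_def, max_lt_iff]

variable {N N'}

theorem src {b : Cm d} {t : Cm q} (hb : ‖b‖ < N.R) (ht : ‖t‖ < N.R) :
    N.Ψ.symm (b, t) ∈ N.Ψ.source := N.Ψ.map_target ((tgt_iff N).2 ⟨hb, ht⟩)

theorem snd_symm {b : Cm d} {t : Cm q} (hb : ‖b‖ < N.R) (ht : ‖t‖ < N.R) :
    (N.Ψ (N.Ψ.symm (b, t))).2 = t := congrArg Prod.snd (N.Ψ.right_inv ((tgt_iff N).2 ⟨hb, ht⟩))

theorem lt_R {y : E} (hy : y ∈ N.Ψ.source) : ‖(N.Ψ y).1‖ < N.R ∧ ‖(N.Ψ y).2‖ < N.R :=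
  (tgt_iff N).1 (N.Ψ.map_source hy)

theorem zero_lt (N : NC Z d q l) : ‖(0 : Cm d)‖ < N.R := norm_zero.trans_lt N.R_pos

theorem inch {y : E} (hy : y ∈ N.Ψ.source) :
    C.co N.g N.a y ∈ C.B 2 N.a ∧ C.pt N.g N.a (C.co N.g N.a y) = y := by
  obtain ⟨z, hz, rfl⟩ := N.inch y hy
  rw [co_pt _ (B_le (by norm_num) _ hz)]
  exact ⟨hz, rfl⟩

/-- a point of a plaque is related to the plaque -/
theorem plq {y : E} (hy : y ∈ N.Ψ.source) {b : Cm d} (hb : ‖b‖ < N.R) :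
    (N.Ψ.symm (b, (N.Ψ y).2), y) ∈ Z.all :=
  (N.rel _ (src hb (lt_R hy).2) y hy).2 (snd_symm hb (lt_R hy).2)

theorem cont_symm (γ : Γ) {v : Cm d × Cm q} (hv : v ∈ N.Ψ.target) :
    ContinuousAt (fun v => γ • N.Ψ.symm v) v :=
  (C.cont γ).continuousAt.comp (N.Ψ.continuousAt_symm hv)

/-- a holomorphic map in a nice chart -/
theorem an_of_hol {W : Type} [NormedAddCommGroup W] [NormedSpace ℂ W] {F : E → W} {Ω : Set E}
    (hF : C.HolOn F Ω) (γ : Γ) {v : Cm d × Cm q} (hv : v ∈ N.Ψ.target) (h : γ • N.Ψ.symm v ∈ Ω) :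
    AnalyticAt ℂ (fun v => F (γ • N.Ψ.symm v)) v := by
  obtain ⟨h1, h2⟩ := inch (N.Ψ.map_target hv)
  have h3 := (hF (γ * N.g) N.a _ (B_le (by norm_num) _ h1) (by rwa [← smul_pt, h2])).comp
    (f := fun u => C.co N.g N.a (N.Ψ.symm u)) (N.hol' v (N.tgt ▸ hv))
  refine h3.congr ?_
  filter_upwards [N.Ψ.open_target.mem_nhds hv] with w hw
  simp only [Function.comp]
  rw [← smul_pt, (inch (N.Ψ.map_target hw)).2]

variable {γ : Γ} {t u : Cm q}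

theorem PR.symm (h : PR N N' γ t u) : PR N' N γ⁻¹ u t :=
  ⟨h.2.1, h.1, fun a b ha hb => by
    have := all_smul (h.2.2 b a hb ha) γ⁻¹
    rw [inv_smul_smul] at this
    exact all_symm this⟩

theorem PR.refl (ht : ‖t‖ < N.R) : PR N N 1 t t :=
  ⟨ht, ht, fun b a hb ha => by
    rw [one_smul]
    exact (N.rel _ (src hb ht) _ (src ha ht)).2 ((snd_symm hb ht).trans (snd_symm ha ht).symm)⟩

theorem PR.of_freq {X : Type} {𝓕 : Filter X} {f g : X → Cm q} (ht : ‖t‖ < N.R) (hu : ‖u‖ < N'.R)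
    (hf : Tendsto f 𝓕 (𝓝 t)) (hg : Tendsto g 𝓕 (𝓝 u)) (h : ∃ᶠ x in 𝓕, PR N N' γ (f x) (g x)) :
    PR N N' γ t u :=
  ⟨ht, hu, fun b a hb ha => all_closed.mem_of_frequently_of_tendsto
    (h.mono fun _ hx => hx.2.2 b a hb ha)
    (((N.Ψ.continuousAt_symm ((tgt_iff N).2 ⟨hb, ht⟩)).tendsto.comp
      (tendsto_const_nhds.prodMk_nhds hf)).prodMk_nhds
    ((cont_symm γ ((tgt_iff N').2 ⟨ha, hu⟩)).tendsto.comp (tendsto_const_nhds.prodMk_nhds hg)))⟩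

/-- the relation is analytic -/
theorem PR.an (N N' : NC Z d q l) (γ : Γ) : ∃ S : Set (Cm q × Cm q → ℂ),
    (∀ f ∈ S, AnalyticOnNhd ℂ f (ball 0 N'.R ×ˢ ball 0 N.R)) ∧
    ∀ x : Cm q × Cm q, PR N N' γ x.2 x.1 ↔ x ∈ ball 0 N'.R ×ˢ ball 0 N.R ∧ ∀ f ∈ S, f x = 0 := by
  choose S h1 h2 using fun k => Z.an k (N.g⁻¹ * (γ * N'.g)) N.a N'.a
  let φ : Cm d → Cm d → Cm q × Cm q → Cm n × Cm n := fun b a x =>
    (C.co N.g N.a (N.Ψ.symm (b, x.2)), C.co N'.g N'.a (N'.Ψ.symm (a, x.1)))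
  have h3 : ∀ b a, ‖b‖ < N.R → ‖a‖ < N'.R → ∀ x ∈ ball (0 : Cm q) N'.R ×ˢ ball (0 : Cm q) N.R,
      φ b a x ∈ C.B 3 N.a ×ˢ C.B 3 N'.a ∧ AnalyticAt ℂ (φ b a) x ∧ ∀ k,
        ((N.Ψ.symm (b, x.2), γ • N'.Ψ.symm (a, x.1)) ∈ Z.Z k ↔ ∀ f ∈ S k, f (φ b a x) = 0) := by
    intro b a hb ha x hx
    have e1 := inch (src hb (mem_ball_zero_iff.1 hx.2))
    have e2 := inch (src ha (mem_ball_zero_iff.1 hx.1))
    have e3 : φ b a x ∈ C.B 3 N.a ×ˢ C.B 3 N'.a :=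
      ⟨B_le (by norm_num) _ e1.1, B_le (by norm_num) _ e2.1⟩
    refine ⟨e3, AnalyticAt.prod
      ((N.hol' (b, x.2) (N.tgt ▸ (tgt_iff N).2 ⟨hb, mem_ball_zero_iff.1 hx.2⟩)).comp
        (f := fun x : Cm q × Cm q => (b, x.2)) (analyticAt_const.prod analyticAt_snd))
      ((N'.hol' (a, x.1) (N'.tgt ▸ (tgt_iff N').2 ⟨ha, mem_ball_zero_iff.1 hx.1⟩)).comp
        (f := fun x : Cm q × Cm q => (a, x.1)) (analyticAt_const.prod analyticAt_fst)),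
      fun k => Iff.trans ?_ (h2 k _ e3)⟩
    have e4 : C.pt 1 N.a (φ b a x).1 = N.g⁻¹ • N.Ψ.symm (b, x.2) := by
      rw [← e1.2, smul_pt, inv_mul_cancel]
    have e5 : C.pt (N.g⁻¹ * (γ * N'.g)) N'.a (φ b a x).2 = N.g⁻¹ • γ • N'.Ψ.symm (a, x.1) := by
      rw [← e2.2, smul_pt, smul_pt]
    rw [e4, e5]
    refine ⟨Z.inv k _ _ _, fun h => ?_⟩
    simpa only [smul_inv_smul] using Z.inv k N.g _ _ h
  refine ⟨{f | ∃ k b a, ‖b‖ < N.R ∧ ‖a‖ < N'.R ∧ ∃ f₀ ∈ S k, f = f₀ ∘ φ b a}, ?_, fun x => ⟨?_, ?_⟩⟩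
  · rintro _ ⟨k, b, a, hb, ha, f, hf, rfl⟩ x hx
    exact (h1 k f hf _ (h3 b a hb ha x hx).1).comp (h3 b a hb ha x hx).2.1
  · intro h
    have hx : x ∈ ball (0 : Cm q) N'.R ×ˢ ball (0 : Cm q) N.R :=
      ⟨mem_ball_zero_iff.2 h.2.1, mem_ball_zero_iff.2 h.1⟩
    refine ⟨hx, ?_⟩
    rintro _ ⟨k, b, a, hb, ha, f, hf, rfl⟩
    exact ((h3 b a hb ha x hx).2.2 k).1 (h.2.2 b a hb ha k) f hf
  · rintro ⟨hx, h⟩
    exact ⟨mem_ball_zero_iff.1 hx.2, mem_ball_zero_iff.1 hx.1, fun b a hb ha k =>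
      ((h3 b a hb ha x hx).2.2 k).2 fun f hf => h _ ⟨k, b, a, hb, ha, f, hf, rfl⟩⟩

/-- good plaques -/
def Gd (N : NC Z d q l) (t : Cm q) : Prop :=
  ‖t‖ < N.R → Dense {b : Cm d | ‖b‖ < N.R → 0 < L.F (N.Ψ.symm (b, t))}

theorem gd_ae (h : ∀ᵐ v : Cm d × Cm q, v ∈ ball 0 N.R → 0 < L.F (N.Ψ.symm v)) :
    ∀ᵐ t, Gd N t := by
  have h1 := Measure.ae_ae_of_ae_prod
    ((Measure.measurePreserving_swap (μ := (volume : Measure (Cm q)))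
      (ν := (volume : Measure (Cm d)))).quasiMeasurePreserving.ae h)
  filter_upwards [h1] with t ht ht'
  exact Measure.dense_of_ae (ht.mono fun b hb hb' => hb (N.tgt ▸ (tgt_iff N).2 ⟨hb', ht'⟩))

/-- saturation -/
theorem PR.sat (ht : ‖t‖ < N.R) (hu : ‖u‖ < N'.R) (gt : Gd N t) (gu : Gd N' u)
    (h : ∀ b a, ‖b‖ < N.R → ‖a‖ < N'.R → 0 < L.F (N.Ψ.symm (b, t)) →
      0 < L.F (γ • N'.Ψ.symm (a, u)) → (N.Ψ.symm (b, t), γ • N'.Ψ.symm (a, u)) ∈ Z.all) :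
    PR N N' γ t u := by
  refine ⟨ht, hu, fun b a hb ha => all_closed.mem_of_frequently_of_tendsto
    (f := fun x : Cm d × Cm d => (N.Ψ.symm (x.1, t), γ • N'.Ψ.symm (x.2, u))) (b := 𝓝 (b, a)) ?_
    (((N.Ψ.continuousAt_symm ((tgt_iff N).2 ⟨hb, ht⟩)).comp (f := fun x : Cm d × Cm d => (x.1, t))
      (by fun_prop)).prodMk ((cont_symm γ ((tgt_iff N').2 ⟨ha, hu⟩)).comp
        (f := fun x : Cm d × Cm d => (x.2, u)) (by fun_prop)))⟩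
  have h1 : ∀ᶠ x : Cm d × Cm d in 𝓝 (b, a), ‖x.1‖ < N.R ∧ ‖x.2‖ < N'.R :=
    (continuousAt_fst.norm.eventually_lt continuousAt_const hb).and
      (continuousAt_snd.norm.eventually_lt continuousAt_const ha)
  refine ((mem_closure_iff_frequently.1 (((gt ht).prod (gu hu)) (b, a))).and_eventually h1).mono
    fun x hx => h _ _ hx.2.1 hx.2.2 (hx.1.1 hx.2.1) ?_
  rw [L.F_inv]
  exact hx.1.2 hx.2.2

theorem PR.trans (hT : Z.TR) {N'' : NC Z d q l} {γ' : Γ} {w : Cm q} (h : PR N N' γ t u)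
    (h' : PR N' N'' γ' u w) (gt : Gd N t) (gu : Gd N' u) (gw : Gd N'' w) :
    PR N N'' (γ * γ') t w := by
  obtain ⟨a, ha, ha'⟩ := (gu h.2.1).inter_open_nonempty (ball 0 N'.R) isOpen_ball
    (nonempty_ball.2 N'.R_pos)
  have ha := mem_ball_zero_iff.1 ha
  refine PR.sat h.1 h'.2.1 gt gw fun b c hb hc h1 h2 => hT.2.2.1 _ _ _ h1 ?_ h2 (h.2.2 b a hb ha) ?_
  · rw [L.F_inv]
    exact ha' ha
  · rw [mul_smul]
    exact all_smul (h'.2.2 a c ha hc) γ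

/-- overlapping charts -/
theorem PR.ov (hT : Z.TR) (hN : ∀ᵐ v : Cm d × Cm q, v ∈ ball 0 N.R → 0 < L.F (N.Ψ.symm v))
    (hN' : ∀ᵐ v : Cm d × Cm q, v ∈ ball 0 N'.R → 0 < L.F (N'.Ψ.symm v)) {y : E}
    (hy : y ∈ N'.Ψ.source) (hy' : γ • y ∈ N.Ψ.source) :
    PR N N' γ (N.Ψ (γ • y)).2 (N'.Ψ y).2 := by
  have : Measure.IsAddHaarMeasure (volume : Measure (Cm d × Cm q)) :=
    Measure.prod.instIsAddHaarMeasure _ _
  have := nhds_ae (volume : Measure (Cm d × Cm q)) (N'.Ψ y)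
  have e0 : N'.Ψ.symm (N'.Ψ y) = y := N'.Ψ.left_inv hy
  have e1 : ∀ᶠ v in 𝓝 (N'.Ψ y), v ∈ N'.Ψ.target ∧ γ • N'.Ψ.symm v ∈ N.Ψ.source :=
    (N'.Ψ.open_target.eventually_mem (N'.Ψ.map_source hy)).and
      ((cont_symm γ (N'.Ψ.map_source hy)).eventually_mem
        (N.Ψ.open_source.mem_nhds (by simpa only [e0] using hy')))
  have e2 := (an_of_hol N.hol γ (N'.Ψ.map_source hy) (by rwa [e0])).continuousAt
  have e3 := ae_pull volume (g := fun v => N'.Ψ (γ⁻¹ • N.Ψ.symm v)) e2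
    ((an_of_hol N'.hol γ⁻¹ (N.Ψ.map_source (by rwa [e0])) (by
      rwa [N.Ψ.left_inv (by rwa [e0]), inv_smul_smul, e0])).eventually_analyticAt.mono fun _ h =>
        h.differentiableAt.restrictScalars ℝ)
    (e1.mono fun v hv => by rw [N.Ψ.left_inv hv.2, inv_smul_smul, N'.Ψ.right_inv hv.1])
  refine PR.of_freq (𝓕 := 𝓝 (N'.Ψ y) ⊓ ae volume) (f := fun v => (N.Ψ (γ • N'.Ψ.symm v)).2)
    (g := Prod.snd) (lt_R hy').2 (lt_R hy).2 ?_ (continuousAt_snd.tendsto.mono_left inf_le_left)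
    (Eventually.frequently ?_)
  · have := e2.snd.tendsto.mono_left (inf_le_left (b := ae volume))
    rwa [e0] at this
  · filter_upwards [mem_inf_of_left e1, mem_inf_of_right hN',
      mem_inf_of_right (Measure.quasiMeasurePreserving_snd.ae (gd_ae hN')),
      e3.eventually (Measure.quasiMeasurePreserving_snd.ae (gd_ae hN))] with v h1 h2 h3 h4
    have h5 : 0 < L.F (γ • N'.Ψ.symm v) := by
      rw [L.F_inv]
      exact h2 (N'.tgt ▸ h1.1)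
    refine PR.sat (lt_R h1.2).2 ((tgt_iff N').1 h1.1).2 h4 h3 fun b a hb ha h6 h7 =>
      hT.2.2.1 _ _ _ h6 h5 h7 (plq h1.2 hb) (all_smul (all_symm ?_) γ)
    have := plq (N'.Ψ.map_target h1.1) ha
    rwa [N'.Ψ.right_inv h1.1] at this

end NC

/-- the relation is single valued -/
theorem PR.uniq (hT : Z.TR) {Φ : FD Z} {N N' : Ch Φ} {γ : Γ} {t t' u : Cm Φ.q}
    (h : PR N.1 N'.1 γ t u) (h' : PR N.1 N'.1 γ t' u) : t = t' := by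
  have hs : ∀ y ∈ Φ.En, C.Small L.F (Z.c' (Φ.l₁ + 2) / 4) y := fun y hy γ a z hz e =>
    small_mono (Φ.small y hy γ a z hz e) (by linarith [Z.c'_pos (Φ.l₁ + 2)])
  have h1 := src (zero_lt N.1) h.1
  have h2 := src (zero_lt N.1) h'.1
  have h3 := (N.1.rel _ h1 _ h2).1 (hT.2.2.2 Φ.l₁ _ _ _ (hs _ (N.2 h1))
    (hs _ (Φ.inv γ _ (N'.2 (src (zero_lt N'.1) h.2.1)))) (hs _ (N.2 h2))
    (h.2.2 0 0 (zero_lt _) (zero_lt _) _) (all_symm (h'.2.2 0 0 (zero_lt _) (zero_lt _)) _))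
  rwa [snd_symm (zero_lt _) h.1, snd_symm (zero_lt _) h'.1] at h3

end Vale.Agent.P284Y.D.H
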