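import Vale.Agent.P284Y.D.STR
import Vale.Agent.P284Z.S.Three

/-! P284Z, block S: the shell bound, and the final statement. -/

open scoped Topology
open Filter Set Metric MeasureTheory

namespace Vale.Agent.P284Y.D

open Vale.Agent.P284Z

namespace S

open Vale.Agent.P284Z.S

open Vale.Agent.P272.K

variable {n : ℕ} {Γ E : Type} [Group Γ] [TopologicalSpace E] [MulAction Γ E] {C : Cov n Γ E}

/-- what is used about two consecutive levels, at a finite stage or in the limit -/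
structure Lev (C : Cov n Γ E) (A K c e : ℝ) (F : E → ℝ) (W₀ W₁ : E → E → ℝ) : Prop where
  F0 : ∀ y, 0 ≤ F y
  F1 : ∀ y, F y ≤ 1
  W00 : ∀ x y, 0 ≤ W₀ x y
  W02 : ∀ x y, W₀ x y ≤ 2
  W10 : ∀ x y, 0 ≤ W₁ x y
  chain : ∀ x₁ x₂ x₃ x₄, W₀ x₁ x₄ * (F x₂ * F x₃) ≤ 2 * max (W₁ x₁ x₂ * (F x₃ * F x₄))
    (max (W₁ x₂ x₃ * (F x₁ * F x₄)) (W₁ x₃ x₄ * (F x₁ * F x₂)))
  pole : ∀ (γ : Γ) a, ∀ z ∈ C.B 3 a, ∀ z' ∈ C.B 3 a, ∀ t, ‖z - z'‖ ≤ t → e ≤ t ^ c →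
    W₁ (C.pt γ a z) (C.pt γ a z') ≤ K * t ^ c
  low : ∀ x y, e * (F x * F y) ≤ 2 * W₁ x y
  psh : ∀ (γ₁ γ₂ : Γ) a b, LPsh (fun q : Cm n × Cm n => W₀ (C.pt γ₁ a q.1) (C.pt γ₂ b q.2) *
    Real.exp (A * C.ρ a q.1 + A * C.ρ b q.2)) (C.B 4 a ×ˢ C.B 4 b)

theorem rho_bd (a : C.I) : ∃ M : ℝ, ∀ z ∈ C.B 3 a, |C.ρ a z| ≤ M := by
  have hr := C.r_pos a
  obtain ⟨M, hM⟩ := (isCompact_closedBall (C.c a) (3 * C.r a)).exists_bound_of_continuousOn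
    (f := C.ρ a) fun z hz => (C.ρ_sm a z
      (closedBall_subset_ball (by linarith) hz)).continuousAt.continuousWithinAt
  exact ⟨M, fun z hz => hM z (ball_subset_closedBall hz)⟩

theorem exp_bd (A : ℝ) (a b : C.I) : ∃ β > (0 : ℝ), ∀ z ∈ C.B 3 a, ∀ z' ∈ C.B 3 b,
    Real.exp (A * C.ρ a z + A * C.ρ b z') ≤ β ∧ 1 ≤ β * Real.exp (A * C.ρ a z + A * C.ρ b z') := by
  obtain ⟨M, hM⟩ := rho_bd a
  obtain ⟨M', hM'⟩ := rho_bd b
  refine ⟨Real.exp (|A| * M + |A| * M'), Real.exp_pos _, fun z hz z' hz' => ?_⟩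
  have h1 : |A * C.ρ a z| ≤ |A| * M := by
    rw [abs_mul]; exact mul_le_mul_of_nonneg_left (hM z hz) (abs_nonneg A)
  have h2 : |A * C.ρ b z'| ≤ |A| * M' := by
    rw [abs_mul]; exact mul_le_mul_of_nonneg_left (hM' z' hz') (abs_nonneg A)
  rw [abs_le] at h1 h2
  refine ⟨Real.exp_le_exp.2 (by linarith), ?_⟩
  rw [← Real.exp_add]
  exact Real.one_le_exp (by linarith)

theorem sb_local (A : ℝ) {K c : ℝ} (hK : 0 < K) (hc : 0 < c) (γ₁ γ₂ : Γ) {a b : C.I}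
    {q₀ : Cm n × Cm n} (h1 : q₀.1 ∈ C.B 1 a) (h2 : q₀.2 ∈ C.B 1 b) :
    ∃ r₀ > (0 : ℝ), r₀ ≤ C.r a ∧ r₀ ≤ C.r b ∧ ∀ r₁, 0 < r₁ → r₁ ≤ r₀ → ∃ κ > (0 : ℝ),
      ∀ (e : ℝ) (F : E → ℝ) (W₀ W₁ : E → E → ℝ), Lev C A K c e F W₀ W₁ →
      (∃ q' ∈ closedBall q₀ (3 * r₁ / 4),
        (r₁ / 2) ^ (c / 2) < W₀ (C.pt γ₁ a q'.1) (C.pt γ₂ b q'.2)) →
      ∀ q ∈ closedBall q₀ (r₁ / 4), κ * min (F (C.pt γ₁ a q.1)) (F (C.pt γ₂ b q.2)) ^ 3 *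
        (F (C.pt γ₁ a q.1) * F (C.pt γ₂ b q.2)) ≤ W₁ (C.pt γ₁ a q.1) (C.pt γ₂ b q.2) := by
  obtain ⟨β, hβ, hβe⟩ := exp_bd A a b
  have ra := C.r_pos a
  have rb := C.r_pos b
  obtain ⟨R, hR, hRa, hRb⟩ : ∃ R > (0 : ℝ), R ≤ C.r a ∧ R ≤ C.r b :=
    ⟨min (C.r a) (C.r b), lt_min ra rb, min_le_left _ _, min_le_right _ _⟩
  obtain ⟨θ, hθ, hθe⟩ : ∃ θ > (0 : ℝ), 2 * β ^ 2 * θ = (1 / 2) ^ (c / 2) * R ^ (2 * c / 3) :=
    ⟨(1 / 2) ^ (c / 2) * R ^ (2 * c / 3) / (2 * β ^ 2), by positivity, by field_simp⟩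
  refine ⟨min R (θ ^ (c / 6)⁻¹), lt_min hR (by positivity), (min_le_left _ _).trans hRa,
    (min_le_left _ _).trans hRb, fun r₁ hr₁ hr₀ => ?_⟩
  have hr₁R : r₁ ≤ R := hr₀.trans (min_le_left _ _)
  have hr₁θ : r₁ ^ (c / 6) ≤ θ :=
    (Real.le_rpow_inv_iff_of_pos hr₁.le hθ.le (by positivity)).1 (hr₀.trans (min_le_right _ _))
  have hτ : 0 < (r₁ / 2) ^ (c / 2) := by positivity
  have hSμ : 2 * β * r₁ ^ (2 * c / 3) ≤ (r₁ / 2) ^ (c / 2) / β * R ^ (2 * c / 3) := by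
    have e1 : r₁ ^ (2 * c / 3) = r₁ ^ (c / 2) * r₁ ^ (c / 6) := by
      rw [← Real.rpow_add hr₁]
      congr 1
      ring
    have e2 : (r₁ / 2) ^ (c / 2) = r₁ ^ (c / 2) * (1 / 2) ^ (c / 2) := by
      rw [← Real.mul_rpow hr₁.le (by norm_num), mul_one_div]
    rw [e1, e2, div_mul_eq_mul_div, le_div_iff₀ hβ, mul_assoc (r₁ ^ (c / 2)), ← hθe]
    calc 2 * β * (r₁ ^ (c / 2) * r₁ ^ (c / 6)) * β
        = r₁ ^ (c / 2) * (2 * β ^ 2) * r₁ ^ (c / 6) := by ring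
      _ ≤ r₁ ^ (c / 2) * (2 * β ^ 2) * θ := mul_le_mul_of_nonneg_left hr₁θ (by positivity)
      _ = _ := by ring
  obtain ⟨κ, hκ, hnum⟩ := sb_num' (κ₁ := (r₁ / 2) ^ (c / 2) / β / r₁ ^ (2 * c / 3) / β)
    (by positivity) hK hr₁ hc
  refine ⟨κ, hκ, fun e F W₀ W₁ H ⟨q', hq', hW⟩ q hq => ?_⟩
  rw [mem_closedBall_iff_norm] at hq hq'
  have hin : ∀ u ∈ closedBall q R, u.1 ∈ C.B 3 a ∧ u.2 ∈ C.B 3 b := by
    intro u hu
    have h3 : ‖u - q₀‖ ≤ R + r₁ / 4 :=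
      (norm_sub_le_norm_sub_add_norm_sub u q q₀).trans
        (add_le_add (mem_closedBall_iff_norm.1 hu) hq)
    exact ⟨mem_B h1 (fst_le h3) (by linarith), mem_B h2 (snd_le h3) (by linarith)⟩
  have hq'q : q' ∈ closedBall q r₁ := by
    rw [mem_closedBall_iff_norm]
    have := norm_sub_le_norm_sub_add_norm_sub q' q₀ q
    rw [norm_sub_rev q₀] at this
    linarith
  have hq3 := hin q (mem_closedBall_self hR.le)
  refine hnum e _ _ _ (H.F0 _) (H.F1 _) (H.F0 _) (H.F1 _) (H.W10 _ _) (H.low _ _)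
    fun r hr hrr he => ?_
  obtain ⟨u, hu, hlt⟩ := lower_prop (H.psh γ₁ γ₂ a b) (q := q) (z₁ := q') (r₁ := r₁) (R := R)
    (S := 2 * β) (μ := (r₁ / 2) ^ (c / 2) / β) (s := 2 * c / 3) (by positivity) (by positivity)
    hr₁R (fun u hu => ⟨B_mono (by norm_num) a (hin u hu).1, B_mono (by norm_num) b (hin u hu).2⟩)
    (fun u hu => mul_le_mul (H.W02 _ _) (hβe _ (hin u hu).1 _ (hin u hu).2).1
      (Real.exp_pos _).le zero_le_two) hq'q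
    (by
      have h3 := hin q' (closedBall_subset_closedBall hr₁R hq'q)
      rw [div_lt_iff₀ hβ, mul_assoc, mul_comm _ β]
      exact hW.trans_le (le_mul_of_one_le_right (H.W00 _ _) (hβe _ h3.1 _ h3.2).2))
    hSμ hr hrr
  have hu3 := hin u (closedBall_subset_closedBall (hrr.trans hr₁R) hu)
  rw [mem_closedBall_iff_norm] at hu
  refine ⟨W₀ (C.pt γ₁ a u.1) (C.pt γ₂ b u.2), ?_, (H.chain _ _ _ _).trans ?_⟩
  · rw [div_mul_eq_mul_div, div_lt_iff₀ hβ]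
    exact hlt.trans_le (mul_le_mul_of_nonneg_left (hβe _ hu3.1 _ hu3.2).1 (H.W00 _ _))
  have hKr : 0 ≤ K * r ^ c := by positivity
  refine mul_le_mul_of_nonneg_left (max_le_max ?_ (max_le_max ?_ ?_)) zero_le_two
  · exact mul_le_mul (H.pole γ₁ a _ hu3.1 _ hq3.1 r (fst_le hu) he)
      (mul_le_of_le_one_right (H.F0 _) (H.F1 _)) (mul_nonneg (H.F0 _) (H.F0 _)) hKr
  · exact mul_le_of_le_one_right (H.W10 _ _) (mul_le_one₀ (H.F1 _) (H.F0 _) (H.F1 _))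
  · exact mul_le_mul (H.pole γ₂ b _ hq3.2 _ hu3.2 r ((norm_sub_rev _ _).trans_le (snd_le hu)) he)
      (mul_le_of_le_one_left (H.F0 _) (H.F1 _)) (mul_nonneg (H.F0 _) (H.F0 _)) hKr

theorem psh₂ {W : E → E → ℝ} {A : ℝ} (hinv : ∀ (γ : Γ) x y, W (γ • x) (γ • y) = W x y)
    (h : ∀ (γ : Γ) a b, LPsh (fun q : Cm n × Cm n => W (C.pt 1 a q.1) (C.pt γ b q.2) *
      Real.exp (A * C.ρ a q.1 + A * C.ρ b q.2)) (C.B 4 a ×ˢ C.B 4 b)) (γ₁ γ₂ : Γ) (a b : C.I) :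
    LPsh (fun q : Cm n × Cm n => W (C.pt γ₁ a q.1) (C.pt γ₂ b q.2) *
      Real.exp (A * C.ρ a q.1 + A * C.ρ b q.2)) (C.B 4 a ×ˢ C.B 4 b) := by
  have e : ∀ q : Cm n × Cm n, W (C.pt γ₁ a q.1) (C.pt γ₂ b q.2) =
      W (C.pt 1 a q.1) (C.pt (γ₁⁻¹ * γ₂) b q.2) := fun q => by
    rw [pt_one γ₁, pt_two γ₁ γ₂, hinv]
  simp only [e]
  exact h _ a b

theorem eps_le (D : LD C) : ∀ᶠ j in atTop, D.ε j ≤ 2 :=
  (D.ε_tend.eventually (gt_mem_nhds one_lt_two)).mono fun _ h => h.le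

/-- the hypotheses hold at the finite stages and in the limit -/
theorem lev {D : LD C} (L : Lim D) (l : ℕ) : ∃ K > (0 : ℝ),
    (∀ᶠ j in atTop, Lev C D.A K (D.c (l + 1)) (D.e j) (D.F j) (D.W l j) (D.W (l + 1) j)) ∧
    Lev C D.A K (D.c (l + 1)) 0 L.F (L.W l) (L.W (l + 1)) := by
  obtain ⟨K₁, h1⟩ := D.pole (l + 1)
  obtain ⟨K₂, h2⟩ := L.pole (l + 1)
  have hc := (D.c_pos (l + 1)).le
  refine ⟨max (max K₁ 1 * 2) (max K₂ 1), by positivity, ?_, ?_⟩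
  · filter_upwards [h1, eps_le D, D.chain l] with j h3 h4 h5
    refine ⟨D.F_nonneg j, D.F_le j, D.W_nonneg l j, fun x y => ?_, D.W_nonneg (l + 1) j,
      fun x₁ x₂ x₃ x₄ => ?_, fun γ a z hz z' hz' t ht he => ?_, D.low (l + 1) j,
      psh₂ (D.W_inv l j) (D.W_psh l j)⟩
    · refine (D.W_le l j x y).trans ((mul_le_of_le_one_right ?_ ?_).trans h4)
      · exact zero_le_one.trans (D.one_le j)
      · exact mul_le_one₀ (D.F_le j x) (D.F_nonneg j y) (D.F_le j y)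
    · refine (h5 x₁ x₂ x₃ x₄).trans (mul_le_mul_of_nonneg_right h4 (le_max_of_le_left ?_))
      exact mul_nonneg (D.W_nonneg _ _ _ _) (mul_nonneg (D.F_nonneg _ _) (D.F_nonneg _ _))
    · refine (pole_gen' (D.W_inv (l + 1) j) h3 hc (D.e_nonneg j) γ a hz hz' ht).trans ?_
      have h6 := Real.rpow_nonneg ((norm_nonneg _).trans ht) (D.c (l + 1))
      refine le_trans ?_ (mul_le_mul_of_nonneg_right (le_max_left _ _) h6)
      rw [mul_assoc]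
      exact mul_le_mul_of_nonneg_left (by linarith) (by positivity)
  · refine ⟨L.F_nonneg, L.F_le, L.W_nonneg l, fun x y => ?_, L.W_nonneg (l + 1),
      fun x₁ x₂ x₃ x₄ => ?_, fun γ a z hz z' hz' t ht _ => ?_, fun x y => by
        linarith [L.W_nonneg (l + 1) x y], psh₂ (L.W_inv l) (L.W_psh l)⟩
    · exact (L.W_le l x y).trans
        ((mul_le_one₀ (L.F_le x) (L.F_nonneg y) (L.F_le y)).trans one_le_two)
    · refine (L.chain l x₁ x₂ x₃ x₄).trans (le_mul_of_one_le_left (le_max_of_le_left ?_) one_le_two)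
      exact mul_nonneg (L.W_nonneg _ _ _) (mul_nonneg (L.F_nonneg _) (L.F_nonneg _))
    · refine (pole_gen (L.W_inv (l + 1)) h2 hc γ a hz hz' ht).trans ?_
      exact mul_le_mul_of_nonneg_right (le_max_right _ _)
        (Real.rpow_nonneg ((norm_nonneg _).trans ht) _)

theorem lev_mono (D : LD C) {l l' : ℕ} (h : l ≤ l') :
    ∃ M : ℝ, 1 ≤ M ∧ ∀ᶠ j in atTop, ∀ x y, D.W l j x y ≤ M * D.W l' j x y := by
  induction l', h using Nat.le_induction with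
  | base => exact ⟨1, le_rfl, Eventually.of_forall fun j x y => (one_mul _).ge⟩
  | succ l' _ ih =>
    obtain ⟨M, hM, h1⟩ := ih
    refine ⟨M * 2, by linarith, ?_⟩
    filter_upwards [h1, D.mono l'] with j h2 h3 x y
    rw [mul_assoc]
    exact (h2 x y).trans (mul_le_mul_of_nonneg_left (h3 x y) (by linarith))

variable {D : LD C} {L : Lim D} (Z : ZD L)

/-- the shell bound on a set -/
def SBOn (L : Lim D) (l : ℕ) (K : Set (E × E)) : Prop :=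
  ∃ κ > 0, (∀ᶠ j in atTop, ∀ q ∈ K,
    κ * min (D.F j q.1) (D.F j q.2) ^ 3 * (D.F j q.1 * D.F j q.2) ≤ D.W (l + 1) j q.1 q.2) ∧
    ∀ q ∈ K, κ * min (L.F q.1) (L.F q.2) ^ 3 * (L.F q.1 * L.F q.2) ≤ L.W (l + 1) q.1 q.2

theorem sb_near {l : ℕ} {p : E × E} (hp : p ∉ Z.Z l) : ∃ U ∈ 𝓝 p, SBOn L l U := by
  obtain ⟨x, y⟩ := p
  obtain ⟨γ₁, a, z₁, hz₁, rfl⟩ := cover (C := C) x
  obtain ⟨γ₂, b, z₂, hz₂, rfl⟩ := cover (C := C) y
  have hc := D.c_pos (l + 1)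
  have ra := C.r_pos a
  have rb := C.r_pos b
  obtain ⟨K, hK, hD, hL⟩ := lev L l
  obtain ⟨r₀, hr₀, hra, hrb, h⟩ := sb_local D.A hK hc γ₁ γ₂ (q₀ := (z₁, z₂)) hz₁ hz₂
  have a4 : z₁ ∈ C.B 4 a := B_mono (by norm_num) a hz₁
  have b4 : z₂ ∈ C.B 4 b := B_mono (by norm_num) b hz₂
  obtain ⟨q', t, ht, hq't, htr, hW⟩ : ∃ (q' : Cm n × Cm n) (t : ℝ), 0 < t ∧ ‖q' - (z₁, z₂)‖ ≤ t ∧
      t ≤ r₀ / 2 ∧ t ^ (D.c (l + 1) / 2) < L.W l (C.pt γ₁ a q'.1) (C.pt γ₂ b q'.2) := by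
    by_contra hcon
    push Not at hcon
    refine hp (mem₂ Z l γ₁ γ₂ (q := (z₁, z₂)) a4 b4 ⟨1, ?_⟩)
    filter_upwards [closedBall_mem_nhds (z₁, z₂) (half_pos hr₀)] with q' hq'
    refine le_rpow_of_forall (half_pos hc) (half_pos hr₀) (norm_nonneg _)
      (mem_closedBall_iff_norm.1 hq') fun t h1 h2 h3 => ?_
    rw [one_mul]
    exact hcon q' t h1 h2 h3
  obtain ⟨κ, hκ, hκ'⟩ := h (2 * t) (by positivity) (by linarith)
  have e : 2 * t / 2 = t := by ring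
  rw [e] at hκ'
  refine ⟨_, nhds_pt₂ γ₁ γ₂ (q := (z₁, z₂)) a4 b4 (δ := 2 * t / 4) (by positivity), κ, hκ, ?_, ?_⟩
  · have g1 : ‖q'.1 - z₁‖ ≤ t := fst_le (q := (z₁, z₂)) hq't
    have g2 : ‖q'.2 - z₂‖ ≤ t := snd_le (q := (z₁, z₂)) hq't
    have g3 : q'.1 ∈ C.B 4 a := mem_B hz₁ g1 (by linarith)
    have g4 : q'.2 ∈ C.B 4 b := mem_B hz₂ g2 (by linarith)
    have h1 := nhds_pt₂ γ₁ γ₂ g3 g4 (half_pos ht)
    filter_upwards [hD, (L.W_lim l (C.pt γ₁ a q'.1, C.pt γ₂ b q'.2) _).2 hW _ h1] with j h2 h3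
    obtain ⟨_, ⟨w, hw, rfl⟩, h4⟩ := h3
    rintro _ ⟨q, hq, rfl⟩
    refine hκ' _ _ _ _ h2 ⟨w, ?_, h4⟩ q hq
    rw [mem_closedBall_iff_norm] at hw ⊢
    have := norm_sub_le_norm_sub_add_norm_sub w q' (z₁, z₂)
    linarith
  · rintro _ ⟨q, hq, rfl⟩
    refine hκ' _ _ _ _ hL ⟨q', ?_, hW⟩ q hq
    rw [mem_closedBall_iff_norm]
    linarith

theorem SBOn.up {l l' : ℕ} (h : l ≤ l') {U : Set (E × E)} (hU : SBOn L l U) : SBOn L l' U := by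
  obtain ⟨κ, hκ, h1, h2⟩ := hU
  obtain ⟨M, hM, h3⟩ := lev_mono D (Nat.succ_le_succ h)
  have hM0 : 0 < M := by linarith
  refine ⟨κ / M, by positivity, ?_, fun q hq => ?_⟩
  · filter_upwards [h1, h3] with j h4 h5 q hq
    rw [div_mul_eq_mul_div, div_mul_eq_mul_div, div_le_iff₀ hM0, mul_comm _ M]
    exact (h4 q hq).trans (h5 _ _)
  · rw [div_mul_eq_mul_div, div_mul_eq_mul_div, div_le_iff₀ hM0]
    exact (h2 q hq).trans ((lim_mono L (Nat.succ_le_succ h) _ _).trans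
      (le_mul_of_one_le_right (L.W_nonneg _ _ _) hM))

theorem le_of_kappa {κ κ' f g w : ℝ} (h : κ' ≤ κ) (hf : 0 ≤ f) (hg : 0 ≤ g)
    (hw : κ * min f g ^ 3 * (f * g) ≤ w) : κ' * min f g ^ 3 * (f * g) ≤ w :=
  (mul_le_mul_of_nonneg_right (mul_le_mul_of_nonneg_right h (pow_nonneg (le_min hf hg) 3))
    (mul_nonneg hf hg)).trans hw

/-- the shell bound -/
theorem sb : Z.SB := by
  intro l K hK hd
  refine hK.induction_on (p := fun S => SBOn L l S) ?_ ?_ ?_ ?_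
  · exact ⟨1, one_pos, Eventually.of_forall fun _ _ h => h.elim, fun _ h => h.elim⟩
  · rintro S S' hS ⟨κ, hκ, h1, h2⟩
    exact ⟨κ, hκ, h1.mono fun j hj q hq => hj q (hS hq), fun q hq => h2 q (hS hq)⟩
  · rintro S S' ⟨κ, hκ, h1, h2⟩ ⟨κ', hκ', h1', h2'⟩
    refine ⟨min κ κ', lt_min hκ hκ', ?_, ?_⟩
    · filter_upwards [h1, h1'] with j h3 h4 q hq
      rcases hq with hq | hq
      · exact le_of_kappa (min_le_left _ _) (D.F_nonneg _ _) (D.F_nonneg _ _) (h3 q hq)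
      · exact le_of_kappa (min_le_right _ _) (D.F_nonneg _ _) (D.F_nonneg _ _) (h4 q hq)
    · rintro q (hq | hq)
      · exact le_of_kappa (min_le_left _ _) (L.F_nonneg _) (L.F_nonneg _) (h2 q hq)
      · exact le_of_kappa (min_le_right _ _) (L.F_nonneg _) (L.F_nonneg _) (h2' q hq)
  · intro p hp
    have h1 : ¬ ∀ l' ≤ l, p ∈ Z.Z l' := fun h => disjoint_left.1 hd hp h
    push Not at h1
    obtain ⟨l', hl', h2⟩ := h1
    obtain ⟨U, hU, h3⟩ := sb_near Z h2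
    exact ⟨U, mem_nhdsWithin_of_mem_nhds hU, h3.up hl'⟩

end S

/-- **S**: the shell bound and transitivity -/
theorem stS : StS := fun _ _ _ _ _ _ _ _ _ _ _ _ Z => ⟨S.sb Z, S.tr Z⟩

end Vale.Agent.P284Y.D
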