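import Vale.Agent.P284Y.D.HBas
import Vale.Agent.P284Y.D.SSB

/-!
# P284Y (copy for the data with a floor), block H: equicontinuity of the relation between plaques
-/

open scoped Topology
open Filter Set Metric MeasureTheory

noncomputable section

namespace Vale.Agent.P284Y.D.H

open Vale.Agent.P284Z Vale.Agent.P284Z.H

open Vale.Agent.P272.K

namespace EqC

theorem num {κ m M f₁ f₂ g w w₁ w₂ : ℝ} (hκ : 0 < κ) (hm : 0 < m) (h1 : m ≤ f₁) (h2 : m ≤ f₂)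
    (h3 : m ≤ g) (hw : κ * min f₁ f₂ ^ 3 * (f₁ * f₂) ≤ w) (hw₁ : w₁ ≤ M) (hw₂ : w₂ ≤ M)
    (h : w * (g * g) ≤ max (w₁ * (g * f₂)) (max (0 * (f₁ * f₂)) (w₂ * (f₁ * g)))) :
    κ * m ^ 5 ≤ M := by
  have p1 : 0 < f₁ := hm.trans_le h1
  have p2 : 0 < f₂ := hm.trans_le h2
  have p3 : 0 < g := hm.trans_le h3
  have a1 : κ * m ^ 3 * (f₁ * f₂) * (g * g) ≤ w * (g * g) := by
    refine mul_le_mul_of_nonneg_right (le_trans ?_ hw) (by positivity)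
    have := le_min h1 h2
    gcongr
  have a2 : ∀ u v : ℝ, m ≤ u → 0 < v → κ * m ^ 3 * (u * v) * (g * g) ≤ M * (g * v) →
      κ * m ^ 5 ≤ M := fun u v hu hv huv => by
    have b1 : κ * m ^ 3 * (u * g) * (g * v) ≤ M * (g * v) := by
      refine le_trans (le_of_eq ?_) huv; ring
    have b2 := le_of_mul_le_mul_right b1 (mul_pos p3 hv)
    refine le_trans ?_ b2
    have : 0 ≤ u := hm.le.trans hu
    calc κ * m ^ 5 = κ * m ^ 3 * (m * m) := by ring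
      _ ≤ κ * m ^ 3 * (u * g) := by gcongr
  rcases le_max_iff.1 (a1.trans h) with h | h
  · exact a2 f₁ f₂ h1 p2 (h.trans (mul_le_mul_of_nonneg_right hw₁ (by positivity)))
  rcases le_max_iff.1 h with h | h
  · rw [zero_mul] at h
    exact absurd h (not_le.2 (by positivity))
  · refine a2 f₂ f₁ h2 p1 ?_
    rw [mul_comm f₂ f₁, mul_comm g f₁]
    exact h.trans (mul_le_mul_of_nonneg_right hw₂ (by positivity))

variable {n : ℕ} {Γ E : Type} [Group Γ] [TopologicalSpace E] [MulAction Γ E] {C : Cov n Γ E}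
  {D : LD C} {L : Lim D} {Z : ZD L} {d q l : ℕ}

theorem mem_B3 {a : C.I} {z w : Cm n} (hz : z ∈ C.B 2 a) (hw : ‖w - z‖ ≤ C.r a) :
    w ∈ C.B 3 a := by
  rw [Cov.B, mem_ball_iff_norm] at hz ⊢
  have := norm_sub_le_norm_sub_add_norm_sub w z (C.c a)
  linarith

/-- a locally uniform lower bound -/
theorem small_loc (L : Lim D) (a : C.I) {ν s : ℝ} (hν : 0 ≤ ν) (hs : ν < s) {z₀ : Cm n}
    (h : SmallAt (fun w => L.F (C.pt 1 a w)) ν z₀) : ∃ r > (0 : ℝ), ∃ k > (0 : ℝ),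
      ∀ z ∈ closedBall z₀ r, z ∈ C.B 2 a → ∀ η ∈ Ioc 0 r,
        ∃ z' ∈ closedBall z η, k * η ^ s ≤ L.F (C.pt 1 a z') := by
  obtain ⟨κ, hκ, δ, hδ, h⟩ := h
  obtain ⟨M, hM⟩ := S.rho_bd a
  have ra := C.r_pos a
  set β := Real.exp (|D.A| * M) with hβ
  have β0 : 0 < β := Real.exp_pos _
  have hb : ∀ z ∈ C.B 3 a, Real.exp (D.A * C.ρ a z) ≤ β ∧ 1 ≤ β * Real.exp (D.A * C.ρ a z) := by
    intro z hz
    have h1 : |D.A * C.ρ a z| ≤ |D.A| * M := by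
      rw [abs_mul]; exact mul_le_mul_of_nonneg_left (hM z hz) (abs_nonneg _)
    rw [abs_le] at h1
    refine ⟨Real.exp_le_exp.2 h1.2, ?_⟩
    rw [← Real.exp_add]
    exact Real.one_le_exp (by linarith)
  have h1 : Tendsto (fun r : ℝ => β * 2 ^ s * r ^ (s - ν)) (𝓝[>] 0)
      (𝓝 (β * 2 ^ s * (0 : ℝ) ^ (s - ν))) :=
    (((Real.continuousAt_rpow_const 0 (s - ν) (Or.inr (by linarith))).tendsto).const_mul
      _).mono_left nhdsWithin_le_nhds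
  rw [Real.zero_rpow (by linarith), mul_zero] at h1
  have h2 := h1.eventually_lt_const (show 0 < κ / (2 * β) * C.r a ^ s by positivity)
  obtain ⟨r, r1, r2, r3⟩ := (h2.and (Ioc_mem_nhdsGT (lt_min hδ (half_pos ra)))).exists
  have r4 : r ≤ δ := r3.trans (min_le_left _ _)
  have r5 : r ≤ C.r a / 2 := r3.trans (min_le_right _ _)
  obtain ⟨z₁, z1, z2⟩ := h r ⟨r2, r4⟩
  have hrν : 0 < r ^ ν := by positivity
  refine ⟨r, r2, κ / (2 * β) * r ^ ν / (2 * r) ^ s / β, by positivity, fun z hz hz2 η hη => ?_⟩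
  have hB : ∀ w ∈ closedBall z (C.r a), w ∈ C.B 3 a := fun w hw =>
    mem_B3 hz2 (mem_closedBall_iff_norm.1 hw)
  have z3 : z₁ ∈ closedBall z (2 * r) := by
    rw [mem_closedBall] at z1 hz ⊢
    have := dist_triangle_right z₁ z z₀
    linarith
  obtain ⟨z', a1, a2⟩ := S.lower_prop (L.F_psh a) (q := z) (z₁ := z₁) (r₁ := 2 * r) (R := C.r a)
    (S := β) (μ := κ / (2 * β) * r ^ ν) (s := s) (by linarith) (by positivity) (by linarith)
    (fun w hw => B_le (by norm_num) _ (hB w hw))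
    (fun w hw => (mul_le_of_le_one_left (Real.exp_pos _).le (L.F_le _)).trans (hb w (hB w hw)).1)
    z3 (by
      have b1 := (hb z₁ (hB z₁ (closedBall_subset_closedBall (by linarith) z3))).2
      have b2 := Real.exp_pos (D.A * C.ρ a z₁)
      have b3 : κ / (2 * β) * r ^ ν < κ * r ^ ν * Real.exp (D.A * C.ρ a z₁) := by
        rw [div_mul_eq_mul_div, div_lt_iff₀ (by positivity)]
        nlinarith [mul_pos hκ hrν]
      exact b3.trans_le (mul_le_mul_of_nonneg_right z2 b2.le))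
    (by
      have b1 : r ^ s = r ^ (s - ν) * r ^ ν := by
        rw [← Real.rpow_add r2, sub_add_cancel]
      rw [Real.mul_rpow zero_le_two r2.le, b1]
      nlinarith [mul_lt_mul_of_pos_right r1 hrν])
    hη.1 (by linarith [hη.2])
  refine ⟨z', a1, ?_⟩
  have b1 := (hb z' (hB z' (closedBall_subset_closedBall (by linarith [hη.2]) a1))).1
  rw [div_mul_eq_mul_div, div_le_iff₀ β0]
  exact a2.le.trans (mul_le_mul_of_nonneg_left b1 (L.F_nonneg _))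

/-- a uniform lower bound on a compact set -/
theorem small_unif (L : Lim D) (a : C.I) {ν s : ℝ} (hν : 0 ≤ ν) (hs : ν < s) {K : Set (Cm n)}
    (hK : IsCompact K) (h : ∀ z ∈ K, SmallAt (fun w => L.F (C.pt 1 a w)) ν z) :
    ∃ r > (0 : ℝ), ∃ k > (0 : ℝ), ∀ z ∈ K, z ∈ C.B 2 a → ∀ η ∈ Ioc 0 r,
      ∃ z' ∈ closedBall z η, k * η ^ s ≤ L.F (C.pt 1 a z') := by
  refine hK.induction_on (p := fun T => ∃ r > (0 : ℝ), ∃ k > (0 : ℝ), ∀ z ∈ T, z ∈ C.B 2 a →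
    ∀ η ∈ Ioc 0 r, ∃ z' ∈ closedBall z η, k * η ^ s ≤ L.F (C.pt 1 a z'))
    ⟨1, one_pos, 1, one_pos, fun _ hz => hz.elim⟩ ?_ ?_ ?_
  · rintro T T' hT ⟨r, r0, k, k0, h1⟩
    exact ⟨r, r0, k, k0, fun z hz => h1 z (hT hz)⟩
  · rintro T T' ⟨r, r0, k, k0, h1⟩ ⟨r', r0', k', k0', h2⟩
    refine ⟨min r r', lt_min r0 r0', min k k', lt_min k0 k0', fun z hz hz2 η hη => ?_⟩
    have := Real.rpow_nonneg hη.1.le s
    rcases hz with hz | hz
    · obtain ⟨z', a1, a2⟩ := h1 z hz hz2 η ⟨hη.1, hη.2.trans (min_le_left _ _)⟩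
      exact ⟨z', a1, (mul_le_mul_of_nonneg_right (min_le_left _ _) this).trans a2⟩
    · obtain ⟨z', a1, a2⟩ := h2 z hz hz2 η ⟨hη.1, hη.2.trans (min_le_right _ _)⟩
      exact ⟨z', a1, (mul_le_mul_of_nonneg_right (min_le_right _ _) this).trans a2⟩
  · intro z₀ hz₀
    obtain ⟨r, r0, h1⟩ := small_loc L a hν hs (h z₀ hz₀)
    exact ⟨_, mem_nhdsWithin_of_mem_nhds (closedBall_mem_nhds z₀ r0), r, r0, h1⟩

/-- the coordinate of the centre of a plaque -/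
def ctr (N : NC Z d q l) (t : Cm q) : Cm n := C.co N.g N.a (N.Ψ.symm (0, t))

theorem ctr_mem (N : NC Z d q l) {t : Cm q} (ht : ‖t‖ < N.R) :
    ctr N t ∈ C.B 2 N.a ∧ C.pt N.g N.a (ctr N t) = N.Ψ.symm (0, t) := inch (src (zero_lt N) ht)

theorem ctr_cont (N : NC Z d q l) {t : Cm q} (ht : ‖t‖ < N.R) : ContinuousAt (ctr N) t :=
  ContinuousAt.comp (g := fun u => C.co N.g N.a (N.Ψ.symm u)) (f := fun t' : Cm q => (0, t'))
    (N.hol' _ (N.tgt ▸ (tgt_iff N).2 ⟨zero_lt N, ht⟩)).continuousAt (by fun_prop)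

theorem ctr_small {Φ : FD Z} (N : Ch Φ) {r s : ℝ} (hr : r < N.1.R)
    (hs : Z.c' (Φ.l₁ + 2) / 6 < s) : ∃ k > (0 : ℝ), ∀ᶠ η in 𝓝[>] (0 : ℝ), ∀ t, ‖t‖ ≤ r →
      ∃ z' : Cm n, ‖z' - ctr N.1 t‖ ≤ η ∧ ∀ γ : Γ, k * η ^ s ≤ L.F (C.pt γ N.1.a z') := by
  have hK : IsCompact (ctr N.1 '' closedBall 0 r) :=
    (isCompact_closedBall 0 r).image_of_continuousOn fun t ht =>
      (ctr_cont N.1 ((mem_closedBall_zero_iff.1 ht).trans_lt hr)).continuousWithinAt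
  obtain ⟨r₀, r0, k, k0, h⟩ := small_unif L N.1.a (by linarith [Z.c'_pos (Φ.l₁ + 2)]) hs hK (by
    rintro _ ⟨t, ht, rfl⟩
    have h1 := (mem_closedBall_zero_iff.1 ht).trans_lt hr
    have h2 := Φ.small _ (N.2 (src (zero_lt N.1) h1)) N.1.g N.1.a _
      (B_le (by norm_num) _ (ctr_mem N.1 h1).1) (ctr_mem N.1 h1).2.symm
    simpa only [S.pt_one N.1.g, L.F_inv] using h2)
  refine ⟨k, k0, ?_⟩
  filter_upwards [Ioc_mem_nhdsGT r0] with η hη t ht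
  obtain ⟨z', a1, a2⟩ := h _ ⟨t, mem_closedBall_zero_iff.2 ht, rfl⟩
    (ctr_mem N.1 (ht.trans_lt hr)).1 η hη
  exact ⟨z', mem_closedBall_iff_norm.1 a1, fun γ => by rwa [S.pt_one γ, L.F_inv]⟩

theorem ctr_near (N : NC Z d q l) {r ε : ℝ} (hr : r < N.R) (hε : 0 < ε) :
    ∀ᶠ η in 𝓝[>] (0 : ℝ), ∀ t, ‖t‖ ≤ r → ∀ z' : Cm n, ‖z' - ctr N t‖ ≤ η →
      C.pt N.g N.a z' ∈ N.Ψ.source ∧ ‖N.Ψ (C.pt N.g N.a z') - (0, t)‖ < ε := by
  have h1 : ∀ᶠ h in 𝓝 (0 : Cm n), ∀ t ∈ closedBall (0 : Cm q) r,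
      C.pt N.g N.a (ctr N t + h) ∈ N.Ψ.source ∧
        ‖N.Ψ (C.pt N.g N.a (ctr N t + h)) - (0, t)‖ < ε := by
    refine (isCompact_closedBall 0 r).eventually_forall_of_forall_eventually fun t ht => ?_
    have ht' := (mem_closedBall_zero_iff.1 ht).trans_lt hr
    have a1 : ContinuousAt (fun p : Cm n × Cm q => C.pt N.g N.a (ctr N p.2 + p.1)) (0, t) :=
      ContinuousAt.comp (g := C.pt N.g N.a) (f := fun p : Cm n × Cm q => ctr N p.2 + p.1)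
        (cont_pt _ (by simpa using B_le (by norm_num) _ (ctr_mem N ht').1))
        ((ContinuousAt.comp (g := ctr N) (f := Prod.snd) (x := ((0 : Cm n), t)) (ctr_cont N ht')
          continuousAt_snd).add continuousAt_fst)
    have a2 : C.pt N.g N.a (ctr N t + 0) = N.Ψ.symm (0, t) := by
      rw [add_zero, (ctr_mem N ht').2]
    have a3 : C.pt N.g N.a (ctr N t + 0) ∈ N.Ψ.source := by
      rw [a2]; exact src (zero_lt N) ht'
    have a4 : ContinuousAt (fun p : Cm n × Cm q =>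
        ‖N.Ψ (C.pt N.g N.a (ctr N p.2 + p.1)) - (0, p.2)‖) (0, t) :=
      ((ContinuousAt.comp (g := N.Ψ) (x := ((0 : Cm n), t))
        (f := fun p : Cm n × Cm q => C.pt N.g N.a (ctr N p.2 + p.1)) (N.Ψ.continuousAt a3) a1).sub
        (continuousAt_const.prodMk continuousAt_snd)).norm
    have a5 : ‖N.Ψ (C.pt N.g N.a (ctr N t + 0)) - (0, t)‖ < ε := by
      rw [a2, N.Ψ.right_inv ((tgt_iff N).2 ⟨zero_lt N, ht'⟩), sub_self, norm_zero]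
      exact hε
    filter_upwards [a1.eventually_mem (N.Ψ.open_source.mem_nhds a3), a4.eventually_lt_const a5]
      with p i1 i2 using ⟨i1, i2⟩
  obtain ⟨δ, hδ, h2⟩ := nhds_basis_closedBall.mem_iff.1 h1
  filter_upwards [Ioc_mem_nhdsGT hδ] with η hη t ht z' hz'
  have := @h2 (z' - ctr N t) (mem_closedBall_zero_iff.2 (hz'.trans hη.2)) t
    (mem_closedBall_zero_iff.2 ht)
  rwa [add_sub_cancel] at this

/-- the shell bound for separated plaques -/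
theorem shell (hS : Z.SB) (N : NC Z d q l) {r ε : ℝ} (hr : r < N.R) (hε : 0 < ε) :
    ∃ κ > (0 : ℝ), ∀ x ∈ N.Ψ.source, ∀ y ∈ N.Ψ.source, ‖N.Ψ x‖ ≤ r → ‖N.Ψ y‖ ≤ r →
      ε ≤ ‖(N.Ψ x).2 - (N.Ψ y).2‖ →
      κ * min (L.F x) (L.F y) ^ 3 * (L.F x * L.F y) ≤ L.W (l + 1) x y := by
  have hT : ∀ v ∈ closedBall (0 : Cm d × Cm q) r, v ∈ N.Ψ.target := fun v hv =>
    N.tgt ▸ closedBall_subset_ball hr hv
  have h1 : IsCompact ((closedBall (0 : Cm d × Cm q) r ×ˢ closedBall (0 : Cm d × Cm q) r) ∩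
      {p | ε ≤ ‖p.1.2 - p.2.2‖}) :=
    ((isCompact_closedBall _ _).prod (isCompact_closedBall _ _)).inter_right
      (isClosed_le continuous_const (by fun_prop))
  have h2 := h1.image_of_continuousOn
    (f := fun p : (Cm d × Cm q) × Cm d × Cm q => (N.Ψ.symm p.1, N.Ψ.symm p.2)) fun p hp =>
    (((N.Ψ.continuousAt_symm (hT _ hp.1.1)).comp continuousAt_fst).prodMk
      ((N.Ψ.continuousAt_symm (hT _ hp.1.2)).comp continuousAt_snd)).continuousWithinAt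
  obtain ⟨κ, hκ, -, h3⟩ := hS l _ h2 (by
    rw [Set.disjoint_left]
    rintro _ ⟨p, hp, rfl⟩ h4
    have h5 := (N.rel _ (N.Ψ.map_target (hT _ hp.1.1)) _ (N.Ψ.map_target (hT _ hp.1.2))).1 h4
    rw [N.Ψ.right_inv (hT _ hp.1.1), N.Ψ.right_inv (hT _ hp.1.2)] at h5
    have h6 : ε ≤ ‖p.1.2 - p.2.2‖ := hp.2
    rw [h5, sub_self, norm_zero] at h6
    exact absurd h6 (not_le.2 hε))
  refine ⟨κ, hκ, fun x hx y hy a1 a2 a3 => h3 (x, y) ⟨(N.Ψ x, N.Ψ y),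
    ⟨⟨mem_closedBall_zero_iff.2 a1, mem_closedBall_zero_iff.2 a2⟩, a3⟩, ?_⟩⟩
  simp only [N.Ψ.left_inv hx, N.Ψ.left_inv hy]

end EqC

theorem eq_ : StEq := by
  intro n Γ E _ _ _ _ _ _ C D L Z hS Φ N N' r hr r' hr' ε hε
  set c := Z.c' (Φ.l₁ + 2) with hc
  have c0 : 0 < c := Z.c'_pos _
  obtain ⟨k, k0, h1⟩ := EqC.ctr_small N hr (s := 11 * c / 60) (by linarith)
  obtain ⟨k', k0', h2⟩ := EqC.ctr_small N' hr' (s := 11 * c / 60) (by linarith)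
  have h3 := EqC.ctr_near N.1 hr (ε := min (ε / 4) ((N.1.R - r) / 2))
    (lt_min (by positivity) (by linarith))
  obtain ⟨κ, hκ, h4⟩ := EqC.shell hS N.1 (r := r + (N.1.R - r) / 2) (by linarith) (half_pos hε)
  obtain ⟨K, -, hK⟩ := S.bound₂ Z (Φ.l₁ + 2)
  have m0 : 0 < min k k' := lt_min k0 k0'
  have h5 : Tendsto (fun η : ℝ => K * 2 ^ c * η ^ (c / 12)) (𝓝[>] 0)
      (𝓝 (K * 2 ^ c * (0 : ℝ) ^ (c / 12))) :=
    (((Real.continuousAt_rpow_const 0 (c / 12) (Or.inr (by positivity))).tendsto).const_mul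
      _).mono_left nhdsWithin_le_nhds
  rw [Real.zero_rpow (by positivity), mul_zero] at h5
  have h6 := h5.eventually_lt_const (show 0 < κ * min k k' ^ 5 by positivity)
  obtain ⟨η, ⟨⟨⟨e1, e2⟩, e3⟩, e4⟩, e5, e6⟩ := ((((h1.and h2).and h3).and h6).and
    (Ioc_mem_nhdsGT (lt_min (C.r_pos N.1.a) (C.r_pos N'.1.a)))).exists
  have e7 : η ≤ C.r N.1.a := e6.trans (min_le_left _ _)
  have e8 : η ≤ C.r N'.1.a := e6.trans (min_le_right _ _)
  have h7 := (isCompact_closedBall (0 : Cm Φ.q) r').uniformContinuousOn_of_continuous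
    (f := EqC.ctr N'.1) fun u hu =>
      (EqC.ctr_cont N'.1 ((mem_closedBall_zero_iff.1 hu).trans_lt hr')).continuousWithinAt
  obtain ⟨δ, hδ, h8⟩ := Metric.uniformContinuousOn_iff.1 h7 η e5
  refine ⟨δ, hδ, fun γ t₁ t₂ u₁ u₂ a1 a2 b1 b2 hu p1 p2 => ?_⟩
  by_contra hcon
  rw [not_lt] at hcon
  have h9 := h8 u₁ (mem_closedBall_zero_iff.2 b1) u₂ (mem_closedBall_zero_iff.2 b2)
    (by rwa [dist_eq_norm])
  rw [dist_eq_norm] at h9
  obtain ⟨z₁, z1, f1⟩ := e1 t₁ a1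
  obtain ⟨z₂, z2, f2⟩ := e1 t₂ a2
  obtain ⟨w, w1, f3⟩ := e2 u₁ b1
  obtain ⟨s1, n1⟩ := e3 t₁ a1 z₁ z1
  obtain ⟨s2, n2⟩ := e3 t₂ a2 z₂ z2
  have hn : ∀ (v : Cm Φ.d × Cm Φ.q) (t : Cm Φ.q), ‖t‖ ≤ r →
      ‖v - (0, t)‖ < min (ε / 4) ((N.1.R - r) / 2) →
      ‖v‖ ≤ r + (N.1.R - r) / 2 ∧ ‖v.2 - t‖ ≤ ε / 4 := fun v t ht hv => by
    have i1 := norm_add_le (v - (0, t)) (0, t)
    have i2 : ‖((0, t) : Cm Φ.d × Cm Φ.q)‖ = ‖t‖ := by simp [Prod.norm_def]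
    rw [sub_add_cancel, i2] at i1
    exact ⟨by linarith [hv.trans_le (min_le_right _ _)],
      (norm_snd_le (v - (0, t))).trans (hv.le.trans (min_le_left _ _))⟩
  obtain ⟨n3, n4⟩ := hn _ t₁ a1 n1
  obtain ⟨n5, n6⟩ := hn _ t₂ a2 n2
  have q0 := h4 _ s1 _ s2 n3 n5 (by
    have i1 := norm_sub_le_norm_sub_add_norm_sub t₁ (N.1.Ψ (C.pt N.1.g N.1.a z₁)).2 t₂
    have i2 := norm_sub_le_norm_sub_add_norm_sub (N.1.Ψ (C.pt N.1.g N.1.a z₁)).2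
      (N.1.Ψ (C.pt N.1.g N.1.a z₂)).2 t₂
    rw [norm_sub_rev] at n4
    linarith)
  have hb : ∀ t u z, PR N.1 N'.1 γ t u → ‖z - EqC.ctr N.1 t‖ ≤ η → ‖w - EqC.ctr N'.1 u‖ ≤ 2 * η →
      L.W (Φ.l₁ + 2) (C.pt N.1.g N.1.a z) (C.pt (γ * N'.1.g) N'.1.a w) ≤ K * (2 * η) ^ c :=
    fun t u z p i1 i2 => hK _ _ _ _ _ _ _ _ _ (EqC.ctr_mem N.1 p.1).1 (EqC.ctr_mem N'.1 p.2.1).1
      (by
        rw [← smul_pt, (EqC.ctr_mem N.1 p.1).2, (EqC.ctr_mem N'.1 p.2.1).2]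
        exact p.2.2 0 0 (zero_lt _) (zero_lt _) _)
      (EqC.mem_B3 (EqC.ctr_mem N.1 p.1).1 (i1.trans e7))
      (EqC.mem_B3 (EqC.ctr_mem N'.1 p1.2.1).1 (w1.trans e8)) (by linarith) i2
  have q1 := hb t₁ u₁ z₁ p1 z1 (by linarith)
  have q2 := hb t₂ u₂ z₂ p2 z2 (by
    have := norm_sub_le_norm_sub_add_norm_sub w (EqC.ctr N'.1 u₁) (EqC.ctr N'.1 u₂)
    linarith)
  rw [L.W_symm] at q2
  have q3 := L.chain (Φ.l₁ + 1) (C.pt N.1.g N.1.a z₁) (C.pt (γ * N'.1.g) N'.1.a w)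
    (C.pt (γ * N'.1.g) N'.1.a w) (C.pt N.1.g N.1.a z₂)
  rw [S.lim_diag L] at q3
  have hη : 0 < η ^ (11 * c / 60) := by positivity
  have q4 := EqC.num hκ (mul_pos m0 hη)
    ((mul_le_mul_of_nonneg_right (min_le_left _ _) hη.le).trans (f1 _))
    ((mul_le_mul_of_nonneg_right (min_le_left _ _) hη.le).trans (f2 _))
    ((mul_le_mul_of_nonneg_right (min_le_right _ _) hη.le).trans (f3 _)) q0 q1 q2 q3
  have q5 : η ^ c = η ^ (c / 12) * (η ^ (11 * c / 60)) ^ 5 := by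
    rw [← Real.rpow_natCast, ← Real.rpow_mul e5.le, ← Real.rpow_add e5]
    congr 1
    push_cast
    ring
  rw [Real.mul_rpow zero_le_two e5.le, q5, mul_pow] at q4
  nlinarith [mul_lt_mul_of_pos_right e4 (pow_pos hη 5)]

end Vale.Agent.P284Y.D.H
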