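import Vale.Agent.P284Y.D.HBas

/-!
# P284Y (copy for the data with a floor), block H: the holonomy groupoid of the foliation
-/

open scoped Topology
open Filter Set Metric MeasureTheory

noncomputable section

namespace Vale.Agent.P284Y.D.H

open Vale.Agent.P284Z Vale.Agent.P284Z.H

open Vale.Agent.P272.K

variable {n : ℕ} {Γ E : Type} [Group Γ] [TopologicalSpace E] [MulAction Γ E] {C : Cov n Γ E}
  {D : LD C} {L : Lim D} {Z : ZD L} {Φ : FD Z} {N N' N'' : Ch Φ} {γ γ' : Γ} {t u w : Cm Φ.q}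

theorem PR.uniq' (hT : Z.TR) {u' : Cm Φ.q} (h : PR N.1 N'.1 γ t u) (h' : PR N.1 N'.1 γ t u') :
    u = u' := h.symm.uniq hT h'.symm

theorem HR.pr (h : HR N.1 N'.1 γ t u) : PR N.1 N'.1 γ t u := by
  obtain ⟨⟨f, -, rfl, h⟩, -⟩ := h
  exact h.self_of_nhds

theorem HR.symm (h : HR N.1 N'.1 γ t u) : HR N'.1 N.1 γ⁻¹ u t :=
  ⟨h.2.imp fun _ k => ⟨k.1, k.2.1, k.2.2.mono fun _ k => k.symm⟩,
    h.1.imp fun _ k => ⟨k.1, k.2.1, k.2.2.mono fun _ k => k.symm⟩⟩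

theorem HR.refl (ht : ‖t‖ < N.1.R) : HR N.1 N.1 1 t t :=
  have h : ∀ᶠ t' in 𝓝 t, PR N.1 N.1 1 t' t' :=
    (continuousAt_id.norm.eventually_lt continuousAt_const ht).mono fun _ h => PR.refl h
  ⟨⟨id, analyticAt_id, rfl, h⟩, id, analyticAt_id, rfl, h⟩

/-- the relation is open -/
theorem HR.germ (hT : Z.TR) (h : HR N.1 N'.1 γ t u) : ∃ f g : Cm Φ.q → Cm Φ.q,
    AnalyticAt ℂ f u ∧ AnalyticAt ℂ g t ∧ f u = t ∧ g t = u ∧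
      ∀ᶠ u' in 𝓝 u, g (f u') = u' ∧ HR N.1 N'.1 γ (f u') u' := by
  obtain ⟨⟨f, h1, rfl, h2⟩, g, h3, h4, h5⟩ := h
  refine ⟨f, g, h1, h3, rfl, h4, ?_⟩
  filter_upwards [h1.eventually_analyticAt, h2.eventually_nhds,
    h1.continuousAt.eventually h3.eventually_analyticAt,
    h1.continuousAt.eventually h5.eventually_nhds] with u' a1 a2 a3 a4
  have a5 := a4.self_of_nhds.uniq' hT a2.self_of_nhds
  exact ⟨a5, ⟨f, a1, rfl, a2⟩, g, a3, a5, a4⟩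

/-- almost all points of the nice charts are good -/
def Ae (Φ : FD Z) : Prop :=
  ∀ N : Ch Φ, ∀ᵐ v : Cm Φ.d × Cm Φ.q, v ∈ ball 0 N.1.R → 0 < L.F (N.1.Ψ.symm v)

theorem HR.trans_pr (hT : Z.TR) (hA : Ae Φ) (h : HR N.1 N'.1 γ t u) (h' : HR N'.1 N''.1 γ' u w) :
    PR N.1 N''.1 (γ * γ') t w := by
  obtain ⟨f, g, h1, h2, rfl, h3, h4⟩ := h.germ hT
  obtain ⟨f', g', h5, h6, rfl, h7, h8⟩ := h'.germ hT
  have := nhds_ae (volume : Measure (Cm Φ.q)) w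
  have a1 := h5.continuousAt.eventually h4
  have a2 := ae_pull volume h5.continuousAt (h6.eventually_analyticAt.mono fun _ h =>
    h.differentiableAt.restrictScalars ℝ) (h8.mono fun _ h => h.1)
  have a3 := ae_pull volume (h := f ∘ f') (g := g' ∘ g) (h1.comp h5).continuousAt
    ((AnalyticAt.comp (h3.symm ▸ h6) h2).eventually_analyticAt.mono fun _ h =>
      h.differentiableAt.restrictScalars ℝ)
    ((a1.and h8).mono fun x h => by simp only [Function.comp, h.1.1, h.2.1])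
  refine PR.of_freq (𝓕 := 𝓝 w ⊓ ae volume) (f := f ∘ f') (g := id) h.pr.1 h'.pr.2.1
    ((h1.comp h5).continuousAt.tendsto.mono_left inf_le_left) (tendsto_id.mono_left inf_le_left)
    (Eventually.frequently ?_)
  filter_upwards [mem_inf_of_left a1, mem_inf_of_left h8, a3.eventually (gd_ae (hA N)),
    a2.eventually (gd_ae (hA N')), mem_inf_of_right (gd_ae (hA N''))] with x b1 b2 b3 b4 b5
  exact b1.2.pr.trans hT b2.2.pr b3 b4 b5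

theorem HR.trans_half (hT : Z.TR) (hA : Ae Φ) (h : HR N.1 N'.1 γ t u)
    (h' : HR N'.1 N''.1 γ' u w) : ∃ f : Cm Φ.q → Cm Φ.q, AnalyticAt ℂ f w ∧ f w = t ∧
      ∀ᶠ x in 𝓝 w, PR N.1 N''.1 (γ * γ') (f x) x := by
  obtain ⟨f, g, h1, -, rfl, -, h4⟩ := h.germ hT
  obtain ⟨f', g', h5, -, rfl, -, h8⟩ := h'.germ hT
  exact ⟨f ∘ f', h1.comp h5, rfl, ((h5.continuousAt.eventually h4).and h8).mono fun x k =>
    k.1.2.trans_pr hT hA k.2.2⟩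

theorem HR.of_half
    (h : ∃ f : Cm Φ.q → Cm Φ.q, AnalyticAt ℂ f u ∧ f u = t ∧ ∀ᶠ x in 𝓝 u, PR N.1 N'.1 γ (f x) x)
    (h' : ∃ f : Cm Φ.q → Cm Φ.q, AnalyticAt ℂ f t ∧ f t = u ∧
      ∀ᶠ x in 𝓝 t, PR N'.1 N.1 γ⁻¹ (f x) x) : HR N.1 N'.1 γ t u :=
  ⟨h, h'.imp fun _ k => ⟨k.1, k.2.1, k.2.2.mono fun _ k => by simpa only [inv_inv] using k.symm⟩⟩

theorem HR.trans (hT : Z.TR) (hA : Ae Φ) (h : HR N.1 N'.1 γ t u) (h' : HR N'.1 N''.1 γ' u w) :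
    HR N.1 N''.1 (γ * γ') t w :=
  HR.of_half (h.trans_half hT hA h') (by
    rw [mul_inv_rev]
    exact h'.symm.trans_half hT hA h.symm)

theorem HR.ov_half (hT : Z.TR) (hA : Ae Φ) {y : E} (hy : y ∈ N'.1.Ψ.source)
    (hy' : γ • y ∈ N.1.Ψ.source) : ∃ f : Cm Φ.q → Cm Φ.q, AnalyticAt ℂ f (N'.1.Ψ y).2 ∧
      f (N'.1.Ψ y).2 = (N.1.Ψ (γ • y)).2 ∧ ∀ᶠ x in 𝓝 (N'.1.Ψ y).2, PR N.1 N'.1 γ (f x) x := by
  have e0 : N'.1.Ψ.symm ((N'.1.Ψ y).1, (N'.1.Ψ y).2) = y := N'.1.Ψ.left_inv hy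
  have e1 : ((N'.1.Ψ y).1, (N'.1.Ψ y).2) ∈ N'.1.Ψ.target := N'.1.Ψ.map_source hy
  have e2 : ContinuousAt (fun x => ((N'.1.Ψ y).1, x)) (N'.1.Ψ y).2 := by fun_prop
  refine ⟨fun x => (N.1.Ψ (γ • N'.1.Ψ.symm ((N'.1.Ψ y).1, x))).2, analyticAt_snd.comp
    ((an_of_hol N.1.hol γ e1 (by rwa [e0])).comp (f := fun x => ((N'.1.Ψ y).1, x))
      (analyticAt_const.prod analyticAt_id)), congrArg (fun y => (N.1.Ψ (γ • y)).2) e0, ?_⟩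
  filter_upwards [e2.eventually_mem (N'.1.Ψ.open_target.mem_nhds e1),
    ((cont_symm γ e1).comp e2).eventually_mem (N.1.Ψ.open_source.mem_nhds
      (show γ • N'.1.Ψ.symm ((N'.1.Ψ y).1, (N'.1.Ψ y).2) ∈ _ by rwa [e0]))] with x h1 h2
  have := PR.ov hT (hA N) (hA N') (N'.1.Ψ.map_target h1) h2
  rwa [N'.1.Ψ.right_inv h1] at this

theorem HR.ov (hT : Z.TR) (hA : Ae Φ) {y : E} (hy : y ∈ N'.1.Ψ.source)
    (hy' : γ • y ∈ N.1.Ψ.source) : HR N.1 N'.1 γ (N.1.Ψ (γ • y)).2 (N'.1.Ψ y).2 :=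
  HR.of_half (HR.ov_half hT hA hy hy') (by
    have := HR.ov_half (γ := γ⁻¹) hT hA hy' (N := N') (by rwa [inv_smul_smul])
    rwa [inv_smul_smul] at this)

theorem HR.closed_half (hG : StGraph) (hT : Z.TR) (ht : ‖t‖ < N.1.R) (hu : ‖u‖ < N'.1.R)
    (h : ∃ᶠ x in 𝓝 (u, t), HR N.1 N'.1 γ x.2 x.1) : ∃ f : Cm Φ.q → Cm Φ.q, AnalyticAt ℂ f u ∧
      f u = t ∧ ∀ᶠ x in 𝓝 u, PR N.1 N'.1 γ (f x) x := by
  obtain ⟨S, h1, h2⟩ := PR.an N.1 N'.1 γ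
  refine hG _ _ _ S {x | PR N.1 N'.1 γ x.2 x.1} (u, t) (isOpen_ball.prod isOpen_ball) h1 h2
    (PR.of_freq ht hu continuousAt_snd continuousAt_fst (h.mono fun _ k => k.pr))
    (fun _ _ _ k k' => PR.uniq hT k k') fun V hV => ?_
  obtain ⟨x, hx, hx'⟩ := (h.and_eventually (eventually_mem_nhds_iff.2 hV)).exists
  obtain ⟨f, g, h3, -, h4, -, h5⟩ := hx.germ hT
  refine ⟨x.1, mem_interior_iff_mem_nhds.2 ?_⟩
  filter_upwards [h5, (continuousAt_id.prodMk h3.continuousAt).eventually_mem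
    (show V ∈ 𝓝 (x.1, f x.1) by rwa [h4])] with y h6 h7
  exact ⟨(y, f y), ⟨h6.2.pr, h7⟩, rfl⟩

/-- the relation is closed -/
theorem HR.closed (hG : StGraph) (hT : Z.TR) (ht : ‖t‖ < N.1.R) (hu : ‖u‖ < N'.1.R)
    (h : ∃ᶠ x in 𝓝 (u, t), HR N.1 N'.1 γ x.2 x.1) : HR N.1 N'.1 γ t u :=
  HR.of_half (HR.closed_half hG hT ht hu h) (HR.closed_half hG hT hu ht
    ((continuous_swap.tendsto (u, t)).frequently_map _ (fun _ k => k.symm) h))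

/-- extension to balls of uniform size -/
theorem HR.ext (hG : StGraph) (hT : Z.TR) {r r' ε δ : ℝ} (hr : r + ε < N.1.R)
    (hr' : r' + δ < N'.1.R) (hε : 0 < ε)
    (hE : ∀ t₁ t₂ u₁ u₂ : Cm Φ.q, ‖t₁‖ ≤ r + ε → ‖t₂‖ ≤ r + ε → ‖u₁‖ ≤ r' + δ → ‖u₂‖ ≤ r' + δ →
      ‖u₁ - u₂‖ < δ → PR N.1 N'.1 γ t₁ u₁ → PR N.1 N'.1 γ t₂ u₂ → ‖t₁ - t₂‖ < ε / 2)
    (h : HR N.1 N'.1 γ t u) (ht : ‖t‖ ≤ r) (hu : ‖u‖ ≤ r') :
    ∀ u' ∈ ball u δ, ∃ t', ‖t' - t‖ < ε ∧ HR N.1 N'.1 γ t' u' := by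
  intro u₀ hu₀
  have hδ : 0 < δ := pos_of_mem_ball hu₀
  have n1 : ∀ t', ‖t' - t‖ ≤ ε → ‖t'‖ ≤ r + ε := fun t' k => by
    linarith [norm_le_norm_sub_add t' t]
  have n2 : ∀ u' ∈ ball u δ, ‖u'‖ ≤ r' + δ := fun u' k => by
    linarith [norm_le_norm_sub_add u' u, mem_ball_iff_norm.1 k]
  let A : Set (Cm Φ.q) := {u' | ∃ t', ‖t' - t‖ < ε ∧ HR N.1 N'.1 γ t' u'}
  have hA : IsOpen A := isOpen_iff_eventually.2 fun u' ⟨t', k1, k2⟩ => by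
    obtain ⟨f, g, h3, -, rfl, -, h5⟩ := k2.germ hT
    filter_upwards [h5, (h3.continuousAt.sub_const t).norm.eventually_lt continuousAt_const k1]
      with y h6 h7
    exact ⟨f y, h7, h6.2⟩
  refine (convex_ball u δ).isPreconnected.subset_of_closure_inter_subset hA
    ⟨u, mem_ball_self hδ, t, by simpa using hε, h⟩ (fun u' ⟨k1, k2⟩ => ?_) hu₀
  obtain ⟨x, x1, x2⟩ := mem_closure_iff_seq_limit.1 (isOpen_ball.inter_closure ⟨k2, k1⟩)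
  choose y y1 y2 using fun m => (x1 m).2
  have y3 : ∀ m, y m ∈ closedBall t (ε / 2) := fun m => mem_closedBall_iff_norm.2
    (hE _ _ _ _ (n1 _ (y1 m).le) (by linarith) (n2 _ (x1 m).1) (by linarith)
      (mem_ball_iff_norm.1 (x1 m).1) (y2 m).pr h.pr).le
  obtain ⟨t', t1, φ, hφ, t2⟩ := (isCompact_closedBall t (ε / 2)).tendsto_subseq y3
  have t3 : ‖t' - t‖ < ε := (mem_closedBall_iff_norm.1 t1).trans_lt (by linarith)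
  exact ⟨t', t3, HR.closed hG hT ((n1 _ t3.le).trans_lt hr) ((n2 _ k2).trans_lt hr')
    (((x2.comp hφ.tendsto_atTop).prodMk_nhds t2).frequently (Frequently.of_forall fun m => y2 _))⟩

open Classical in
/-- the holonomy map -/
def hm (N N' : Ch Φ) (γ : Γ) (u : Cm Φ.q) : Cm Φ.q :=
  if h : ∃ t, HR N.1 N'.1 γ t u then h.choose else 0

theorem HR.hm_eq (hT : Z.TR) (h : HR N.1 N'.1 γ t u) : hm N N' γ u = t := by
  have h' : ∃ t, HR N.1 N'.1 γ t u := ⟨t, h⟩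
  rw [hm, dif_pos h']
  exact h'.choose_spec.pr.uniq hT h.pr

theorem grp (hE : StEq) (hA : StAe) (hG : StGraph) : StGrp := by
  intro n Γ E _ _ _ _ _ _ C D L Z hS hT Φ
  have hA : Ae Φ := fun N => (hA n Γ E C D L Z _ _ _ Φ.dim N.1).mono fun v h hv => (h hv).1
  have ov : ∀ (N N' : Ch Φ) (γ : Γ), ∀ y ∈ N'.1.Ψ.source, γ • y ∈ N.1.Ψ.source →
      ∃ t, HR N.1 N'.1 γ t (N'.1.Ψ y).2 := fun N N' γ y h h' => ⟨_, HR.ov hT hA h h'⟩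
  refine ⟨⟨⟨fun N => N.1.R, fun N N' γ => {u | ∃ t, HR N.1 N'.1 γ t u}, hm, ?_, ?_, ?_, ?_, ?_, ?_,
    ?_, ?_⟩, fun _ => rfl, ?_, fun N N' γ y h h' => ⟨ov N N' γ y h h', (HR.ov hT hA h h').hm_eq hT⟩⟩⟩
  · rintro N N' γ u ⟨t, h⟩
    rw [h.hm_eq hT]
    exact ⟨h.pr.2.1, h.pr.1⟩
  · rintro N N' γ u ⟨t, h⟩
    obtain ⟨f, g, h1, -, -, -, h2⟩ := h.germ hT
    exact h1.congr (h2.mono fun x k => (k.2.hm_eq hT).symm)
  · exact fun N u hu => ⟨⟨u, HR.refl hu⟩, (HR.refl hu).hm_eq hT⟩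
  · rintro N N' N'' γ γ' w ⟨u, h'⟩ ⟨t, h⟩
    rw [h'.hm_eq hT] at h ⊢
    rw [h.hm_eq hT]
    exact ⟨⟨t, h.trans hT hA h'⟩, (h.trans hT hA h').hm_eq hT⟩
  · rintro N N' γ u ⟨t, h⟩
    rw [h.hm_eq hT]
    exact ⟨u, h.symm⟩
  · intro N N' r hr r' hr' ε hε
    obtain ⟨e, e0, e1, e2⟩ : ∃ e > (0 : ℝ), e ≤ ε ∧ r + e < N.1.R :=
      ⟨min ε ((N.1.R - r) / 2), lt_min hε (by linarith), min_le_left _ _,
        by linarith [min_le_right ε ((N.1.R - r) / 2)]⟩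
    obtain ⟨δ, hδ, h⟩ := hE n Γ E C D L Z hS Φ N N' _ e2 ((r' + N'.1.R) / 2) (by linarith) (e / 2)
      (by linarith)
    have d1 := min_le_left δ ((N'.1.R - r') / 2)
    have d2 := min_le_right δ ((N'.1.R - r') / 2)
    refine ⟨min δ ((N'.1.R - r') / 2), lt_min hδ (by linarith), ?_⟩
    rintro γ u ⟨t, k⟩ hu ht u' hu'
    rw [k.hm_eq hT] at ht ⊢
    obtain ⟨t', k1, k2⟩ := HR.ext hG hT e2 (by linarith) e0 (fun t₁ t₂ u₁ u₂ a1 a2 a3 a4 a5 =>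
      h γ t₁ t₂ u₁ u₂ a1 a2 (by linarith) (by linarith) (by linarith)) k ht hu u' hu'
    rw [k2.hm_eq hT]
    exact ⟨⟨t', k2⟩, k1.trans_le e1⟩
  · intro P hP N N' hN'
    have ho : ∀ Q : Ch Φ → Prop, IsOpen (⋃ M ∈ {M | Q M}, M.1.Ψ.source) := fun Q =>
      isOpen_biUnion fun M _ => M.1.Ψ.open_source
    have h0 : ∀ M : Ch Φ, M.1.Ψ.symm (0, 0) ∈ M.1.Ψ.source := fun M =>
      src (zero_lt _) (norm_zero.trans_lt M.1.R_pos)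
    by_contra hN
    obtain ⟨y, -, h1, h2⟩ := Φ.conn _ _ (ho P) (ho fun M => ¬ P M) (fun y hy => by
      obtain ⟨M, h1, -, h2⟩ := Φ.nice y hy univ univ_mem
      by_cases h : P ⟨M, h2.trans inter_subset_left⟩
      · exact Or.inl (mem_biUnion h h1)
      · exact Or.inr (mem_biUnion h h1))
      ⟨_, N'.2 (h0 N'), mem_biUnion hN' (h0 N')⟩ ⟨_, N.2 (h0 N), mem_biUnion hN (h0 N)⟩
    obtain ⟨M, h3, h4⟩ := mem_iUnion₂.1 h1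
    obtain ⟨M', h5, h6⟩ := mem_iUnion₂.1 h2
    exact h5 (hP M' M ⟨_, ov M' M 1 y h4 (by rwa [one_smul])⟩ h3)
  · intro a N
    have h0 : N.1.Ψ.symm (0, 0) ∈ N.1.Ψ.source := src (zero_lt _) (norm_zero.trans_lt N.1.R_pos)
    obtain ⟨M, h1, -, h2⟩ := Φ.nice _ (Φ.inv a⁻¹ _ (N.2 h0)) univ univ_mem
    exact ⟨⟨M, h2.trans inter_subset_left⟩, _, ov N ⟨M, _⟩ a _ h1 (by rwa [smul_inv_smul])⟩
  · rintro N N' γ u ⟨t, h⟩
    show PR _ _ γ (hm N N' γ u) u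
    rw [h.hm_eq hT]
    exact h.pr

end Vale.Agent.P284Y.D.H
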