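import Vale.Agent.P284Y.D.HPre
import Vale.Agent.P284Y.D.HEq
import Vale.Agent.P284Y.D.HAe
import Vale.Agent.P284Z.G.Graph

/-!
# P284: block H, the tube and the holonomy
-/

namespace Vale.Agent.P284Y.D

open Vale.Agent.P284Z

theorem stH : StH := H.stH_pre H.eq_ H.ae_ H.rei G.graph

end Vale.Agent.P284Y.D
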