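import Vale.Agent.P284Y.YD
import Vale.Agent.P284Y.Lib.Rich
import Vale.Agent.P284Z.K.Bas
import Vale.Agent.P284Z.J.JB

/-!
# P284Y, row D: smooth global functions close to the local functions of the block Y
-/

set_option linter.all false

open scoped ContDiff Topology
open Filter Set Function Metric

noncomputable section

namespace Vale.Agent.P284Y.In

open Vale.Agent.P272.K Vale.Agent.P284Z Vale.Agent.P284Z.J Vale.Agent.P284Y.Lib

variable {n : ℕ} {Γ E : Type} [Group Γ] [TopologicalSpace E] [MulAction Γ E]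

/-- smooth global data -/
structure SD {C : Cov n Γ E} (Y : YF C) where
  A : ℝ
  Al : ℕ → ℝ
  K : ℝ
  Kl : ℕ → ℝ
  g : ℕ → E → ℝ
  G : ℕ → ℕ → E → E → ℝ
  A_pos : 0 < A
  Al_pos : ∀ l, 0 < Al l
  Kl_pos : ∀ l, 0 < Kl l
  g_sm : ∀ j y, C.SmAt (g j) y
  g_psh : ∀ j γ a, Psh (fun z => A * C.ρ a z + g j (C.pt γ a z)) (C.B 4 a)
  g_inv : ∀ j (γ : Γ) y, g j (γ • y) = g j y
  g_near : ∀ j γ a, ∀ z ∈ C.B 2 a, |g j (C.pt γ a z) - Y.f j a z 1| ≤ K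
  G_sm : ∀ l j, Sm₂ C (G l j)
  G_psh : ∀ l j, QP₂ C (Al l) (G l j)
  G_inv : ∀ l j (γ : Γ) x y, G l j (γ • x) (γ • y) = G l j x y
  G_symm : ∀ l j x y, G l j x y = G l j y x
  G_le : ∀ l j x y, G l j x y ≤ g j x + g j y + Kl l
  G_near : ∀ l j, l ≤ j → ∀ γ a γ' b, ∀ x ∈ C.B 2 a, ∀ y ∈ C.B 2 b,
    |G l j (C.pt γ a x) (C.pt γ' b y) -
      (Y.f j a x 1 + Y.f j b y 1 + Y.ut l j γ a x γ' b y)| ≤ Kl l

theorem fr_one {R : ℝ} (h : 0 ≤ R) : Fr R (1 : Mx n) := fun u => by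
  rw [Matrix.one_mulVec]
  exact ⟨mul_le_of_le_one_left (K.nsq_nonneg u) (Real.exp_le_one_iff.2 (by linarith)),
    le_mul_of_one_le_left (K.nsq_nonneg u) (Real.one_le_exp (by linarith))⟩

theorem nsq_cont : Continuous (nsq : Cm n → ℝ) := by
  simpa using (K.sm_nsq (0 : Cm n)).continuous

variable (C : Cov n Γ E)

theorem B52 (a : C.I) : C.B (5 / 2) a ⊆ C.B 4 a := C.B_mono (by norm_num) a

theorem B25 (a : C.I) : C.B 2 a ⊆ C.B (5 / 2) a := C.B_mono (by norm_num) a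

theorem B12 (a : C.I) : C.B 1 a ⊆ C.B 2 a := C.B_mono (by norm_num) a

theorem dom_cont (s t : ℝ) (a : C.I) :
    ContinuousOn (fun z => s * C.ρ a z - t * nsq z) (C.B (5 / 2) a) :=
  (((C.ρ_cont a).mono (B52 C a)).const_mul s).sub (nsq_cont.const_mul t).continuousOn

theorem dom : ∃ c > (0 : ℝ), ∀ t s, 0 ≤ t → c * t ≤ s → ∀ a,
    Psh (fun z => s * C.ρ a z - t * nsq z) (C.B (5 / 2) a) := by
  choose c hc h using fun a => K.rho_dom (C := C) a (C.isCompact_cB (5 / 2) a)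
    (C.cB_sub_B (by norm_num) a) (A := fun _ => 1) continuousOn_const
    fun _ _ => Matrix.isHermitian_one
  have h0 : ∀ a, 0 ≤ c a := fun a => zero_le_one.trans (hc a)
  refine ⟨∑ a, c a + 1, add_pos_of_nonneg_of_pos (Finset.sum_nonneg fun a _ => h0 a) one_pos,
    fun t s ht hs a => ?_⟩
  have h1 : c a ≤ ∑ a, c a := Finset.single_le_sum (fun a _ => h0 a) (Finset.mem_univ a)
  have h2 : Psh (fun z => c a * C.ρ a z + -1 * nsq (z - 0)) (C.B (5 / 2) a) := by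
    refine psh_of_cHess fun z hz => ?_
    have e1 : ContDiffAt ℝ 2 (fun z => c a * C.ρ a z) z :=
      contDiffAt_const.mul (K.two (C.ρ_sm a z (B52 C a hz)))
    have e2 : ContDiffAt ℝ 2 (fun z : Cm n => nsq (z - 0)) z := K.two (K.sm_nsq 0).contDiffAt
    refine ⟨e1.add (contDiffAt_const.mul e2), ?_⟩
    rw [C2.cHess_add e1 (contDiffAt_const.mul e2), C2.cHess_const_mul _ e2,
      C2.cHess_const_mul _ (K.two (C.ρ_sm a z (B52 C a hz))), jb.hess_nsq]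
    simpa [sub_eq_add_neg] using h a z (C.B_sub_cB _ a hz)
  have h3 : 0 ≤ s - t * c a := by nlinarith
  refine ((h2.const_mul ht).add (((C.ρ_psh a).mono (B52 C a)).const_mul h3)
    (LB.of_cont ((dom_cont C (t * c a) t a).congr fun z _ => by simp only [sub_zero]; ring))
    (((C.ρ_lb a).mono (B52 C a)).const_mul h3)).congr fun z _ => ?_
  simp only [sub_zero]
  ring

variable {C} {p : ℕ} {V : ℕ → Set E} {sh : ℕ → E → Cm p} (Y : YD C V sh)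

theorem e_bd : ∃ e₀ > (0 : ℝ), ∀ j, Y.e j ≤ e₀ := by
  obtain ⟨M, hM⟩ := Y.e_tend.bddAbove_range
  exact ⟨M, (Y.e_pos 0).trans_le (hM ⟨0, rfl⟩), fun j => hM ⟨j, rfl⟩⟩

theorem N1 (l : ℕ) : (2 : ℝ) ≤ Y.N l + 1 := by
  have : (1 : ℝ) ≤ Y.N l := by exact_mod_cast Y.N_pos l
  linarith

/-- the symmetric two point function -/
def vt (l j : ℕ) (γ : Γ) (a : C.I) (γ' : Γ) (b : C.I) (q : Cm n × Cm n) : ℝ :=
  (Y.N l + 1 : ℝ)⁻¹ * (Y.v l j a q.1 (γ⁻¹ * γ') b q.2 1 + Y.v l j b q.2 (γ'⁻¹ * γ) a q.1 1)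

theorem vt_eq (l j : ℕ) (γ : Γ) (a : C.I) (γ' : Γ) (b : C.I) (x y : Cm n) :
    vt Y l j γ a γ' b (x, y) = Y.f j a x 1 + Y.f j b y 1 + Y.ut l j γ a x γ' b y := by
  have := N1 Y l
  simp only [vt, YF.ut, YF.u]
  field_simp
  ring

theorem ut_le {l j : ℕ} (h : l ≤ j) (γ : Γ) {a : C.I} (γ' : Γ) {b : C.I} {x y : Cm n}
    (hx : x ∈ C.B (5 / 2) a) (hy : y ∈ C.B (5 / 2) b) : Y.ut l j γ a x γ' b y ≤ Y.e j := by
  have h0 := N1 Y l
  have h1 := Y.v_le l j h a (γ⁻¹ * γ') b 1 (fr_one (Y.R_nonneg j)) x hx y hy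
  have h2 := Y.v_le l j h b (γ'⁻¹ * γ) a 1 (fr_one (Y.R_nonneg j)) y hy x hx
  rw [YF.ut, YF.u, YF.u, div_le_iff₀ (by linarith)]
  nlinarith [Y.e_pos j]

theorem vt_cont {l j : ℕ} (h : l ≤ j) (γ : Γ) (a : C.I) (γ' : Γ) (b : C.I) :
    ContinuousOn (vt Y l j γ a γ' b) (C.B (5 / 2) a ×ˢ C.B (5 / 2) b) :=
  ((Y.v_cont l j h a _ b 1 (fr_one (Y.R_nonneg j))).add
    ((Y.v_cont l j h b _ a 1 (fr_one (Y.R_nonneg j))).comp (f := Prod.swap)
      continuous_swap.continuousOn fun _ hq => ⟨hq.2, hq.1⟩)).const_mul _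

theorem vt_psh {l j : ℕ} (h : l ≤ j) (γ : Γ) (a : C.I) (γ' : Γ) (b : C.I) :
    Psh (fun q => vt Y l j γ a γ' b q + (Y.N l + 1 : ℝ)⁻¹ * (2 * Y.e j) * (nsq q.1 + nsq q.2))
      (C.B (5 / 2) a ×ˢ C.B (5 / 2) b) := by
  have h0 := fr_one (n := n) (Y.R_nonneg j)
  have hc : Continuous fun q : Cm n × Cm n => Y.e j * (nsq q.1 + nsq q.2) :=
    ((nsq_cont.comp continuous_fst).add (nsq_cont.comp continuous_snd)).const_mul _
  have h1 := ((Y.v_psh l j h b (γ'⁻¹ * γ) a 1 h0).affine 0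
    (ContinuousLinearEquiv.prodComm ℂ (Cm n) (Cm n)).toContinuousLinearMap).mono
    (U' := C.B (5 / 2) a ×ˢ C.B (5 / 2) b) fun q hq => by simpa using ⟨hq.2, hq.1⟩
  simp only [zero_add, ContinuousLinearEquiv.coe_coe, ContinuousLinearEquiv.prodComm_apply,
    Prod.fst_swap, Prod.snd_swap] at h1
  refine (((Y.v_psh l j h a (γ⁻¹ * γ') b 1 h0).add h1
    (.of_cont ((Y.v_cont l j h a _ b 1 h0).add hc.continuousOn))
    (.of_cont (((Y.v_cont l j h b _ a 1 h0).add hc.continuousOn).comp (f := Prod.swap)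
      continuous_swap.continuousOn fun _ hq => ⟨hq.2, hq.1⟩))).const_mul
    (c := (Y.N l + 1 : ℝ)⁻¹) (by positivity)).congr fun q _ => ?_
  simp only [vt]
  ring

theorem vt_gap {l j : ℕ} (h : l ≤ j) {γ γ' γ₁ γ₁' : Γ} {a b a₁ b₁ : C.I} {q q₁ : Cm n × Cm n}
    (hq : q ∈ C.B 2 a ×ˢ C.B 2 b) (hq₁ : q₁ ∈ C.B 2 a₁ ×ˢ C.B 2 b₁)
    (e : C.pt γ a q.1 = C.pt γ₁ a₁ q₁.1) (e' : C.pt γ' b q.2 = C.pt γ₁' b₁ q₁.2) :
    vt Y l j γ a γ' b q ≤ vt Y l j γ₁ a₁ γ₁' b₁ q₁ + (|Y.Kl l| + 1) := by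
  have k : ∀ {γ γ₁ : Γ} {a a₁ : C.I} {x x₁ : Cm n} (g : Γ), C.pt γ a x = C.pt γ₁ a₁ x₁ →
      C.pt (g * γ) a x = C.pt (g * γ₁) a₁ x₁ := fun g e => by rw [← C.smul_pt, e, C.smul_pt]
  have h1 := Y.v_ch l j h (γ⁻¹ * γ₁) a a₁ (γ⁻¹ * γ') (γ₁⁻¹ * γ₁') b b₁ _ (B25 C a hq.1) _
    (B25 C _ hq₁.1) _ (B25 C b hq.2) _ (B25 C _ hq₁.2) (by simpa using k γ⁻¹ e)
    (by simpa [mul_assoc] using k γ⁻¹ e')
  have h2 := Y.v_ch l j h (γ'⁻¹ * γ₁') b b₁ (γ'⁻¹ * γ) (γ₁'⁻¹ * γ₁) a a₁ _ (B25 C b hq.2) _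
    (B25 C _ hq₁.2) _ (B25 C a hq.1) _ (B25 C _ hq₁.1) (by simpa using k γ'⁻¹ e')
    (by simpa [mul_assoc] using k γ'⁻¹ e)
  have h3 := N1 Y l
  have h4 : (Y.N l + 1 : ℝ)⁻¹ * (2 * |Y.Kl l|) ≤ |Y.Kl l| := by
    rw [inv_mul_le_iff₀ (by linarith)]
    exact mul_le_mul_of_nonneg_right h3 (abs_nonneg _)
  have h5 := mul_le_mul_of_nonneg_left (add_le_add h1 h2) (show (0 : ℝ) ≤ (Y.N l + 1 : ℝ)⁻¹ by
    positivity)
  have h6 := mul_le_mul_of_nonneg_left (le_abs_self (Y.Kl l))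
    (show (0 : ℝ) ≤ (Y.N l + 1 : ℝ)⁻¹ by positivity)
  simp only [vt]
  nlinarith

theorem exists_sd [T2Space E] [Countable Γ] : Nonempty (SD Y.toYF) := by
  obtain ⟨c, hc, hd⟩ := dom C
  obtain ⟨e₀, he, hb⟩ := e_bd Y
  obtain ⟨K₁, k1, H₁⟩ := glc C
  obtain ⟨K₂, k2, H₂⟩ := glc₂ C
  have h0 := fun j => fr_one (n := n) (Y.R_nonneg j)
  choose g g1 g2 g3 g4 using fun j => H₁ (c * e₀) (|Y.K| + 1) (5 / 2) (fun _ a z => Y.f j a z 1)
    (by positivity) (by norm_num) (by norm_num) (fun _ a => Y.f_cont j a 1 (h0 j))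
    (fun _ a => ((hd (Y.e j) (c * e₀) (Y.e_pos j).le (mul_le_mul_of_nonneg_left (hb j) hc.le)
      a).add (Y.f_psh j a 1 (h0 j)) (.of_cont (dom_cont C _ _ a))
      (.of_cont ((Y.f_cont j a 1 (h0 j)).add (nsq_cont.const_mul _).continuousOn))).congr
      fun z _ => by ring)
    fun γ a γ' b z hz z' hz' e => by
      have := Y.f_ch j (γ'⁻¹ * γ) a b z (B25 C a hz) z' (B25 C b hz')
        (by rw [← C.smul_pt, e, C.smul_pt, inv_mul_cancel])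
      linarith [le_abs_self Y.K]
  set A := c * e₀ + K₁ * (|Y.K| + 1)
  have hA : 0 < A := by positivity
  have g5 : ∀ j γ a, Psh (fun z => A * C.ρ a z + g j (C.pt γ a z)) (C.B 4 a) := fun j γ a =>
    psh_of_cHess fun z hz => ⟨(contDiffAt_const.mul (K.two (C.ρ_sm a z hz))).add
      (K.two (g1 j _ γ a z hz rfl)), g2 j γ a z hz⟩
  have g6 : ∀ j γ a, ContinuousOn (fun z => A * C.ρ a z + g j (C.pt γ a z)) (C.B 4 a) :=
    fun j γ a => ((C.ρ_cont a).const_mul A).add fun z hz =>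
      (g1 j _ γ a z hz rfl).continuousAt.continuousWithinAt
  have key : ∀ l j, ∃ G : E → E → ℝ, Sm₂ C G ∧ QP₂ C (A + K₂ * (|Y.Kl l| + 1)) G ∧
      (∀ (γ : Γ) x y, G (γ • x) (γ • y) = G x y) ∧ (∀ x y, G x y = G y x) ∧
      (∀ x y, G x y ≤ g j x + g j y + (K₂ * (|Y.Kl l| + 1) + 2 * (K₁ * (|Y.K| + 1)) + e₀)) ∧
      (l ≤ j → ∀ γ a γ' b, ∀ x ∈ C.B 2 a, ∀ y ∈ C.B 2 b, |G (C.pt γ a x) (C.pt γ' b y) -
        (Y.f j a x 1 + Y.f j b y 1 + Y.ut l j γ a x γ' b y)| ≤ K₂ * (|Y.Kl l| + 1)) := by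
    intro l j
    by_cases h : l ≤ j
    · have t0 : 0 ≤ (Y.N l + 1 : ℝ)⁻¹ * (2 * Y.e j) := by
        have := Y.e_pos j
        positivity
      have t1 : c * ((Y.N l + 1 : ℝ)⁻¹ * (2 * Y.e j)) ≤ A := by
        have : (Y.N l + 1 : ℝ)⁻¹ * (2 * Y.e j) ≤ e₀ := by
          rw [inv_mul_le_iff₀ (by positivity)]
          exact mul_le_mul (N1 Y l) (hb j) (Y.e_pos j).le (by positivity)
        exact (mul_le_mul_of_nonneg_left this hc.le).trans (le_add_of_nonneg_right (by positivity))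
      obtain ⟨G, a1, a2, a3, a4, a5⟩ := H₂ A (|Y.Kl l| + 1) (5 / 2) (vt Y l j) (by positivity)
        (by norm_num) (by norm_num) (vt_cont Y h) (fun γ a γ' b => by
          have c1 := (dom_cont C A ((Y.N l + 1 : ℝ)⁻¹ * (2 * Y.e j)) a).comp
            (s := C.B (5 / 2) a ×ˢ C.B (5 / 2) b) continuousOn_fst fun _ h => h.1
          have c2 := (dom_cont C A ((Y.N l + 1 : ℝ)⁻¹ * (2 * Y.e j)) b).comp
            (s := C.B (5 / 2) a ×ˢ C.B (5 / 2) b) continuousOn_snd fun _ h => h.2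
          refine ((((hd _ A t0 t1 a).fst _).add ((hd _ A t0 t1 b).snd _) (.of_cont c1)
            (.of_cont c2)).add (vt_psh Y h γ a γ' b) (.of_cont (c1.add c2))
            (.of_cont ((vt_cont Y h γ a γ' b).add (((nsq_cont.comp continuous_fst).add
              (nsq_cont.comp continuous_snd)).const_mul _).continuousOn))).congr fun q _ => ?_
          simp only
          ring)
        fun γ a γ' b q hq γ₁ a₁ γ₁' b₁ q₁ hq₁ => vt_gap Y h hq hq₁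
      refine ⟨G, a1, a2, a4 fun g γ a γ' b => funext fun q => by simp [vt, mul_assoc],
        a5 fun γ a γ' b z z' => by simp only [vt, add_comm], fun x y => ?_,
        fun _ γ a γ' b x hx y hy => vt_eq Y l j γ a γ' b x y ▸ a3 γ a γ' b (x, y) ⟨hx, hy⟩⟩
      obtain ⟨γ, a, z, hz, rfl⟩ := C.exists_pt x
      obtain ⟨γ', b, w, hw, rfl⟩ := C.exists_pt y
      have b1 := (abs_le.1 (a3 γ a γ' b (z, w) ⟨B12 C a hz, B12 C b hw⟩)).2
      rw [vt_eq] at b1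
      linarith [(abs_le.1 (g3 j γ a z (B12 C a hz))).1, (abs_le.1 (g3 j γ' b w (B12 C b hw))).1,
        ut_le Y h γ γ' (B25 C a (B12 C a hz)) (B25 C b (B12 C b hw)), hb j]
    · have s : Sm₂ C fun x y => g j x + g j y := fun γ a γ' b q hq =>
        ((g1 j _ γ a _ hq.1 rfl).comp q contDiffAt_fst).add
          ((g1 j _ γ' b _ hq.2 rfl).comp q contDiffAt_snd)
      refine ⟨fun x y => g j x + g j y, s, QP₂.mono' C (A := A) (fun γ a γ' b => ?_) s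
        (le_add_of_nonneg_right (by positivity)), fun γ x y =>
          congrArg₂ _ (g4 j (fun _ _ => rfl) γ x) (g4 j (fun _ _ => rfl) γ y),
        fun x y => add_comm _ _,
        fun x y => le_add_of_nonneg_right (by positivity), fun h' => (h h').elim⟩
      refine (((g5 j γ a).fst _).add ((g5 j γ' b).snd _)
        (.of_cont ((g6 j γ a).comp continuousOn_fst fun _ h => h.1))
        (.of_cont ((g6 j γ' b).comp continuousOn_snd fun _ h => h.2))).congr fun q _ => ?_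
      simp only
      ring
  choose G a1 a2 a3 a4 a5 a6 using key
  exact ⟨⟨A, fun l => A + K₂ * (|Y.Kl l| + 1), K₁ * (|Y.K| + 1),
    fun l => K₂ * (|Y.Kl l| + 1) + 2 * (K₁ * (|Y.K| + 1)) + e₀, g, G, hA, fun l => by positivity,
    fun l => by positivity, g1, g5, fun j => g4 j fun _ _ => rfl, g3, a1, a2, a3, a4, a5,
    fun l j h γ a γ' b x hx y hy => (a6 l j h γ a γ' b x hx y hy).trans
      (by rw [add_assoc]; exact le_add_of_nonneg_right (by positivity))⟩⟩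

end Vale.Agent.P284Y.In
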