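import Vale.Agent.P284Y.D.In1
import Vale.Agent.P284Y.A.Lip
import Vale.Agent.P284Z.R.Amen

/-!
# P284Y, row D: tools for the level data
-/

set_option linter.all false

open scoped ContDiff Topology
open Filter Set Function Metric

noncomputable section

namespace Vale.Agent.P284Y.In

open Vale.Agent.P272.K Vale.Agent.P284Z Vale.Agent.P284Z.J Vale.Agent.P284Y.Lib Real

variable {n : ℕ} {Γ E : Type} [Group Γ] [TopologicalSpace E] [MulAction Γ E]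

theorem exists_anti (b : ℕ → ℝ) (hb : ∀ l, 0 < b l) :
    ∃ v : ℕ → ℝ, (∀ l, 0 < v l) ∧ Antitone v ∧ ∀ l, v l ≤ b l :=
  ⟨fun l => (Finset.range (l + 1)).inf' ⟨0, by simp⟩ b,
    fun l => (Finset.lt_inf'_iff _).2 fun i _ => hb i,
    fun l l' h => Finset.inf'_mono _ (Finset.range_mono (Nat.succ_le_succ h)) _,
    fun l => Finset.inf'_le _ (by simp)⟩

variable (C : Cov n Γ E)

/-- an equivariant choice of charts -/
theorem exists_sec : ∃ (σ : E → Γ) (α : E → C.I) (ζ : E → Cm n),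
    (∀ y, ζ y ∈ C.B 1 (α y) ∧ C.pt (σ y) (α y) (ζ y) = y) ∧
    ∀ (g : Γ) y, σ (g • y) = g * σ y ∧ α (g • y) = α y ∧ ζ (g • y) = ζ y := by
  have h : ∀ q : MulAction.orbitRel.Quotient Γ E, ∃ a, ∃ z ∈ C.B 1 a, ∀ y,
      Quotient.mk'' y = q → ∃ γ, C.pt γ a z = y := by
    rintro ⟨x⟩
    obtain ⟨γ, a, z, hz, rfl⟩ := C.exists_pt x
    refine ⟨a, z, hz, fun y e => ?_⟩
    obtain ⟨g, rfl⟩ := MulAction.orbitRel_apply.1 (Quotient.exact' e)
    exact ⟨g * γ, (C.smul_pt g γ a z).symm⟩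
  choose α ζ h1 h2 using h
  choose σ h3 using fun y => h2 _ y rfl
  have e : ∀ (g : Γ) y, (Quotient.mk'' (g • y) : MulAction.orbitRel.Quotient Γ E) =
      Quotient.mk'' y := fun g y => Quotient.sound' (MulAction.orbitRel_apply.2 ⟨g, rfl⟩)
  refine ⟨σ, fun y => α (Quotient.mk'' y), fun y => ζ (Quotient.mk'' y), fun y => ⟨h1 _, h3 y⟩,
    fun g y => ⟨?_, congrArg α (e g y), congrArg ζ (e g y)⟩⟩
  have h4 := h3 (g • y)
  rw [e] at h4
  exact (inv_mul_eq_one.1 (C.free ((g * σ y)⁻¹ * σ (g • y))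
    (C.pt 1 (α (Quotient.mk'' y)) (ζ (Quotient.mk'' y))) (by
      rw [C.smul_pt, mul_one, ← C.smul_pt, h4, inv_smul_eq_iff, C.smul_pt, mul_one, ← C.smul_pt,
        h3]))).symm

theorem pole_ext [T2Space E] {K κ c : ℝ} (hK : 0 ≤ K) (hc : 0 < c) (hκ : c ≤ κ) :
    ∃ K' : ℝ, ∀ (W : E → E → ℝ) (e : ℝ), 0 ≤ e → (∀ (γ : Γ) x y, W (γ • x) (γ • y) = W x y) →
      (∀ x y, W x y ≤ 1) → (∀ a, ∀ z ∈ C.B 2 a, ∀ z' ∈ C.B 2 a,
        W (C.pt 1 a z) (C.pt 1 a z') ≤ K * (‖z - z'‖ ^ κ + e)) →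
      ∀ a, ∀ z ∈ C.B 3 a, ∀ z' ∈ C.B 3 a,
        W (C.pt 1 a z) (C.pt 1 a z') ≤ K' * (‖z - z'‖ ^ c + e) := by
  obtain ⟨δ, hδ, L, hL, h⟩ := A.lip C (k := 3) (by norm_num)
  obtain ⟨r, hr, hr'⟩ := C.exists_r
  have L0 : 0 < L := by linarith
  obtain ⟨t, t0, t1, t2, t3⟩ : ∃ t > (0 : ℝ), t ≤ δ ∧ t ≤ 1 ∧ L * t ≤ r :=
    ⟨min (min δ 1) (r / L), by positivity, (min_le_left _ _).trans (min_le_left _ _),
      (min_le_left _ _).trans (min_le_right _ _), (le_div_iff₀' L0).1 (min_le_right _ _)⟩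
  have k0 := hc.le.trans hκ
  refine ⟨K * L ^ κ + (t ^ c)⁻¹, fun W e he hi h1 h2 a z hz z' hz' => ?_⟩
  have p1 : 0 ≤ ‖z - z'‖ ^ c + e := by positivity
  have p2 : 0 ≤ K * L ^ κ := by positivity
  have p3 : 0 < t ^ c := by positivity
  rcases le_total ‖z' - z‖ t with h3 | h3
  · obtain ⟨γ, b, w, hw, e1⟩ := C.exists_pt (C.pt 1 a z)
    obtain ⟨-, w', -, e2, e3⟩ := h 1 a γ b z (C.B_sub_cB 3 a hz) w
      (C.B_sub_cB 3 b (C.B_mono (by norm_num) b hw)) e1 z' (h3.trans t1)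
    have e4 : w' ∈ C.B 2 b := S.mem_B hw e3 (by
      linarith [mul_le_mul_of_nonneg_left h3 L0.le, hr' b])
    rw [e1, e2, C.pt_eq γ b w, C.pt_eq γ b w', hi]
    refine (h2 b w (B12 C b hw) w' e4).trans (le_trans ?_ (mul_le_mul_of_nonneg_right
      (le_add_of_nonneg_right (inv_pos.2 p3).le) p1))
    rw [mul_assoc]
    refine mul_le_mul_of_nonneg_left ?_ hK
    rw [norm_sub_rev z', norm_sub_rev w'] at e3
    rw [norm_sub_rev] at h3
    have e5 := rpow_le_rpow (norm_nonneg _) e3 k0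
    rw [mul_rpow L0.le (norm_nonneg _)] at e5
    have e6 := rpow_le_rpow_of_exponent_ge' (norm_nonneg (z - z')) (h3.trans t2) hc.le hκ
    have e7 := one_le_rpow hL k0
    nlinarith [rpow_nonneg (norm_nonneg (z - z')) κ]
  · rw [norm_sub_rev] at h3
    have e5 := (rpow_le_rpow t0.le h3 hc.le).trans (le_add_of_nonneg_right he)
    refine (h1 _ _).trans (le_trans ?_ (mul_le_mul_of_nonneg_right (le_add_of_nonneg_left p2) p1))
    rwa [← div_eq_inv_mul, one_le_div p3]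

theorem max_num {a b c u v t K : ℝ} (h : u ≤ max a (max b c) + K) (ha : a ≤ 0) (hb : b ≤ 0)
    (hc : c ≤ 0) (ht : 0 ≤ t) (hv : t ≤ v) :
    v * u ≤ max (t * a) (max (t * b) (t * c)) + v * K := by
  have h1 : max a (max b c) ≤ 0 := max_le ha (max_le hb hc)
  rw [← mul_max_of_nonneg _ _ ht, ← mul_max_of_nonneg _ _ ht]
  nlinarith [mul_le_mul_of_nonneg_left h (ht.trans hv)]

theorem ev_sqrt {L : ℕ → ℝ} (hL : Tendsto L atTop atTop) {κ : ℝ} (hκ : 0 < κ) :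
    ∀ᶠ j in atTop, 1 + √(L j) ≤ κ * L j := by
  filter_upwards [hL.eventually_ge_atTop 0,
    (tendsto_sqrt_atTop.comp hL).eventually_ge_atTop (max 1 (2 / κ))] with j h0 h1
  have h2 : 2 ≤ κ * √(L j) := (div_le_iff₀' hκ).1 ((le_max_right _ _).trans h1)
  have h3 : 1 ≤ √(L j) := (le_max_left _ _).trans h1
  nlinarith [mul_self_sqrt h0]

end Vale.Agent.P284Y.In
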