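import Vale.Agent.P284Z.K.Spec
import Vale.Agent.P284Y.D.Defs

/-!
# P284Y (copy for the data with a floor), block K: the wandering case, statements
-/

open scoped ContDiff Topology ComplexOrder ENNReal
open Filter Set Function Metric MeasureTheory Asymptotics

noncomputable section

namespace Vale.Agent.P284Y.D

open Vale.Agent.P284Z

open Vale.Agent.P272.K J

section defs
variable {n : ℕ} {Γ E : Type} [Group Γ] [TopologicalSpace E] [MulAction Γ E] {C : Cov n Γ E}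

/-- `F j y ≥ κ` for large `j` -/
def LD.Lw (D : LD C) (κ : ℝ) (y : E) : Prop := ∀ᶠ j in atTop, κ ≤ D.F j y

/-- `g` is a smooth truncation of `log (F j)` at the level `-T` -/
structure LD.Tr (D : LD C) (j : ℕ) (T : ℝ) (g : E → ℝ) : Prop where
  psh : C.SmPsh D.A g
  eq : ∀ y, Real.exp (-T) < D.F j y → g y = Real.log (D.F j y)
  le : ∀ y, D.F j y ≤ Real.exp (-T) → g y ≤ -T
  ge : ∀ y, -T - 2 ≤ g y

/-- the masses of the deep windows are small, for infinitely many `j` -/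
def LD.Tail (D : LD C) : Prop := ∀ ε > (0 : ℝ≥0∞), ∃ m : ℝ, 1 ≤ m ∧ ∀ T : ℝ, ∃ᶠ j in atTop,
  ∀ T' g, T < T' → D.Tr j T' g → ∀ a, C.mass (2 * D.A) a (fun z => g (C.pt 1 a z))
    {z ∈ C.B 2 a | g (C.pt 1 a z) ∈ Icc (-T) (-m)} ≤ ε

variable {D : LD C} {L : Lim D} {Z : ZD L}

/-- `h` vanishes on the complement of the set of nice points -/
structure FD.Th (Φ : FD Z) (a : C.I) (h : Cm n → ℂ) : Prop where
  an : AnalyticOnNhd ℂ h (C.B 2 a)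
  ne : ∃ z ∈ C.B 2 a, h z ≠ 0
  le : ∀ z ∈ C.B (7 / 4) a, ‖h z‖ ≤ 1
  en : ∀ z ∈ C.B 2 a, h z ≠ 0 → C.pt 1 a z ∈ Φ.En

namespace TD
variable {Φ : FD Z} {N : NC Z Φ.d Φ.q Φ.l₁} (T : TD Φ N)

/-- the slice -/
def sg (t : Cm Φ.q) : E := N.Ψ.symm (T.a₀, t)

/-- the window -/
def Win (h : Cm n → ℂ) (γ : Γ) (a : C.I) (m₀ r k T' : ℝ) (j : ℕ) : Set (Cm n) :=
  {z ∈ C.B (7 / 4) a | C.pt γ a z ∈ T.Ω ∧ ‖T.s (C.pt γ a z) - T.t₀‖ < r ∧
    Real.exp (-m₀) < D.F j (T.sg (T.s (C.pt γ a z))) ∧ Real.exp (-k) < ‖h z‖ ^ 2 ∧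
    Real.exp (-T') < D.F j (C.pt 1 a z)}

/-- the glued functions exist -/
def Glue : Prop := ∀ m₀ : ℝ, ∃ r ∈ Ioo 0 T.R, ∃ L : ℝ, ∀ a h, Φ.Th a h → ∀ (γ : Γ) (k T' : ℝ),
  0 < k → ∀ᶠ j in atTop, ∀ g, D.Tr j T' g → ∃ F, C.Near D.A L g a F ∧
    ∀ z ∈ T.Win h γ a m₀ r k T' j, (cHess F z - C.pbs T.s γ a z).PosSemidef

/-- the good parameters -/
def A (κ r : ℝ) : Set (Cm Φ.q) := {t ∈ ball T.t₀ r | D.Lw κ (T.sg t)}

/-- the part of the tube over `S` in a chart -/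
def Tub (S : Set (Cm Φ.q)) (γ : Γ) (a : C.I) : Set (Cm n) :=
  {z ∈ C.B 1 a | C.pt γ a z ∈ T.Ω ∧ T.s (C.pt γ a z) ∈ S}

/-- the tube over `S` meets essentially only finitely many sheets -/
def Bdd (S : Set (Cm Φ.q)) : Prop :=
  ∃ G : Set Γ, G.Finite ∧ ∀ γ ∉ G, ∀ a, volume (T.Tub S γ a) = 0

/-- the leaves over `S` have locally finite volume -/
def Fv (S : Set (Cm Φ.q)) : Prop := ∀ (e : Fin Φ.d ⊕ Fin Φ.q ≃ Fin n) γ a,
  ∫⁻ z in T.Tub S γ a, ENNReal.ofReal (md (blk e (cHess (C.ρ a) z) (C.pbs T.s γ a z))) < ⊤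

end TD

end defs

/-- **K0**: truncations, and the tails (pigeonhole on `M0`) -/
def StK0 : Prop :=
  ∀ (n : ℕ) (Γ E : Type) [Group Γ] [Countable Γ] [TopologicalSpace E] [T2Space E] [MulAction Γ E]
    (C : Cov n Γ E) (D : LD C), (∀ j T, ∃ g, D.Tr j T g) ∧ (JM C → D.Tail)

/-- **K1**: the glued functions -/
def StK1 : Prop :=
  ∀ (n : ℕ) (Γ E : Type) [Group Γ] [Countable Γ] [TopologicalSpace E] [T2Space E] [MulAction Γ E]
    (C : Cov n Γ E) (D : LD C) (L : Lim D) (Z : ZD L), JB → Z.SB →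
    ∀ (Φ : FD Z) (N : NC Z Φ.d Φ.q Φ.l₁) (T : TD Φ N), T.Glue

/-- **K2**: the tube over the good parameters is bounded -/
def StK2 : Prop :=
  ∀ (n : ℕ) (Γ E : Type) [Group Γ] [Countable Γ] [TopologicalSpace E] [T2Space E] [MulAction Γ E]
    (C : Cov n Γ E) (D : LD C) (L : Lim D) (Z : ZD L), JB → JMV → JM C →
    (∀ j T, ∃ g, D.Tr j T g) → D.Tail →
    ∀ (Φ : FD Z) (N : NC Z Φ.d Φ.q Φ.l₁) (T : TD Φ N), T.Glue → ¬ T.Rec →
    ∀ κ > (0 : ℝ), ∃ r ∈ Ioo 0 T.R, T.Bdd (T.A κ r)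

/-- **K3**: the good parameters have positive measure, and the leaves have finite volume -/
def StK3 : Prop :=
  ∀ (n : ℕ) (Γ E : Type) [Group Γ] [Countable Γ] [TopologicalSpace E] [T2Space E] [MulAction Γ E]
    (C : Cov n Γ E) (D : LD C) (L : Lim D) (Z : ZD L), JB → JM C → (∀ j T, ∃ g, D.Tr j T g) →
    ∀ (Φ : FD Z) (N : NC Z Φ.d Φ.q Φ.l₁) (T : TD Φ N), T.Glue →
    ∃ κ > (0 : ℝ), ∃ r₀ ∈ Ioo 0 T.R, ∀ r ∈ Ioc 0 r₀,
      MeasurableSet (T.A κ r) ∧ 0 < volume (T.A κ r) ∧ T.Fv (T.A κ r)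

end Vale.Agent.P284Y.D
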