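import Vale.Agent.P284Z.K.Bas
import Vale.Agent.P284Y.D.KSpec
import Vale.Agent.P284Y.D.SBase
import Vale.Agent.P284Y.D.HBas

/-!
# P284Y (copy for the data with a floor), block K: basic facts used by all the parts
-/

set_option linter.all false

open scoped ContDiff Topology ComplexOrder ENNReal
open Filter Set Function Metric MeasureTheory

noncomputable section

namespace Vale.Agent.P284Y.D.K

open Vale.Agent.P284Z Vale.Agent.P284Z.K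

open Vale.Agent.P272.K J Real

variable {n : ℕ} {Γ E : Type} [Group Γ] [TopologicalSpace E] [MulAction Γ E] {C : Cov n Γ E}
  {γ : Γ} {a : C.I} {z : Cm n}

theorem F_pt (D : LD C) (j : ℕ) (γ : Γ) (a : C.I) (z : Cm n) :
    D.F j (C.pt γ a z) = D.F j (C.pt 1 a z) := by rw [C.pt_eq γ, D.F_inv]

theorem spF (D : LD C) (j : ℕ) (hz : z ∈ C.B 4 a) (h : 0 < D.F j (C.pt γ a z)) :
    SP (fun w => D.A * C.ρ a w + log (D.F j (C.pt γ a w))) z := by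
  simp only [F_pt D j γ] at h ⊢
  exact sp_of_lpsh (c := 0) hz (by simpa using D.F_psh j a) (D.F_sm j a z hz h) h

theorem spW (D : LD C) (l j : ℕ) (x : E) (hz : z ∈ C.B 4 a) (h : 0 < D.W l j x (C.pt γ a z)) :
    SP (fun w => D.A * C.ρ a w + log (D.W l j x (C.pt γ a w))) z := by
  have hs := D.W_sm l j x γ a z hz h
  obtain ⟨g, b, z₀, hz₀, rfl⟩ := C.exists_pt x
  have e : ∀ w, D.W l j (C.pt g b z₀) (C.pt γ a w) =
      D.W l j (C.pt 1 b z₀) (C.pt (g⁻¹ * γ) a w) := fun w => by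
    rw [← D.W_inv l j g⁻¹, C.smul_pt, C.smul_pt, inv_mul_cancel]
  refine sp_of_lpsh (c := D.A * C.ρ b z₀) hz ?_ hs h
  simp only [e]
  exact (D.W_psh l j (g⁻¹ * γ) b a).right (C.B_mono (by norm_num) b hz₀)

theorem log_F_le (D : LD C) (j : ℕ) (y : E) : log (D.F j y) ≤ 0 :=
  log_nonpos (D.F_nonneg j y) (D.F_le j y)

theorem log_le_tr {D : LD C} {j : ℕ} {T : ℝ} {g : E → ℝ} (h : D.Tr j T g) {y : E}
    (hy : 0 < D.F j y) : log (D.F j y) ≤ g y + 2 := by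
  rcases lt_or_ge (exp (-T)) (D.F j y) with h1 | h1
  · linarith [h.eq y h1]
  · linarith [h.ge y, (log_le_iff_le_exp hy).2 h1]

theorem tr_ev {D : LD C} {j : ℕ} {T : ℝ} {g : E → ℝ} (h : D.Tr j T g) {y : E} (hy : -T < g y) :
    exp (-T) < D.F j y ∧ g =ᶠ[𝓝 y] fun y => log (D.F j y) := by
  have h1 : exp (-T) < D.F j y := lt_of_not_ge fun h' => (h.le y h').not_gt hy
  exact ⟨h1, ((D.F_cont j).continuousAt.eventually (lt_mem_nhds h1)).mono h.eq⟩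

variable {D : LD C} {L : Lim D} {Z : ZD L}

theorem W_zero {l : ℕ} {p : E × E} (h : p ∈ Z.Z l) : L.W l p.1 p.2 = 0 := by
  obtain ⟨x, y⟩ := p
  obtain ⟨K, -, hK⟩ := S.bound₂ Z l
  obtain ⟨γ₁, a, z₁, h₁, rfl⟩ := C.exists_pt x
  obtain ⟨γ₂, b, z₂, h₂, rfl⟩ := C.exists_pt y
  have := hK γ₁ γ₂ a b z₁ z₂ z₁ z₂ 0 (C.B_mono (by norm_num) a h₁) (C.B_mono (by norm_num) b h₂) h
    (C.B_mono (by norm_num) a h₁) (C.B_mono (by norm_num) b h₂) (by simp) (by simp)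
  rw [zero_rpow (Z.c'_pos l).ne', mul_zero] at this
  exact le_antisymm this (L.W_nonneg _ _ _)

/-- the lemma of Hartogs on a compact part of `Z` -/
theorem W_small (l : ℕ) {K : Set (E × E)} (hK : IsCompact K) (h : K ⊆ Z.Z l) {θ : ℝ} (hθ : 0 < θ) :
    ∀ᶠ j in atTop, ∀ p ∈ K, D.W l j p.1 p.2 < θ :=
  hartogs_of_rat (w := fun _ => θ) hK (fun p _ => (L.W_lim l).rat p) continuousOn_const
    fun p hp => (W_zero (h hp)).trans_lt hθ

theorem exists_th (Φ : FD Z) (a : C.I) : ∃ h, Φ.Th a h := by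
  obtain ⟨h, h1, ⟨z₀, hz₀, h2⟩, h3⟩ := Φ.thin a
  obtain ⟨M, hM⟩ := (C.isCompact_cB (7 / 4) a).exists_bound_of_continuousOn
    (h1.continuousOn.mono (C.cB_sub_B (by norm_num) a))
  have h0 : (0 : ℝ) < |M| + 1 := by positivity
  have h0' : ((|M| + 1 : ℝ) : ℂ) ≠ 0 := Complex.ofReal_ne_zero.2 h0.ne'
  refine ⟨fun z => h z / ((|M| + 1 : ℝ) : ℂ), fun z hz => (h1 z hz).div analyticAt_const h0',
    ⟨z₀, hz₀, div_ne_zero h2 h0'⟩, fun z hz => ?_, fun z hz e => h3 z hz fun e' => e ?_⟩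
  · rw [norm_div, Complex.norm_real, Real.norm_of_nonneg h0.le, div_le_one h0]
    linarith [hM z (C.B_sub_cB _ a hz), le_abs_self M]
  · rw [e', zero_div]

theorem th_ae {Φ : FD Z} {h : Cm n → ℂ} (hh : Φ.Th a h) : ∀ᵐ z, z ∈ C.B 2 a → h z ≠ 0 :=
  ae_ne_zero volume (C.isOpen_B 2 a) (C.preconn_B 2 a) hh.an hh.ne

variable {Φ : FD Z} {N : NC Z Φ.d Φ.q Φ.l₁} (T : TD Φ N)

/-- the slice in the chart of `N` -/
def cs (t : Cm Φ.q) : Cm n := C.co N.g N.a (T.sg t)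

variable {T} {t : Cm Φ.q} {y : E}

theorem sg_src (ht : t ∈ closedBall T.t₀ T.R) : T.sg t ∈ N.Ψ.source :=
  N.Ψ.map_target (N.tgt ▸ T.sub t ht)

theorem sg_snd (ht : t ∈ closedBall T.t₀ T.R) : (N.Ψ (T.sg t)).2 = t :=
  congrArg Prod.snd (N.Ψ.right_inv (N.tgt ▸ T.sub t ht))

theorem sg_cont (ht : t ∈ closedBall T.t₀ T.R) : ContinuousAt T.sg t :=
  (N.Ψ.continuousAt_symm (N.tgt ▸ T.sub t ht)).comp (f := fun t => (T.a₀, t)) (by fun_prop)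

theorem cs_mem (ht : t ∈ closedBall T.t₀ T.R) : cs T t ∈ C.B 2 N.a := (H.inch (sg_src ht)).1

theorem pt_cs (ht : t ∈ closedBall T.t₀ T.R) : C.pt N.g N.a (cs T t) = T.sg t :=
  (H.inch (sg_src ht)).2

theorem cs_an (ht : t ∈ closedBall T.t₀ T.R) : AnalyticAt ℂ (cs T) t :=
  (N.hol' _ (T.sub t ht)).comp (f := fun t => (T.a₀, t)) (analyticAt_const.prod analyticAt_id)

theorem s_mem (hy : y ∈ T.Ω) : T.s y ∈ closedBall T.t₀ T.R := ball_subset_closedBall (T.mem y hy).1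

theorem s_cont (hy : y ∈ T.Ω) : ContinuousAt T.s y := Cov.HolOn.continuousAt C T.hol hy

theorem ev_mem (hz : z ∈ C.B 4 a) (hy : C.pt γ a z ∈ T.Ω) : ∀ᶠ w in 𝓝 z, C.pt γ a w ∈ T.Ω :=
  (C.continuousAt_pt hz γ).eventually (T.opn.mem_nhds hy)

/-- the potential on the slice, pulled back to the tube -/
theorem spΦ (jb : JB) (j : ℕ) (hz : z ∈ C.B 4 a) (hy : C.pt γ a z ∈ T.Ω)
    (h : 0 < D.F j (T.sg (T.s (C.pt γ a z)))) :
    SP (fun w => D.A * C.ρ N.a (cs T (T.s (C.pt γ a w))) +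
      log (D.F j (T.sg (T.s (C.pt γ a w))))) z := by
  have h1 := spF (γ := N.g) D j (C.B_mono (by norm_num) _ (cs_mem (s_mem hy)))
    ((pt_cs (s_mem hy)).symm ▸ h)
  refine (SP.comp jb (s := fun w => cs T (T.s (C.pt γ a w))) h1
    ((cs_an (s_mem hy)).comp (f := fun w => T.s (C.pt γ a w)) (T.hol γ a z hz hy))).congr ?_
  filter_upwards [ev_mem hz hy] with w hw
  rw [pt_cs (s_mem hw)]

/-- the part of the closed tube in a chart, away from the bad set -/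
def cT (T : TD Φ N) (h : Cm n → ℂ) (γ : Γ) (a : C.I) (k η r : ℝ) : Set (Cm n) :=
  {z ∈ C.cB k a | η ≤ ‖h z‖ ∧ C.pt γ a z ∈ T.Ω ∧ ‖T.s (C.pt γ a z) - T.t₀‖ ≤ r}

theorem th_compact {h : Cm n → ℂ} (hh : Φ.Th a h) {k η : ℝ} (hk : k < 2) (hη : 0 < η) (γ : Γ) :
    IsCompact {z ∈ C.cB k a | η ≤ ‖h z‖} ∧ C.pt γ a '' {z ∈ C.cB k a | η ≤ ‖h z‖} ⊆ Φ.En := by
  refine ⟨(C.isCompact_cB k a).of_isClosed_subset ?_ (sep_subset _ _), ?_⟩
  · exact (hh.an.continuousOn.mono (C.cB_sub_B hk a)).norm.preimage_isClosed_of_isClosed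
      isClosed_closedBall (isClosed_Ici (a := η))
  · rintro _ ⟨z, hz, rfl⟩
    rw [C.pt_eq]
    exact Φ.inv γ _ (hh.en z (C.cB_sub_B hk a hz.1) (norm_pos_iff.1 (hη.trans_le hz.2)))

theorem cT_compact {h : Cm n → ℂ} (hh : Φ.Th a h) {k η r : ℝ} (hk : k < 2) (hη : 0 < η)
    (hr : r < T.R) (γ : Γ) : IsCompact (cT T h γ a k η r) := by
  obtain ⟨h1, h2⟩ := th_compact hh hk hη γ
  have hB : ∀ z ∈ C.cB k a, z ∈ C.B 4 a := fun z hz => C.cB_sub_B (by linarith) a hz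
  have h3 := T.clos _ (C.isCompact_image_pt γ h1 fun z hz => hB z hz.1) h2 r hr
  have h4 := h3.image_of_continuousOn (f := C.co γ a) (by
    rintro _ ⟨⟨z, hz, rfl⟩, -⟩
    exact (C.continuousAt_co (hB z hz.1) γ).continuousWithinAt)
  refine (congrArg IsCompact ?_).mp h4
  ext z
  constructor
  · rintro ⟨_, ⟨⟨w, hw, rfl⟩, h5⟩, rfl⟩
    rw [C.co_pt (hB w hw.1)]
    exact ⟨hw.1, hw.2, h5⟩
  · rintro ⟨h5, h6, h7⟩
    exact ⟨_, ⟨⟨z, ⟨h5, h6⟩, rfl⟩, h7⟩, C.co_pt (hB z h5) γ⟩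

end Vale.Agent.P284Y.D.K
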