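import Vale.Agent.P284Y.D.KBas

/-!
# P284Y (copy for the data with a floor), block K: truncations and tails
-/

open scoped ContDiff Topology ComplexOrder ENNReal
open Filter Set Function Metric MeasureTheory

noncomputable section

namespace Vale.Agent.P284Y.D

open Vale.Agent.P284Z

open Vale.Agent.P272.K J Real K

namespace K.K0

variable {n : ℕ} {Γ E : Type} [Group Γ] [TopologicalSpace E] [MulAction Γ E] {C : Cov n Γ E}
  {D : LD C} {j : ℕ} {T T' m : ℝ} {g : E → ℝ} {a : C.I}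

/-- the truncation -/
def tr (D : LD C) (j : ℕ) (T : ℝ) : E → ℝ :=
  gl {y | 0 < D.F j y} (fun _ => -T - 1) fun y => log (D.F j y)

theorem sp_tr (γ : Γ) {z : Cm n} (hz : z ∈ C.B 4 a) :
    SP (fun w => D.A * C.ρ a w + tr D j T (C.pt γ a w)) z := by
  have h0 := ((sp_rho hz).const_mul D.A_pos.le).add_const (-T - 1)
  have hc := (D.F_cont j).continuousAt.comp (C.continuousAt_pt hz γ)
  rcases (D.F_nonneg j (C.pt γ a z)).eq_or_lt with h | h
  · refine h0.congr ?_
    filter_upwards [hc.eventually (gt_mem_nhds (h ▸ exp_pos (-T - 1 - 1)))] with w hw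
    exact congrArg _ (gl_left (O := {y | 0 < D.F j y}) fun h1 => (log_le_iff_le_exp h1).2 hw.le)
  · refine (h0.rm (spF D j hz h)).congr ?_
    filter_upwards [hc.eventually (lt_mem_nhds h)] with w hw
    rw [tr, gl_of_mem (O := {y | 0 < D.F j y}) hw, add_sub_add_left_eq_sub, add_assoc]

theorem tr_tr (D : LD C) (j : ℕ) (T : ℝ) : D.Tr j T (tr D j T) := by
  refine ⟨⟨fun γ y => ?_, fun y γ a z hz _ => ?_, fun a z hz => (sp_tr 1 hz).psd⟩,
    fun y h => ?_, fun y h => ?_, fun y => ?_⟩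
  · simp only [tr, gl, indicator, mem_ofPred_eq, D.F_inv]
  · refine ((sp_tr (D := D) (j := j) (T := T) γ hz).sm.sub
      ((sp_rho hz).const_mul D.A_pos.le).sm).congr_of_eventuallyEq
        (Eventually.of_forall fun w => ?_)
    simp only [add_sub_cancel_left]
  · have h1 : 0 < D.F j y := (exp_pos _).trans h
    exact gl_right h1 (by linarith [(lt_log_iff_exp_lt h1).2 h])
  · by_cases h1 : 0 < D.F j y
    · have h2 := G_mono (show log (D.F j y) - (-T - 1) ≤ 1 by
        linarith [(log_le_iff_le_exp h1).2 h])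
      rw [G_id le_rfl] at h2
      rw [tr, gl_of_mem (O := {y | 0 < D.F j y}) h1]
      linarith
    · rw [tr, gl_left (O := {y | 0 < D.F j y}) fun h2 => (h1 h2).elim]
      linarith
  · exact le_trans (by linarith) (left_le_gl (a := fun _ => -T - 1))

/-- the window -/
def win (g : E → ℝ) (a : C.I) (T m : ℝ) : Set (Cm n) :=
  {z ∈ C.B 2 a | g (C.pt 1 a z) ∈ Icc (-T) (-m)}

theorem win_meas {A : ℝ} (hg : C.SmPsh A g) (a : C.I) (T m : ℝ) : MeasurableSet (win g a T m) := by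
  have h1 : ContinuousOn (fun z => g (C.pt 1 a z)) (C.B 2 a) := fun z hz =>
    (hg.sm _ 1 a z (C.B_mono (by norm_num) a hz) rfl).continuousAt.continuousWithinAt
  have h2 := h1.isOpen_inter_preimage (C.isOpen_B 2 a) (isClosed_Icc (a := -T) (b := -m)).isOpen_compl
  refine (congrArg MeasurableSet ?_).mp ((C.isOpen_B 2 a).measurableSet.diff h2.measurableSet)
  ext z
  exact ⟨fun h => ⟨h.1, not_not.1 fun h' => h.2 ⟨h.1, h'⟩⟩, fun h => ⟨h.1, fun h' => h'.2 h.2⟩⟩

/-- the mass of a window does not depend on the truncation -/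
theorem mass_eq {T₁ T₂ : ℝ} {g' : E → ℝ} (h : D.Tr j T₁ g) (h' : D.Tr j T₂ g') (h1 : T < T₁)
    (h2 : T < T₂) (A : ℝ) :
    C.mass A a (fun z => g (C.pt 1 a z)) (win g a T m) =
      C.mass A a (fun z => g' (C.pt 1 a z)) (win g' a T m) := by
  have key : ∀ {T₁ T₂ : ℝ} {g g' : E → ℝ}, D.Tr j T₁ g → D.Tr j T₂ g' → T < T₁ → T < T₂ →
      ∀ y, -T ≤ g y → g y = g' y := by
    intro T₁ T₂ g g' h h' h1 h2 y hy
    obtain ⟨h3, h4⟩ := tr_ev h (y := y) (by linarith)
    have h5 : g y = log (D.F j y) := h4.self_of_nhds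
    rw [h5, h'.eq y ((lt_log_iff_exp_lt ((exp_pos _).trans h3)).1 (by linarith))]
  have e : win g a T m = win g' a T m := by
    ext z
    exact ⟨fun hz => ⟨hz.1, key h h' h1 h2 _ hz.2.1 ▸ hz.2⟩,
      fun hz => ⟨hz.1, key h' h h2 h1 _ hz.2.1 ▸ hz.2⟩⟩
  rw [← e]
  refine setLIntegral_congr_fun (win_meas h.psh a T m) fun z hz => ?_
  have h3 := key h h' h1 h2 _ hz.2.1
  have h4 := (tr_ev h (y := C.pt 1 a z) (by linarith [hz.2.1])).2.trans
    (tr_ev h' (y := C.pt 1 a z) (by linarith [hz.2.1])).2.symm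
  have h5 := (C.continuousAt_pt (C.B_mono (by norm_num) a hz.1) 1).eventually h4
  have h6 : (fun w => A * C.ρ a w + g (C.pt 1 a w)) =ᶠ[𝓝 z]
      fun w => A * C.ρ a w + g' (C.pt 1 a w) := h5.mono fun w hw => congrArg _ hw
  simp only [C2.cHess_congr h6]

theorem psh_two (hg : C.SmPsh D.A g) : C.SmPsh (2 * D.A) g := by
  refine ⟨hg.inv, hg.sm, fun a z hz => ?_⟩
  refine ((((sp_rho hz).const_mul D.A_pos.le).add (sp_psh hg 1 hz)).congr
    (g := fun w => 2 * D.A * C.ρ a w + g (C.pt 1 a w)) (Eventually.of_forall fun w => ?_)).psd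
  simp only
  ring

theorem mass_le {A : ℝ} (g : E → ℝ) (a : C.I) {S : Set (Cm n)} (hS : S ⊆ C.B 3 a) :
    C.mass A a (fun z => g (C.pt 1 a z)) S ≤
      ∫⁻ z in C.B 3 a, ENNReal.ofReal (md fun _ => C.om A g 1 a z) := by
  refine (lintegral_mono_set hS).trans (lintegral_mono fun z => ?_)
  simp only [md_const]
  rcases le_total (C.om A g 1 a z).det.re 0 with h | h
  · exact (ENNReal.ofReal_of_nonpos h).trans_le zero_le
  · exact ENNReal.ofReal_le_ofReal
      (le_mul_of_one_le_left h (by exact_mod_cast n.factorial_pos))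

theorem tail (D : LD C) (jm : JM C) : D.Tail := by
  intro ε hε
  by_contra hc
  have h1 : ∀ m : ℝ, ∃ T : ℝ, 1 ≤ m → ∀ᶠ j in atTop, ∀ T', T < T' → ∃ a,
      ε < C.mass (2 * D.A) a (fun z => tr D j T' (C.pt 1 a z)) (win (tr D j T') a T m) := by
    intro m
    by_cases hm : 1 ≤ m
    · obtain ⟨T, hT⟩ := not_forall.1 fun h => hc ⟨m, hm, h⟩
      refine ⟨T, fun _ => (not_frequently.1 hT).mono fun j hj T' h2 => ?_⟩
      by_contra h3
      refine hj fun T₁ g h4 h5 a => ?_
      exact (mass_eq h5 (tr_tr D j T') h4 h2 _).trans_le (not_lt.1 fun h6 => h3 ⟨a, h6⟩)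
    · exact ⟨0, fun h => (hm h).elim⟩
  choose T hT using h1
  let s : ℕ → ℝ := fun i => Nat.rec 1 (fun _ x => max (T x) x + 1) i
  have s1 : ∀ i, s (i + 1) = max (T (s i)) (s i) + 1 := fun _ => rfl
  have s2 : Monotone s := monotone_nat_of_le_succ fun i => by
    rw [s1]
    linarith [le_max_right (T (s i)) (s i)]
  have s3 : ∀ i k, i < k → T (s i) < s k := fun i k h => by
    have := s2 (show i + 1 ≤ k from h)
    rw [s1] at this
    linarith [le_max_left (T (s i)) (s i)]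
  obtain ⟨M, hM, h2⟩ := jm.M0 (2 * D.A) (by linarith [D.A_pos])
  obtain ⟨N, hN⟩ := ENNReal.exists_nat_mul_gt hε.ne'
    (ENNReal.sum_ne_top.2 fun _ _ => hM.ne : ∑ _a : C.I, M ≠ ⊤)
  obtain ⟨j, hj⟩ := ((eventually_all_finset (Finset.range N)).2 fun i _ =>
    hT (s i) (s2 (Nat.zero_le i))).exists
  have hg := tr_tr D j (s N)
  refine hN.not_ge ?_
  calc (N : ℝ≥0∞) * ε = ∑ _i ∈ Finset.range N, ε := by simp
    _ ≤ ∑ i ∈ Finset.range N, ∑ a, C.mass (2 * D.A) a (fun z => tr D j (s N) (C.pt 1 a z))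
        (win (tr D j (s N)) a (T (s i)) (s i)) := by
      refine Finset.sum_le_sum fun i hi => ?_
      obtain ⟨a, ha⟩ := hj i hi (s N) (s3 i N (Finset.mem_range.1 hi))
      exact ha.le.trans (Finset.single_le_sum (f := fun a => C.mass (2 * D.A) a
        (fun z => tr D j (s N) (C.pt 1 a z)) (win (tr D j (s N)) a (T (s i)) (s i)))
        (fun _ _ => zero_le) (Finset.mem_univ a))
    _ ≤ ∑ _a : C.I, M := by
      rw [Finset.sum_comm]
      refine Finset.sum_le_sum fun a _ => ?_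
      have h3 : ∀ i k, i < k → Disjoint (win (tr D j (s N)) a (T (s i)) (s i))
          (win (tr D j (s N)) a (T (s k)) (s k)) := fun i k h =>
        disjoint_left.2 fun z h4 h5 => by linarith [h4.2.1, h5.2.2, s3 i k h]
      simp only [Cov.mass]
      rw [← lintegral_biUnion_finset (fun i _ k _ h => h.lt_or_gt.elim (h3 i k)
        fun h' => (h3 k i h').symm) fun i _ => win_meas hg.psh a _ _]
      exact (mass_le _ a (iUnion₂_subset fun i _ z hz => C.B_mono (by norm_num) a hz.1)).trans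
        (h2 (fun _ => tr D j (s N)) (fun _ => psh_two hg.psh) a)

end K.K0

/-- **K0** -/
theorem stK0 : StK0 := fun _ _ _ _ _ _ _ _ _ D =>
  ⟨fun j T => ⟨_, K.K0.tr_tr D j T⟩, K.K0.tail D⟩

end Vale.Agent.P284Y.D
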