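import Vale.Agent.P284Z.Z.Main
import Vale.Agent.P284Y.D.Defs

/-!
# P284Y (copy for the data with a floor), block Z: the non-integrability loci
-/

set_option linter.all false

open scoped Topology ENNReal
open Filter Set Metric MeasureTheory

noncomputable section

namespace Vale.Agent.P284Y.D.Z

open Vale.Agent.P284Z Vale.Agent.P284Z.Z

open Vale.Agent.P272.K

variable {n : ℕ} {Γ E : Type} [Group Γ] [TopologicalSpace E] [MulAction Γ E] {C : Cov n Γ E}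
  {G : E → E → ℝ} {s : ℝ} {γ γ' δ δ' : Γ} {a b a' b' : C.I} {q q' : Cm n × Cm n}

variable {D : LD C} (L : Lim D)

theorem mem_W (l : ℕ) (hs : 0 < s) (hq : q ∈ C.B 4 a ×ˢ C.B 4 b) :
    (C.pt 1 a q.1, C.pt γ b q.2) ∈ NI C (L.W l) s ↔ ¬ LI volume (fun q : Cm n × Cm n =>
      L.W l (C.pt 1 a q.1) (C.pt γ b q.2) * Real.exp (D.A * C.ρ a q.1 + D.A * C.ρ b q.2)) s q :=
  (mem_NI hq).trans (not_congr (li_mul_exp hs.le
    (((C.contAt_exp D.A a hq.1).comp continuousAt_fst).add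
      ((C.contAt_exp D.A b hq.2).comp continuousAt_snd)) fun _ => L.W_nonneg l _ _).symm)

theorem W_le_one (l : ℕ) (x y : E) : L.W l x y ≤ 1 :=
  (L.W_le l x y).trans (mul_le_one₀ (L.F_le x) (L.F_nonneg y) (L.F_le y))

theorem W_bound : ∃ c > (0 : ℝ), ∀ (l : ℕ) (s t : ℝ), 0 < s → 0 < t → t ≤ c / s → ∃ K : ℝ,
    ∀ γ a b, ∀ q ∈ C.B 2 a ×ˢ C.B 2 b, (C.pt 1 a q.1, C.pt γ b q.2) ∈ NI C (L.W l) s →
      ∀ y ∈ C.B 3 a ×ˢ C.B 3 b, L.W l (C.pt 1 a y.1) (C.pt γ b y.2) ≤ K * ‖y - q‖ ^ t := by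
  obtain ⟨c, hc, H⟩ := li_decay (volume : Measure (Cm n × Cm n))
  obtain ⟨β, hβ, h1⟩ := exp_bd C D.A
  obtain ⟨r, hr, h2⟩ := C.exists_r
  refine ⟨c, hc, fun l s t hs ht hts => ⟨β * β * (10 / (r / 2)) ^ t, fun γ a b q hq h y hy => ?_⟩⟩
  have h3 : closedBall q (r / 2) ⊆ C.B 3 a ×ˢ C.B 3 b := by
    rw [← closedBall_prod_same]
    exact prod_mono (C.closedBall_sub (C.B_sub_cB 2 a hq.1) (by linarith [h2 a]))
      (C.closedBall_sub (C.B_sub_cB 2 b hq.2) (by linarith [h2 b]))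
  have h0 : 0 ≤ 10 * ‖y - q‖ / (r / 2) := by positivity
  have h4 := h1 a b y hy
  rw [mul_assoc, ← Real.mul_rpow (by positivity) (norm_nonneg _), div_mul_eq_mul_div]
  rcases le_total (10 * ‖y - q‖ / (r / 2)) 1 with h5 | h5
  · have h6 := H _ _ q (r / 2) β s ((C.isOpen_B 4 a).prod (C.isOpen_B 4 b)) (L.W_psh l γ a b)
      (fun x hx => B34 (h3 hx)) (half_pos hr) hβ hs (fun x hx => (mul_le_of_le_one_left
        (Real.exp_pos _).le (W_le_one L l _ _)).trans (h1 a b x (h3 hx)).1)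
      ((mem_W L l hs (B34 (h3 (mem_closedBall_self (half_pos hr).le)))).1 h) y
      (mem_closedBall_iff_norm.2 (by
        linarith [(div_le_one (half_pos hr)).1 h5, norm_nonneg (y - q)]))
    have h7 := mul_le_mul_of_nonneg_left
      (h6.trans (mul_le_mul_of_nonneg_left (Real.rpow_le_rpow_of_exponent_ge' h0 h5 ht.le hts)
        hβ.le)) hβ.le
    rw [mul_left_comm, ← mul_assoc β] at h7
    exact (le_mul_of_one_le_right (L.W_nonneg l _ _) h4.2).trans h7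
  · exact (W_le_one L l _ _).trans (one_le_mul_of_one_le_of_one_le
      (h4.2.trans (mul_le_mul_of_nonneg_left h4.1 hβ.le)) (Real.one_le_rpow h5 ht.le))

theorem F_lelong {ν : ℝ} (hν : 0 < ν) (a : C.I) : ∃ h : Cm n → ℂ, AnalyticOnNhd ℂ h (C.B 3 a) ∧
    (∃ z ∈ C.B 3 a, h z ≠ 0) ∧ ∀ z ∈ C.B 3 a, h z ≠ 0 → C.Small L.F ν (C.pt 1 a z) := by
  have hB : C.B 3 a ⊆ C.B 4 a := C.B_mono (by norm_num) a
  have hs : 0 < (2 * n + 1) / ν := by positivity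
  obtain ⟨z, hz, h0⟩ : ∃ z ∈ C.B 3 a, 0 < L.F (C.pt 1 a z) := by
    by_contra H
    push Not at H
    refine ((C.isOpen_B 3 a).measure_pos volume ⟨_, C.c_mem (by norm_num) a⟩).ne'
      (measure_mono_null ?_ (ae_iff.1 (L.F_ae a)))
    exact fun z hz h => (H z hz).not_gt (h (hB hz)).1
  obtain ⟨h, h1, h2, h3⟩ := bomb₁ (L.F_psh a) hs hz (li_of_pos (C.isOpen_B 4 a) (L.F_psh a) (hB hz)
    (mul_pos h0 (Real.exp_pos _)) hs)
  refine ⟨h, h1, ⟨z, hz, h2⟩, fun y hy h4 => C.small_of_chart (hB hy) ((((li_mul_exp hs.le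
    (C.contAt_exp D.A a (hB hy)) fun _ => L.F_nonneg _).1 (h3 y hy h4)).small hs).mono ?_)⟩
  rw [div_div_eq_mul_div, div_le_iff₀ (by positivity), Module.finrank_fin_fun]
  push_cast
  nlinarith

end Z

open Vale.Agent.P284Z Vale.Agent.P284Z.Z Vale.Agent.P284Y.D.Z in
theorem stZ : StZ := by
  intro n Γ E _ _ _ _ _ _ C D L
  obtain ⟨c, hc, H⟩ := W_bound L
  have hs : ∀ l, 0 < (8 * n + 1) / D.c (l + 1) := fun l => div_pos (by positivity) (D.c_pos _)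
  have hm : 0 < min 1 (c / (8 * n + 1)) := by positivity
  refine ⟨⟨fun l => NI C (L.W l) ((8 * n + 1) / D.c (l + 1)),
    fun l => min 1 (c / (8 * n + 1)) * D.c (l + 1), fun l => mul_pos hm (D.c_pos _),
    fun l l' h => mul_le_mul_of_nonneg_left (D.c_anti (Nat.succ_le_succ h)) hm.le,
    fun l => mul_le_of_le_one_left (D.c_pos _).le (min_le_left _ _), fun l => NI_closed,
    fun l => NI_inv (L.W_inv l), fun l => NI_symm (L.W_symm l), fun l γ a b => ?_,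
    fun l γ a b q hq ⟨K, hK⟩ => (mem_NI hq).2 fun h => h.not_le (hs l) ?_ hK,
    fun l => H l _ _ (hs l) (mul_pos hm (D.c_pos _)) ?_, fun ν hν => F_lelong L hν⟩⟩
  · refine ⟨{f | AnalyticOnNhd ℂ f (C.B 3 a ×ˢ C.B 3 b) ∧ ∀ q ∈ C.B 3 a ×ˢ C.B 3 b, f q ≠ 0 →
      (C.pt 1 a q.1, C.pt γ b q.2) ∉ NI C (L.W l) ((8 * n + 1) / D.c (l + 1))}, fun f hf => hf.1,
      fun q hq => ⟨fun h f hf => not_not.1 fun h0 => hf.2 q hq h0 h, fun h => ?_⟩⟩
    refine (mem_W L l (hs l) (B34 hq)).2 fun h' => ?_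
    obtain ⟨f, h1, h2, h3⟩ := bomb₂ (L.W_psh l γ a b) (hs l) hq h'
    exact h2 (h f ⟨h1, fun y hy h4 h5 => (mem_W L l (hs l) (B34 hy)).1 h5 (h3 y hy h4)⟩)
  · rw [Module.finrank_prod, Module.finrank_fin_fun, ← mul_div_assoc,
      div_mul_cancel₀ _ (D.c_pos _).ne']
    push_cast
    linarith
  · rw [div_div_eq_mul_div, mul_div_right_comm]
    exact mul_le_mul_of_nonneg_right (min_le_right _ _) (D.c_pos _).le

end Vale.Agent.P284Y.D
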