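import Vale.Agent.P284Y.D.D1
import Vale.Agent.P284Y.D.D2
import Vale.Agent.P284Y.D.FMain
import Vale.Agent.P284Y.D.ZMain
import Vale.Agent.P284Y.D.SSB
import Vale.Agent.P284Y.D.GMain
import Vale.Agent.P284Y.D.HMain
import Vale.Agent.P284Y.D.KK0
import Vale.Agent.P284Y.D.KK1
import Vale.Agent.P284Y.D.KK2
import Vale.Agent.P284Y.D.KK3
import Vale.Agent.P284Y.K6.Main
import Vale.Agent.P284Z.I.Final

/-!
# P284Y, rows D and K6': assembly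
-/

set_option linter.all false

open scoped Topology
open Filter Set Function Metric MeasureTheory

noncomputable section

namespace Vale.Agent.P284Y.D

open Vale.Agent.P272.K Vale.Agent.P284.H894.G

theorem stK6 : StK6 := by
  intro n Γ E _ _ _ _ _ _ C D L Z hSB Φ N T hR F U hU hS
  obtain ⟨-, jb, jmv, hj⟩ := P284Z.stJ
  obtain ⟨jm, -⟩ := hj n Γ E C
  obtain ⟨htr, htail⟩ := stK0 n Γ E C D
  have hg := K.K1.stK1 n Γ E C D L Z jb hSB Φ N T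
  obtain ⟨κ, hκ, r₀, hr₀, hA⟩ := stK3 n Γ E C D L Z jb jm htr Φ N T hg
  obtain ⟨r, hr, G, hG, hB⟩ := K.stK2 n Γ E C D L Z jb jmv jm htr (htail jm) Φ N T hg hR κ hκ
  obtain ⟨hm, hpos, hfin⟩ := hA (min r r₀) ⟨lt_min hr.1 hr₀.1, min_le_right _ _⟩
  refine K6.stK6p n Γ E C ⟨Φ.d, Φ.q, Φ.dim, Φ.En, Φ.inv, Φ.thin, N.Ψ, N.R, N.tgt, N.g, N.a, N.inch,
    N.hol, N.hol', T.a₀, T.t₀, T.R, T.R_pos, T.sub, T.Ω, T.s, T.opn, T.hol, T.base, T.clos⟩ F U hU hS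
    (T.A κ (min r r₀)) (fun t ht => ball_subset_ball ((min_le_left _ _).trans hr.2.le) ht.1) hm hpos
    ⟨G, hG, fun γ hγ a => measure_mono_null (fun z hz => ?_) (hB γ hγ a)⟩ hfin
  exact ⟨hz.1, hz.2.1, ball_subset_ball (min_le_left _ _) hz.2.2.1, hz.2.2.2⟩

theorem sh_num {κ p a b w e v s β : ℝ} (hκ : 0 < κ) (hp : 0 < p) (hp1 : p ≤ 1) (ha : p ≤ a)
    (hb : Real.exp s ≤ b) (hb1 : b ≤ 1) (hβ : 0 < β) (hβs : β ≤ Real.exp s)
    (h1 : κ * min a b ^ 3 * (a * b) ≤ w) (h2 : w ≤ 4 * max (a * b * Real.exp v) e)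
    (he : 4 * e < κ * (p * β) ^ 3 * (p * β)) : Real.log (κ * p ^ 3 / 4) + 3 * s ≤ v := by
  have s0 := Real.exp_pos s
  have b0 := s0.trans_le hb
  have a0 := hp.trans_le ha
  have h3 : p * Real.exp s ≤ min a b := le_min
    ((mul_le_of_le_one_right hp.le (hb.trans hb1)).trans ha)
    ((mul_le_of_le_one_left s0.le hp1).trans hb)
  have h4 : κ * (p * Real.exp s) ^ 3 * (a * b) ≤ w := le_trans (by gcongr) h1
  have h5 : κ * (p * β) ^ 3 * (p * β) ≤ κ * (p * Real.exp s) ^ 3 * (a * b) := by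
    gcongr
    exact hβs.trans hb
  have h6 : κ * (p * Real.exp s) ^ 3 * (a * b) ≤ 4 * Real.exp v * (a * b) := by
    rcases max_cases (a * b * Real.exp v) e with h | h <;> rw [h.1] at h2 <;> linarith
  have h7 := le_of_mul_le_mul_right h6 (mul_pos a0 b0)
  rw [← Real.exp_le_exp, Real.exp_add, Real.exp_log (by positivity),
    show 3 * s = (3 : ℕ) * s by norm_num, Real.exp_nat_mul]
  rw [mul_pow] at h7
  linarith

end Vale.Agent.P284Y.D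

namespace Vale.Agent.P284Y

open Vale.Agent.P272.K Vale.Agent.P284.H894.G D

theorem stDK : StDK := by
  intro n Γ E _ _ _ _ _ _ C hfg hna hrad F T hc hs p V sh Y
  obtain ⟨G, l₀, K₀, hg, hu⟩ := stD1 n Γ E C hna p V sh Y
  obtain ⟨D₀, hF, hW⟩ := stD2 n Γ E C G
  obtain ⟨φ, hφ, ⟨L⟩⟩ := stF n Γ E C D₀
  obtain ⟨Z⟩ := stZ n Γ E C _ L
  obtain ⟨hSB, hTR⟩ := stS n Γ E C _ L Z
  obtain ⟨Φ⟩ := stG n Γ E C _ L Z hTR
  obtain ⟨-, a, -⟩ := P284Z.S.cover (C := C) (Classical.arbitrary E)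
  have B14 : C.B 1 a ⊆ C.B 4 a := C.B_mono (by norm_num) a
  have B12 : C.B 1 a ⊆ C.B 2 a := C.B_mono (by norm_num) a
  obtain ⟨h, h1, h2, h3⟩ := Φ.thin a
  obtain ⟨z₁, hz₁, h4, i, h5, h6⟩ : ∃ z ∈ C.B 1 a, C.pt 1 a z ∈ Φ.En ∧ ∃ i, C.pt 1 a z ∈ (T i).U ∧
      ‖(T i).sh (C.pt 1 a z) - (T i).t₁‖ < (T i).r / 8 := by
    by_contra H
    refine ((C.isOpen_B 1 a).measure_pos volume ⟨_, C.c_mem one_pos a⟩).ne' (measure_mono_null ?_
      (ae_iff.1 ((P284Z.ae_ne_zero volume (C.isOpen_B 2 a) (C.preconn_B 2 a) h1 h2).and (hc 1 a))))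
    exact fun z hz k => H ⟨z, hz, h3 z (B12 hz) (k.1 (B12 hz)), k.2 (B14 hz)⟩
  obtain ⟨δ, hδ, h7⟩ := nhds_basis_closedBall.mem_iff.1 ((C.isOpen_B 1 a).mem_nhds hz₁)
  obtain ⟨N, -, -, hN⟩ := Φ.nice _ h4 _ (inter_mem (P284Z.S.nhds_pt 1 (B14 hz₁) hδ)
    (inter_mem ((T i).opn.mem_nhds h5) (((P284Z.Cov.HolOn.continuousAt C (T i).hol h5).sub
      continuousAt_const).norm.eventually (gt_mem_nhds h6))))
  obtain ⟨T', hT'⟩ := stH n Γ E C _ L Z hSB hTR Φ N fun y hy => (hN hy).1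
  have hR : ¬ T'.Rec := fun k => (hT' k).elim (P284Z.stI Γ hfg hrad)
  have k6 := stK6 n Γ E C _ L Z hSB Φ N T' hR F (T i) (fun y hy => (hN hy).2.2.1) (hs i)
  have x0 := K.sg_src (T := T') (mem_closedBall_self T'.R_pos.le)
  obtain ⟨-, ⟨z₀, hz₀, e₀⟩, k1, k2⟩ := hN x0
  replace hz₀ := h7 hz₀
  have g0 : 0 < L.F (T'.sg T'.t₀) := T'.good₀.1
  have g1 : Tendsto (fun j => D₀.F (φ j) (T'.sg T'.t₀)) atTop (𝓝 (L.F (T'.sg T'.t₀))) := T'.good₀.2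
  obtain ⟨q, q0, q1, hq⟩ : ∃ q > (0 : ℝ), q ≤ 1 ∧ ∀ᶠ j in atTop, q ≤ D₀.F (φ j) (C.pt 1 a z₀) :=
    ⟨_, half_pos g0, (half_le_self g0.le).trans (L.F_le _),
      (g1.eventually (lt_mem_nhds (half_lt_self g0))).mono fun j k => e₀ ▸ k.le⟩
  rw [e₀] at x0 k1 k2
  have he := D₀.e_tend.comp hφ.tendsto_atTop
  obtain ⟨θ, hθ, K, hK⟩ := hW (Φ.l₁ + 1)
  obtain ⟨K₁, hK₁⟩ := hu (Φ.l₁ + 1)
  refine ⟨⟨φ, hφ, i, a, z₀, Φ.l₁ + 1 + l₀, 3 / θ, by positivity, hz₀, ⟨k1, k2⟩,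
    ⟨K₀ - Real.log (q / 2), ?_⟩, {z ∈ C.B 1 a | C.pt 1 a z ∈ N.Ψ.source},
    inter_mem ((C.isOpen_B 1 a).mem_nhds hz₀) ((C.continuousAt_pt (B14 hz₀) 1).eventually
      (N.Ψ.open_source.mem_nhds x0)), fun z hz => hz.1, fun S hS hcS hne => ?_⟩⟩
  · filter_upwards [hq, he.eventually (gt_mem_nhds (half_pos q0))] with j a1 a2
    have a3 := a1.trans (hF (φ j) _).2
    have a4 : q / 2 ≤ Real.exp (G.g (φ j) (C.pt 1 a z₀)) := by
      rcases max_cases (Real.exp (G.g (φ j) (C.pt 1 a z₀))) (D₀.e (φ j)) with k | k <;>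
        rw [k.1] at a3
      · linarith
      · exact absurd a2 (not_lt.2 (by simp only [comp]; linarith))
    have a5 := (Real.log_le_iff_le_exp (half_pos q0)).2 a4
    linarith [(abs_le.1 (hg (φ j) 1 a z₀ (B12 hz₀))).2]
  · obtain ⟨κ, hκ, hsb, -⟩ := hSB Φ.l₁ _ (hcS.image_of_continuousOn
      (f := fun z => (C.pt 1 a z₀, C.pt 1 a z)) fun z hz => (continuousAt_const.prodMk
        (C.continuousAt_pt (B14 (hS hz).1) 1)).continuousWithinAt) (disjoint_left.2 (by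
      rintro _ ⟨z, hz, rfl⟩ k
      exact hne z hz (k6 _ x0 _ (hS hz).2 ((N.rel _ x0 _ (hS hz).2).1 k)).symm))
    refine ⟨(K + 3 * K₀ + 3 - Real.log (κ * q ^ 3 / 4)) / θ + K₁, fun X => ?_⟩
    have he4 := he.const_mul 4
    rw [mul_zero] at he4
    have β0 := Real.exp_pos (-X - K₀ - 1)
    filter_upwards [hq, hsb, hφ.tendsto_atTop.eventually hK₁, he4.eventually (gt_mem_nhds
      (by positivity : 0 < κ * (q * Real.exp (-X - K₀ - 1)) ^ 3 * (q * Real.exp (-X - K₀ - 1))))]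
      with j a1 a2 a3 a4 z hz hX
    have a5 := (abs_le.1 (hg (φ j) 1 a z (B12 (hS hz).1))).1
    have a6 := sh_num (s := Y.f (φ j) a z 1 - K₀ - 1) hκ q0 q1 a1
      ((Real.exp_le_exp.2 (by linarith)).trans (hF (φ j) (C.pt 1 a z)).1) (D₀.F_le _ _) β0
      (Real.exp_le_exp.2 (by linarith)) (a2 _ ⟨z, hz, rfl⟩) (hK (φ j) _ _) a4
    have a7 := mul_le_mul_of_nonneg_left (a3 1 a 1 a z₀ (B12 hz₀) z (B12 (hS hz).1)) hθ.le
    refine le_of_mul_le_mul_left ?_ hθ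
    rw [mul_sub, mul_add, ← mul_assoc, mul_div_cancel₀ _ hθ.ne', mul_div_cancel₀ _ hθ.ne']
    linarith

end Vale.Agent.P284Y
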