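import Vale.Agent.P284Y.D.SBase

/-! P284Z, block S: transitivity of the loci `Z`. -/

open scoped Topology
open Filter Set Metric MeasureTheory

namespace Vale.Agent.P284Y.D.S

open Vale.Agent.P284Z Vale.Agent.P284Z.S

open Vale.Agent.P272.K

variable {n : ℕ} {Γ E : Type} [Group Γ] [TopologicalSpace E] [MulAction Γ E] {C : Cov n Γ E}
  {D : LD C} {L : Lim D} (Z : ZD L)

theorem near_B {a b : C.I} {q : Cm n × Cm n} (h1 : q.1 ∈ C.B 1 a) (h2 : q.2 ∈ C.B 1 b) :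
    ∀ᶠ q' in 𝓝 q, ‖q' - q‖ ≤ 1 ∧ q'.1 ∈ C.B 3 a ∧ q'.2 ∈ C.B 3 b := by
  have ha := C.r_pos a
  have hb := C.r_pos b
  have h0 : 0 < min 1 (min (C.r a) (C.r b)) := lt_min one_pos (lt_min ha hb)
  filter_upwards [closedBall_mem_nhds q h0] with q' hq'
  rw [mem_closedBall_iff_norm] at hq'
  have e1 := min_le_left 1 (min (C.r a) (C.r b))
  have e2 := (min_le_right 1 (min (C.r a) (C.r b))).trans (min_le_left _ _)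
  have e3 := (min_le_right 1 (min (C.r a) (C.r b))).trans (min_le_right _ _)
  exact ⟨hq'.trans e1, mem_B h1 (fst_le hq') (by linarith), mem_B h2 (snd_le hq') (by linarith)⟩

theorem half_le (D : LD C) {l l' : ℕ} (h : l ≤ l') : D.c l' / 2 ≤ D.c l := by
  have := D.c_anti h
  have := D.c_pos l'
  linarith

theorem lim_diag (L : Lim D) (l : ℕ) (y : E) : L.W l y y = 0 := by
  obtain ⟨K, hK⟩ := L.pole l
  exact le_antisymm (diag_zero (L.W_inv l) hK (D.c_pos l) y) (L.W_nonneg l y y)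

theorem tr_refl (y : E) : (y, y) ∈ Z.all := by
  intro l
  obtain ⟨γ, a, z, hz, rfl⟩ := cover (C := C) y
  obtain ⟨K, hK⟩ := L.pole l
  have h4 : z ∈ C.B 4 a := B_mono (by norm_num) a hz
  refine mem₂ Z l γ γ (q := (z, z)) h4 h4 ⟨max K 1 * 2 ^ D.c l, ?_⟩
  filter_upwards [near_B (q := (z, z)) hz hz] with q' ⟨h1, h2, h3⟩
  have h5 : ‖q'.1 - q'.2‖ ≤ 2 * ‖q' - (z, z)‖ := by
    have e1 : ‖q'.1 - z‖ ≤ ‖q' - (z, z)‖ := fst_le (q := (z, z)) le_rfl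
    have e2 : ‖q'.2 - z‖ ≤ ‖q' - (z, z)‖ := snd_le (q := (z, z)) le_rfl
    have e3 := norm_sub_le_norm_sub_add_norm_sub q'.1 z q'.2
    rw [norm_sub_rev z] at e3
    linarith
  refine (pole_gen (L.W_inv l) hK (D.c_pos l).le γ a h2 h3 h5).trans ?_
  rw [Real.mul_rpow zero_le_two (norm_nonneg _), ← mul_assoc]
  exact mul_le_mul_of_nonneg_left (Real.rpow_le_rpow_of_exponent_ge' (norm_nonneg _) h1
    (half_pos (D.c_pos _)).le (half_le D (Nat.le_succ l))) (by positivity)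

theorem zero_of_mem {l : ℕ} {x y : E} (h : (x, y) ∈ Z.Z l) : L.W l x y = 0 := by
  obtain ⟨γ₁, a, z₁, hz₁, rfl⟩ := cover (C := C) x
  obtain ⟨γ₂, b, z₂, hz₂, rfl⟩ := cover (C := C) y
  obtain ⟨K, -, hK⟩ := bound₂ Z l
  have h1 := hK γ₁ γ₂ a b z₁ z₂ z₁ z₂ 0 (B_mono (by norm_num) a hz₁) (B_mono (by norm_num) b hz₂) h
    (B_mono (by norm_num) a hz₁) (B_mono (by norm_num) b hz₂) (by simp) (by simp)
  rw [Real.zero_rpow (Z.c'_pos l).ne', mul_zero] at h1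
  exact le_antisymm h1 (L.W_nonneg l _ _)

theorem mem_of_zero {l : ℕ} {x y : E} (hx : 0 < L.F x) (hy : 0 < L.F y)
    (h : L.W (l + 1) x y = 0) : (x, y) ∈ Z.Z l := by
  obtain ⟨γ₁, a, z₁, hz₁, rfl⟩ := cover (C := C) x
  obtain ⟨γ₂, b, z₂, hz₂, rfl⟩ := cover (C := C) y
  obtain ⟨K, hK⟩ := L.pole (l + 1)
  have hc := D.c_pos (l + 1)
  refine mem₂ Z l γ₁ γ₂ (q := (z₁, z₂)) (B_mono (by norm_num) a hz₁) (B_mono (by norm_num) b hz₂)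
    ⟨max K 1 / (L.F (C.pt γ₁ a z₁) * L.F (C.pt γ₂ b z₂)), ?_⟩
  filter_upwards [near_B (q := (z₁, z₂)) hz₁ hz₂] with q' ⟨h1, h2, h3⟩
  have h4 := L.chain l (C.pt γ₁ a q'.1) (C.pt γ₁ a z₁) (C.pt γ₂ b z₂) (C.pt γ₂ b q'.2)
  have h5 := pole_gen (L.W_inv (l + 1)) hK hc.le γ₁ a h2 (B_mono (by norm_num) a hz₁)
    (fst_le (q := (z₁, z₂)) (q' := q') le_rfl)
  have h6 := pole_gen (L.W_inv (l + 1)) hK hc.le γ₂ b (B_mono (by norm_num) b hz₂) h3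
    ((norm_sub_rev _ _).trans_le (snd_le (q := (z₁, z₂)) (q' := q') le_rfl))
  have h7 : max K 1 * ‖q' - (z₁, z₂)‖ ^ D.c (l + 1) ≤
      max K 1 * ‖q' - (z₁, z₂)‖ ^ (D.c (l + 1) / 2) :=
    mul_le_mul_of_nonneg_left (Real.rpow_le_rpow_of_exponent_ge' (norm_nonneg _) h1
      (half_pos hc).le (half_le D le_rfl)) (by positivity)
  have h8 : ∀ (w : ℝ) (u v : E), 0 ≤ w → w * (L.F u * L.F v) ≤ w := fun w u v hw =>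
    mul_le_of_le_one_right hw (mul_le_one₀ (L.F_le u) (L.F_nonneg v) (L.F_le v))
  rw [div_mul_eq_mul_div, le_div_iff₀ (mul_pos hx hy)]
  refine h4.trans (max_le ?_ (max_le ?_ ?_))
  · exact (h8 _ _ _ (L.W_nonneg _ _ _)).trans (h5.trans h7)
  · rw [h, zero_mul]; positivity
  · exact (h8 _ _ _ (L.W_nonneg _ _ _)).trans (h6.trans h7)

theorem tr_iff {x y : E} (hx : 0 < L.F x) (hy : 0 < L.F y) :
    (x, y) ∈ Z.all ↔ ∀ l, L.W l x y = 0 :=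
  ⟨fun h l => zero_of_mem Z (h l), fun h l => mem_of_zero Z hx hy (h (l + 1))⟩

theorem tr_pos {x y z : E} (hx : 0 < L.F x) (hy : 0 < L.F y) (hz : 0 < L.F z)
    (h1 : (x, y) ∈ Z.all) (h2 : (y, z) ∈ Z.all) : (x, z) ∈ Z.all := by
  rw [tr_iff Z hx hz]
  intro l
  have h3 := L.chain l x y y z
  rw [zero_of_mem Z (h1 (l + 1)), zero_of_mem Z (h2 (l + 1)), lim_diag L, zero_mul, zero_mul,
    zero_mul, max_self, max_self] at h3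
  refine le_antisymm ?_ (L.W_nonneg l x z)
  by_contra h4
  exact absurd h3 (not_le.2 (mul_pos (not_le.1 h4) (mul_pos hy hy)))

theorem small_three {F : E → ℝ} {ν : ℝ} {γ₁ γ₂ γ₃ : Γ} {a b d : C.I} {z₁ z₂ z₃ : Cm n}
    (hz₁ : z₁ ∈ C.B 1 a) (hz₂ : z₂ ∈ C.B 1 b) (hz₃ : z₃ ∈ C.B 1 d)
    (hx : C.Small F ν (C.pt γ₁ a z₁)) (hy : C.Small F ν (C.pt γ₂ b z₂))
    (hz : C.Small F ν (C.pt γ₃ d z₃)) : ∃ κ > (0 : ℝ), ∃ δ > (0 : ℝ), δ ≤ 1 ∧ δ ≤ C.r a ∧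
      δ ≤ C.r b ∧ δ ≤ C.r d ∧ ∀ η, 0 < η → η ≤ δ →
      (∃ w, ‖w - z₁‖ ≤ η ∧ κ * η ^ ν ≤ F (C.pt γ₁ a w)) ∧
      (∃ w, ‖w - z₂‖ ≤ η ∧ κ * η ^ ν ≤ F (C.pt γ₂ b w)) ∧
      ∃ w, ‖w - z₃‖ ≤ η ∧ κ * η ^ ν ≤ F (C.pt γ₃ d w) := by
  obtain ⟨κ₁, hκ₁, δ₁, hδ₁, h1⟩ := hx γ₁ a z₁ (B_mono (by norm_num) a hz₁) rfl
  obtain ⟨κ₂, hκ₂, δ₂, hδ₂, h2⟩ := hy γ₂ b z₂ (B_mono (by norm_num) b hz₂) rfl
  obtain ⟨κ₃, hκ₃, δ₃, hδ₃, h3⟩ := hz γ₃ d z₃ (B_mono (by norm_num) d hz₃) rfl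
  have e0 : ∀ s : ℝ, 0 < s → ∀ᶠ δ in 𝓝[>] (0 : ℝ), δ ≤ s := fun s hs =>
    mem_of_superset (Ioc_mem_nhdsGT hs) fun δ hδ => hδ.2
  have e1 : ∀ᶠ δ in 𝓝[>] (0 : ℝ), 0 < δ := self_mem_nhdsWithin
  obtain ⟨δ, ⟨⟨⟨⟨⟨⟨⟨d0, d1⟩, d2⟩, d3⟩, d4⟩, d5⟩, d6⟩, d7⟩⟩ :=
    ((((((e1.and (e0 1 one_pos)).and
      (e0 _ (C.r_pos a))).and (e0 _ (C.r_pos b))).and (e0 _ (C.r_pos d))).and (e0 _ hδ₁)).and
      (e0 _ hδ₂)).and (e0 _ hδ₃) |>.exists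
  refine ⟨min κ₁ (min κ₂ κ₃), lt_min hκ₁ (lt_min hκ₂ hκ₃), δ, d0, d1, d2, d3, d4,
    fun η hη hηδ => ⟨?_, ?_, ?_⟩⟩
  · obtain ⟨w, hw, h⟩ := h1 η ⟨hη, hηδ.trans d5⟩
    exact ⟨w, mem_closedBall_iff_norm.1 hw,
      (mul_le_mul_of_nonneg_right (min_le_left _ _) (by positivity)).trans h⟩
  · obtain ⟨w, hw, h⟩ := h2 η ⟨hη, hηδ.trans d6⟩
    exact ⟨w, mem_closedBall_iff_norm.1 hw, (mul_le_mul_of_nonneg_right
      ((min_le_right _ _).trans (min_le_left _ _)) (by positivity)).trans h⟩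
  · obtain ⟨w, hw, h⟩ := h3 η ⟨hη, hηδ.trans d7⟩
    exact ⟨w, mem_closedBall_iff_norm.1 hw, (mul_le_mul_of_nonneg_right
      ((min_le_right _ _).trans (min_le_right _ _)) (by positivity)).trans h⟩

theorem tr_small (l : ℕ) {x y z : E} (hx : C.Small L.F (Z.c' (l + 2) / 4) x)
    (hy : C.Small L.F (Z.c' (l + 2) / 4) y) (hz : C.Small L.F (Z.c' (l + 2) / 4) z)
    (hxy : (x, y) ∈ Z.Z (l + 2)) (hyz : (y, z) ∈ Z.Z (l + 2)) : (x, z) ∈ Z.upto l := by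
  intro l' hl'
  obtain ⟨γ₁, a, z₁, hz₁, rfl⟩ := cover (C := C) x
  obtain ⟨γ₂, b, z₂, hz₂, rfl⟩ := cover (C := C) y
  obtain ⟨γ₃, d, z₃, hz₃, rfl⟩ := cover (C := C) z
  obtain ⟨κ, hκ, δ, hδ, d1, da, db, dd, hs⟩ := small_three hz₁ hz₂ hz₃ hx hy hz
  obtain ⟨K, hK⟩ := L.pole (l' + 1)
  obtain ⟨K', hK'0, hK'⟩ := bound₂ Z (l + 2)
  have hc := D.c_pos (l' + 1)
  have hc' := Z.c'_pos (l + 2)
  have hcc : Z.c' (l + 2) ≤ D.c (l' + 1) := (Z.c'_le (l + 2)).trans (D.c_anti (by omega))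
  have ra := C.r_pos a
  have rb := C.r_pos b
  have rd := C.r_pos d
  obtain ⟨M, hM0, hM1, hM2⟩ : ∃ M : ℝ, 0 ≤ M ∧ max K 1 * 2 ^ D.c (l' + 1) ≤ M ∧ K' ≤ M :=
    ⟨max (max K 1 * 2 ^ D.c (l' + 1)) K', le_max_of_le_right hK'0.le, le_max_left _ _,
      le_max_right _ _⟩
  refine mem₂ Z l' γ₁ γ₃ (q := (z₁, z₃)) (B_mono (by norm_num) a hz₁) (B_mono (by norm_num) d hz₃)
    ⟨M / κ + M / κ ^ 3, ?_⟩
  filter_upwards [closedBall_mem_nhds (z₁, z₃) hδ] with q' hq'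
  refine le_rpow_of_forall (half_pos hc) hδ (norm_nonneg _) (mem_closedBall_iff_norm.1 hq') ?_
  intro t ht hqt htδ
  have hk : 1 ≤ 2 * D.c (l' + 1) / Z.c' (l + 2) := by
    rw [le_div_iff₀ hc']; linarith
  obtain ⟨η, hη, hηt, e1, e2⟩ : ∃ η > (0 : ℝ), η ≤ t ∧
      η ^ (Z.c' (l + 2) / 4) = t ^ (D.c (l' + 1) / 2) ∧
      η ^ Z.c' (l + 2) = (t ^ (D.c (l' + 1) / 2)) ^ 4 := by
    refine ⟨t ^ (2 * D.c (l' + 1) / Z.c' (l + 2)), by positivity, ?_, ?_, ?_⟩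
    · have := Real.rpow_le_rpow_of_exponent_ge ht (htδ.trans d1) hk
      rwa [Real.rpow_one] at this
    · rw [← Real.rpow_mul ht.le]
      congr 1
      field_simp
      norm_num
    · rw [← Real.rpow_mul ht.le, ← Real.rpow_natCast, ← Real.rpow_mul ht.le]
      congr 1
      field_simp
      norm_num
  have e3 : (2 * t) ^ D.c (l' + 1) = 2 ^ D.c (l' + 1) * (t ^ (D.c (l' + 1) / 2)) ^ 2 := by
    rw [Real.mul_rpow zero_le_two ht.le, ← Real.rpow_natCast, ← Real.rpow_mul ht.le]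
    congr 2
    norm_num
  obtain ⟨⟨w₁, hw₁, f₁⟩, ⟨w₂, hw₂, f₂⟩, w₃, hw₃, f₃⟩ := hs η hη (hηt.trans htδ)
  rw [e1] at f₁ f₂ f₃
  have u₁ : ‖q'.1 - z₁‖ ≤ t := fst_le (q := (z₁, z₃)) hqt
  have u₃ : ‖q'.2 - z₃‖ ≤ t := snd_le (q := (z₁, z₃)) hqt
  have b₁ : w₁ ∈ C.B 3 a := mem_B hz₁ hw₁ (by linarith)
  have b₂ : w₂ ∈ C.B 3 b := mem_B hz₂ hw₂ (by linarith)
  have b₃ : w₃ ∈ C.B 3 d := mem_B hz₃ hw₃ (by linarith)
  have g₁ : q'.1 ∈ C.B 3 a := mem_B hz₁ u₁ (by linarith)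
  have g₃ : q'.2 ∈ C.B 3 d := mem_B hz₃ u₃ (by linarith)
  have n₁ : ‖q'.1 - w₁‖ ≤ 2 * t := by
    have := norm_sub_le_norm_sub_add_norm_sub q'.1 z₁ w₁
    rw [norm_sub_rev z₁] at this
    linarith
  have n₃ : ‖w₃ - q'.2‖ ≤ 2 * t := by
    have := norm_sub_le_norm_sub_add_norm_sub w₃ z₃ q'.2
    rw [norm_sub_rev z₃] at this
    linarith
  have hσ : 0 < t ^ (D.c (l' + 1) / 2) := by positivity
  have p₁ := pole_gen (L.W_inv (l' + 1)) hK hc.le γ₁ a g₁ b₁ n₁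
  have p₃ := pole_gen (L.W_inv (l' + 1)) hK hc.le γ₃ d b₃ g₃ n₃
  rw [e3, ← mul_assoc] at p₁ p₃
  have q₁ := hK' γ₁ γ₂ a b z₁ z₂ w₁ w₂ η (B_mono (by norm_num) a hz₁) (B_mono (by norm_num) b hz₂)
    hxy b₁ b₂ hw₁ hw₂
  have q₃ := hK' γ₂ γ₃ b d z₂ z₃ w₂ w₃ η (B_mono (by norm_num) b hz₂) (B_mono (by norm_num) d hz₃)
    hyz b₂ b₃ hw₂ hw₃
  rw [e2] at q₁ q₃
  have hy₁ : 0 < L.F (C.pt γ₂ b w₂) := (mul_pos hκ hσ).trans_le f₂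
  have m2 : K' * (t ^ (D.c (l' + 1) / 2)) ^ 4 ≤ M * (t ^ (D.c (l' + 1) / 2)) ^ 4 :=
    mul_le_mul_of_nonneg_right hM2 (by positivity)
  have m1 : max K 1 * 2 ^ D.c (l' + 1) * (t ^ (D.c (l' + 1) / 2)) ^ 2 ≤
      M * (t ^ (D.c (l' + 1) / 2)) ^ 2 := mul_le_mul_of_nonneg_right hM1 (by positivity)
  have hω : L.W (l + 1) (C.pt γ₁ a w₁) (C.pt γ₃ d w₃) * L.F (C.pt γ₂ b w₂) ≤
      M * (t ^ (D.c (l' + 1) / 2)) ^ 4 := by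
    have c2 := L.chain (l + 1) (C.pt γ₁ a w₁) (C.pt γ₂ b w₂) (C.pt γ₂ b w₂) (C.pt γ₃ d w₃)
    rw [lim_diag L, zero_mul, ← mul_assoc] at c2
    refine le_of_mul_le_mul_right (c2.trans (max_le ?_ (max_le (by positivity) ?_))) hy₁
    · exact mul_le_mul (q₁.trans m2) (mul_le_of_le_one_right hy₁.le (L.F_le _))
        (mul_nonneg hy₁.le (L.F_nonneg _)) (by positivity)
    · exact mul_le_mul (q₃.trans m2) (mul_le_of_le_one_left hy₁.le (L.F_le _))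
        (mul_nonneg (L.F_nonneg _) hy₁.le) (by positivity)
  refine tr_num hκ hσ hM0 (L.W_nonneg _ _ _) (L.F_nonneg (C.pt γ₁ a q'.1)) (L.F_le _)
    (L.F_nonneg (C.pt γ₃ d q'.2)) (L.F_le _) f₁ f₃ f₂ (p₁.trans m1) (p₃.trans m1)
    (L.W_nonneg (l' + 1) (C.pt γ₁ a w₁) (C.pt γ₃ d w₃)) ?_
    (L.chain l' (C.pt γ₁ a q'.1) (C.pt γ₁ a w₁) (C.pt γ₃ d w₃) (C.pt γ₃ d q'.2))
  exact (mul_le_mul_of_nonneg_right (lim_mono L (by omega) _ _) hy₁.le).trans hω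

/-- transitivity -/
theorem tr : Z.TR :=
  ⟨tr_refl Z, fun _ _ hx hy => tr_iff Z hx hy, fun _ _ _ hx hy hz => tr_pos Z hx hy hz,
    fun l _ _ _ hx hy hz => tr_small Z l hx hy hz⟩

end Vale.Agent.P284Y.D.S
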