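import Vale.Agent.P284Y.D.Spec
import Vale.Agent.P284Y.D.Defs

/-!
# P284Y, block D: smooth global data, statements of the steps
-/

open scoped ContDiff Topology
open Filter Set Function Metric MeasureTheory

noncomputable section

namespace Vale.Agent.P284Y.D

open Vale.Agent.P272.K Vale.Agent.P284Z Vale.Agent.P284.H894.G Vale.Agent.P284Y.Lib

variable {n : ℕ} {Γ E : Type} [Group Γ] [TopologicalSpace E] [MulAction Γ E]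

/-- `w - g - g` -/
def uu (g : E → ℝ) (w : E → E → ℝ) (x y : E) : ℝ := w x y - g x - g y

/-- smooth global data, additive -/
structure GD (C : Cov n Γ E) where
  A : ℝ
  Al : ℕ → ℝ
  K : ℕ → ℝ
  c : ℕ → ℝ
  η : ℕ → ℝ
  L : ℕ → ℝ
  g : ℕ → E → ℝ
  w : ℕ → ℕ → E → E → ℝ
  m : ℕ → E → Γ → ℝ
  c_pos : ∀ l, 0 < c l
  η_tend : Tendsto η atTop (𝓝 0)
  L_tend : Tendsto L atTop atTop
  g_sm : ∀ j y, C.SmAt (g j) y
  g_psh : ∀ j, QP C A (g j) univ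
  g_inv : ∀ j (γ : Γ) y, g j (γ • y) = g j y
  g_le : ∀ j y, g j y ≤ 0
  w_sm : ∀ l j, Sm₂ C (w l j)
  w_psh : ∀ l j, QP₂ C (Al l) (w l j)
  w_inv : ∀ l j (γ : Γ) x y, w l j (γ • x) (γ • y) = w l j x y
  w_symm : ∀ l j x y, w l j x y = w l j y x
  u_le : ∀ l j x y, uu (g j) (w l j) x y ≤ K l
  chain : ∀ l, ∀ᶠ j in atTop, ∀ x₁ x₂ x₃ x₄, -L j ≤ g j x₁ → -L j ≤ g j x₂ → -L j ≤ g j x₃ →
    -L j ≤ g j x₄ → uu (g j) (w l j) x₁ x₄ ≤ max (uu (g j) (w (l + 1) j) x₁ x₂)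
      (max (uu (g j) (w (l + 1) j) x₂ x₃) (uu (g j) (w (l + 1) j) x₃ x₄)) + K l
  mono : ∀ l, ∀ᶠ j in atTop, ∀ x y, -L j ≤ g j x → -L j ≤ g j y →
    uu (g j) (w l j) x y ≤ uu (g j) (w (l + 1) j) x y + K l
  pole : ∀ l, ∀ᶠ j in atTop, ∀ a, ∀ z ∈ C.B 2 a, ∀ z' ∈ C.B 2 a, ∀ r > (0 : ℝ), ‖z - z'‖ ≤ r →
    w l j (C.pt 1 a z) (C.pt 1 a z') ≤ max (c l * Real.log r) (-(c l * L j)) + K l
  nondeg : ∃ S : Set E, IsCompact S ∧ ∀ l, ∀ᶠ j in atTop, ∃ x ∈ S, ∃ y ∈ S,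
    -K l ≤ g j x ∧ -K l ≤ g j y ∧ -K l ≤ uu (g j) (w l j) x y
  m_nonneg : ∀ j y γ, 0 ≤ m j y γ
  m_sum : ∀ j y, HasSum (m j y) 1
  m_eqv : ∀ j (γ : Γ) y γ', m j (γ • y) (γ * γ') = m j y γ'
  reiter : ∀ l, ∀ᶠ j in atTop, ∀ x y, -L j ≤ g j x → -L j ≤ g j y →
    uu (g j) (w l j) x y ≤ -K l → ∑' γ, |m j x γ - m j y γ| ≤ η l

/-- the global data approximate the data in the charts -/
def GK {C : Cov n Γ E} (Y : YF C) (G : GD C) : Prop :=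
  ∃ (l₀ : ℕ) (K₀ : ℝ), (∀ j γ a, ∀ z ∈ C.B 2 a, |G.g j (C.pt γ a z) - Y.f j a z 1| ≤ K₀) ∧
    ∀ l, ∃ K₁ : ℝ, ∀ᶠ j in atTop, ∀ γ a γ' b, ∀ x ∈ C.B 2 a, ∀ y ∈ C.B 2 b,
      uu (G.g j) (G.w l j) (C.pt γ a x) (C.pt γ' b y) ≤ Y.ut (l + l₀) j γ a x γ' b y + K₁

/-- the level data come from the global data -/
def LK {C : Cov n Γ E} (G : GD C) (D : LD C) : Prop :=
  (∀ j y, Real.exp (G.g j y - 1) ≤ D.F j y ∧ D.F j y ≤ 2 * max (Real.exp (G.g j y)) (D.e j)) ∧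
    ∀ l, ∃ θ > (0 : ℝ), ∃ K : ℝ, ∀ j x y, D.W l j x y ≤
      4 * max (D.F j x * D.F j y * Real.exp (θ * uu (G.g j) (G.w l j) x y + K)) (D.e j)

/-- **D1**: smoothing and gluing -/
def StD1 : Prop :=
  ∀ (n : ℕ) (Γ E : Type) [Group Γ] [Countable Γ] [TopologicalSpace E] [T2Space E]
    [ConnectedSpace E] [MulAction Γ E] (C : Cov n Γ E), ¬ Folner Γ →
    ∀ (p : ℕ) (V : ℕ → Set E) (sh : ℕ → E → Cm p) (Y : YD C V sh), ∃ G : GD C, GK Y.toYF G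

/-- **D2**: the floor -/
def StD2 : Prop :=
  ∀ (n : ℕ) (Γ E : Type) [Group Γ] [Countable Γ] [TopologicalSpace E] [T2Space E]
    [ConnectedSpace E] [MulAction Γ E] (C : Cov n Γ E) (G : GD C), ∃ D : LD C, LK G D

/-- **K6'**: in the wandering case the plaques lie in the fibres of the tubes -/
def StK6 : Prop :=
  ∀ (n : ℕ) (Γ E : Type) [Group Γ] [Countable Γ] [TopologicalSpace E] [T2Space E]
    [ConnectedSpace E] [MulAction Γ E] (C : Cov n Γ E) (D : LD C) (L : Lim D) (Z : ZD L), Z.SB →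
    ∀ (Φ : FD Z) (N : NC Z Φ.d Φ.q Φ.l₁) (T : TD Φ N), ¬ T.Rec →
    ∀ (F : A.Fol C) (U : A.Tube F), N.Ψ.source ⊆ U.U →
    (∀ᵐ t, t ∈ ball U.t₁ U.r → ∀ τ > (0 : ℝ), Nonempty (A.Sesh U t τ)) →
    ∀ x ∈ N.Ψ.source, ∀ y ∈ N.Ψ.source, (N.Ψ x).2 = (N.Ψ y).2 → U.sh x = U.sh y

end Vale.Agent.P284Y.D
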