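import Vale.Agent.P284Y.A.Out
import Vale.Agent.P284Y.YD
import Vale.Agent.P284Z.Spec

/-!
# P284Y, rows D and K6': what is extracted from the level data
-/

open scoped ContDiff Topology
open Filter Set Function Metric MeasureTheory

noncomputable section

namespace Vale.Agent.P284Y

open Vale.Agent.P272.K Vale.Agent.P284Z Vale.Agent.P284.H894.G

variable {n : ℕ} {Γ E : Type} [Group Γ] [TopologicalSpace E] [MulAction Γ E]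

/-- A base point in the core of a tube, where `f` stays bounded, and the shell bound. -/
structure DK {C : Cov n Γ E} (Y : YF C) {F : A.Fol C} (T : ℕ → A.Tube F) where
  φ : ℕ → ℕ
  mono : StrictMono φ
  i₀ : ℕ
  a₀ : C.I
  z₀ : Cm n
  l : ℕ
  m : ℝ
  m_nonneg : 0 ≤ m
  mem : z₀ ∈ C.B 1 a₀
  tube : C.pt 1 a₀ z₀ ∈ (T i₀).U ∧ ‖(T i₀).sh (C.pt 1 a₀ z₀) - (T i₀).t₁‖ < (T i₀).r / 8
  base : ∃ K : ℝ, ∀ᶠ j in atTop, -K ≤ Y.f (φ j) a₀ z₀ 1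
  shell : ∃ V ∈ 𝓝 z₀, V ⊆ C.B 1 a₀ ∧ ∀ S ⊆ V, IsCompact S →
    (∀ z ∈ S, (T i₀).sh (C.pt 1 a₀ z) ≠ (T i₀).sh (C.pt 1 a₀ z₀)) →
    ∃ K : ℝ, ∀ X : ℝ, ∀ᶠ j in atTop, ∀ z ∈ S, -X ≤ Y.f (φ j) a₀ z 1 →
      m * Y.f (φ j) a₀ z 1 - K ≤ Y.ut l (φ j) 1 a₀ z₀ 1 a₀ z

/-- **D, K6'** -/
def StDK : Prop :=
  ∀ (n : ℕ) (Γ E : Type) [Group Γ] [Countable Γ] [TopologicalSpace E] [T2Space E]
    [ConnectedSpace E] [MulAction Γ E] (C : Cov n Γ E), Group.FG Γ → ¬ Folner Γ → NoRad Γ →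
    ∀ (F : A.Fol C) (T : ℕ → A.Tube F), A.Covers T →
    (∀ i, ∀ᵐ t, t ∈ ball (T i).t₁ (T i).r → ∀ τ > (0 : ℝ), Nonempty (A.Sesh (T i) t τ)) →
    ∀ (p : ℕ) (V : ℕ → Set E) (sh : ℕ → E → Cm p) (Y : YD C V sh), Nonempty (DK Y.toYF T)

end Vale.Agent.P284Y
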